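import Mathlib

set_option autoImplicit false

namespace Crest.Agent.H2BF

open Finset

/-! ### Junta degree -/

/-- `f` is a linear combination of juntas on at most `d` coordinates. -/
def Deg {ι α : Type} (d : ℕ) (f : (ι → α) → ℝ) : Prop :=
  f ∈ Submodule.span ℝ {g : (ι → α) → ℝ | ∃ T : Finset ι, T.card ≤ d ∧ DependsOn g (T : Set ι)}

section
variable {ι α : Type}

lemma Deg.of_dep {d : ℕ} {f : (ι → α) → ℝ} (T : Finset ι) (hT : T.card ≤ d)
    (hf : ∀ x y : ι → α, (∀ i ∈ T, x i = y i) → f x = f y) : Deg d f :=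
  Submodule.subset_span ⟨T, hT, fun x y h => hf x y (fun i hi => h i (by simpa using hi))⟩

lemma Deg.mono {d e : ℕ} {f : (ι → α) → ℝ} (h : Deg d f) (hde : d ≤ e) : Deg e f :=
  Submodule.span_mono (by rintro g ⟨T, hT, hg⟩; exact ⟨T, hT.trans hde, hg⟩) h

lemma Deg.const (d : ℕ) (c : ℝ) : Deg d (fun _ : ι → α => c) :=
  Deg.of_dep ∅ (by simp) (fun _ _ _ => rfl)

lemma Deg.add {d : ℕ} {f g : (ι → α) → ℝ} (hf : Deg d f) (hg : Deg d g) :
    Deg d (fun x => f x + g x) := Submodule.add_mem _ hf hg

lemma Deg.sub {d : ℕ} {f g : (ι → α) → ℝ} (hf : Deg d f) (hg : Deg d g) :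
    Deg d (fun x => f x - g x) := Submodule.sub_mem _ hf hg

lemma Deg.smul {d : ℕ} {f : (ι → α) → ℝ} (c : ℝ) (hf : Deg d f) :
    Deg d (fun x => c * f x) := Submodule.smul_mem _ c hf

lemma Deg.sum {β : Type*} {d : ℕ} (s : Finset β) {f : β → (ι → α) → ℝ}
    (hf : ∀ b ∈ s, Deg d (f b)) : Deg d (fun x => ∑ b ∈ s, f b x) := by
  have := Submodule.sum_mem _ hf
  have e : (fun x => ∑ b ∈ s, f b x) = ∑ b ∈ s, f b := by
    ext x
    simp
  rw [e]
  exact this

lemma Deg.congr {d : ℕ} {f g : (ι → α) → ℝ} (hf : Deg d f) (h : ∀ x, g x = f x) : Deg d g := by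
  have : g = f := funext h
  rwa [this]

lemma Deg.induction {d : ℕ} {P : ((ι → α) → ℝ) → Prop}
    (h1 : ∀ (g : (ι → α) → ℝ) (T : Finset ι), T.card ≤ d →
      (∀ x y : ι → α, (∀ i ∈ T, x i = y i) → g x = g y) → P g)
    (h2 : ∀ f g, P f → P g → P (fun x => f x + g x))
    (h3 : ∀ (c : ℝ) f, P f → P (fun x => c * f x))
    {f : (ι → α) → ℝ} (hf : Deg d f) : P f := by
  refine Submodule.span_induction (p := fun f _ => P f) ?_ ?_ ?_ ?_ hf
  · rintro g ⟨T, hT, hg⟩
    exact h1 g T hT (fun x y h => hg (fun i hi => h i (by simpa using hi)))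
  · exact h1 _ ∅ (by simp) (fun _ _ _ => rfl)
  · intro x y _ _ hx hy
    exact h2 x y hx hy
  · intro c x _ hx
    exact h3 c x hx

lemma Deg.mul {d e : ℕ} {f g : (ι → α) → ℝ} (hf : Deg d f) (hg : Deg e g) :
    Deg (d + e) (fun x => f x * g x) := by
  classical
  refine Deg.induction (P := fun f => Deg (d + e) (fun x => f x * g x)) ?_ ?_ ?_ hf
  · intro f T hT hf
    refine Deg.induction (P := fun g => Deg (d + e) (fun x => f x * g x)) ?_ ?_ ?_ hg
    · intro g U hU hg
      refine Deg.of_dep (T ∪ U) ((card_union_le _ _).trans (by omega)) (fun x y h => ?_)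
      rw [hf x y (fun i hi => h i (mem_union_left _ hi)),
        hg x y (fun i hi => h i (mem_union_right _ hi))]
    · intro a b ha hb
      exact (ha.add hb).congr (fun x => by ring)
    · intro c a ha
      exact (ha.smul c).congr (fun x => by ring)
  · intro a b ha hb
    exact (ha.add hb).congr (fun x => by ring)
  · intro c a ha
    exact (ha.smul c).congr (fun x => by ring)

lemma Deg.prod {β : Type*} (s : Finset β) {d : β → ℕ} {f : β → (ι → α) → ℝ}
    (hf : ∀ b ∈ s, Deg (d b) (f b)) : Deg (∑ b ∈ s, d b) (fun x => ∏ b ∈ s, f b x) := by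
  classical
  induction s using Finset.induction_on with
  | empty => simpa using Deg.const 0 1
  | insert a s ha ih =>
    simp only [sum_insert ha, prod_insert ha]
    exact (hf a (mem_insert_self _ _)).mul (ih (fun b hb => hf b (mem_insert_of_mem hb)))

lemma Deg.pow {d : ℕ} {f : (ι → α) → ℝ} (hf : Deg d f) (n : ℕ) :
    Deg (n * d) (fun x => f x ^ n) := by
  induction n with
  | zero => simpa using Deg.const 0 1
  | succ n ih =>
    rw [Nat.succ_mul]
    exact (ih.mul hf).congr (fun x => pow_succ _ _)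

lemma Deg.of_card [Fintype ι] (f : (ι → α) → ℝ) : Deg (Fintype.card ι) f :=
  Deg.of_dep univ le_rfl (fun x y h => by rw [show x = y from funext (fun i => h i (mem_univ i))])

lemma Deg.comp {ι' : Type} {d : ℕ} {f : (ι → α) → ℝ} (hf : Deg d f) (φ : ι → ι') :
    Deg d (fun x : ι' → α => f (fun i => x (φ i))) := by
  classical
  refine Deg.induction (P := fun f => Deg d (fun x : ι' → α => f (fun i => x (φ i)))) ?_ ?_ ?_ hf
  · intro g T hT hg
    refine Deg.of_dep (T.image φ) (card_image_le.trans hT) (fun x y h => hg _ _ (fun i hi => ?_))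
    exact h _ (mem_image_of_mem φ hi)
  · intro a b ha hb
    exact ha.add hb
  · intro c a ha
    exact ha.smul c

lemma Deg.coord (F : α → ℝ) (i : ι) : Deg 1 (fun x : ι → α => F (x i)) :=
  Deg.of_dep {i} (by simp) (fun x y h => by rw [h i (mem_singleton_self i)])

/-- composition with a labelling of blocks -/
lemma Deg.lift {N κ A : Type} [Fintype A] [DecidableEq A] [Nonempty A]
    {D c : ℕ} (lab : (κ → α) → A)
    (hlab : ∀ a, Deg c (fun x => if lab x = a then (1 : ℝ) else 0))
    {F : (N → A) → ℝ} (hF : Deg D F) :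
    Deg (D * c) (fun x : N × κ → α => F (fun i => lab (fun j => x (i, j)))) := by
  classical
  refine Deg.induction
    (P := fun F => Deg (D * c) (fun x : N × κ → α => F (fun i => lab (fun j => x (i, j)))))
    ?_ ?_ ?_ hF
  · intro g T hT hg
    obtain ⟨a0⟩ := ‹Nonempty A›
    have key : ∀ a : N → A, g a = ∑ z : T → A,
        g (fun i => if h : i ∈ T then z ⟨i, h⟩ else a0) *
          ∏ i : T, (if a i = z i then (1 : ℝ) else 0) := by
      intro a
      rw [sum_eq_single (fun i : T => a i)]
      · simp only [if_true, prod_const_one, mul_one]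
        exact hg _ _ (fun i hi => by simp [hi])
      · intro z _ hz
        obtain ⟨i, hi⟩ := Function.ne_iff.1 hz
        rw [prod_eq_zero (mem_univ i) (by rw [if_neg (fun h => hi h.symm)]), mul_zero]
      · simp
    refine Deg.congr ?_ (fun x => key _)
    refine Deg.sum _ (fun z _ => Deg.smul _ ?_)
    have := Deg.prod (univ : Finset T) (d := fun _ => c)
      (f := fun i (x : N × κ → α) => if lab (fun j => x (i, j)) = z i then (1 : ℝ) else 0)
      (fun i _ => (hlab (z i)).comp (fun j => ((i : N), j)))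
    refine this.mono ?_
    simp only [sum_const, card_univ, Fintype.card_coe, smul_eq_mul]
    exact Nat.mul_le_mul_right _ hT
  · intro a b ha hb
    exact ha.add hb
  · intro c a ha
    exact ha.smul c

/-- Fourier coefficients above the degree vanish -/
lemma Deg.fourier [Fintype ι] [DecidableEq ι] {d : ℕ} {f : (ι → Bool) → ℝ} (hf : Deg d f)
    (S : Finset ι) (hS : d < S.card) :
    ∑ x : ι → Bool, f x * ∏ i ∈ S, (if x i then (1 : ℝ) else -1) = 0 := by
  refine Deg.induction
    (P := fun f => ∑ x : ι → Bool, f x * ∏ i ∈ S, (if x i then (1 : ℝ) else -1) = 0) ?_ ?_ ?_ hf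
  · intro g T hT hg
    obtain ⟨i0, hi0, hi0'⟩ : ∃ i0 ∈ S, i0 ∉ T := by
      by_contra hcon
      push Not at hcon
      have := card_le_card (show S ⊆ T from hcon)
      omega
    refine sum_involution (fun x _ => Function.update x i0 (!x i0)) ?_ ?_ (fun _ _ => mem_univ _) ?_
    · intro x _
      rw [hg (Function.update x i0 (!x i0)) x (fun i hi => by
        rw [Function.update_of_ne (by rintro rfl; exact hi0' hi)])]
      rw [← mul_prod_erase S _ hi0, ← mul_prod_erase S _ hi0]
      have : ∏ i ∈ S.erase i0, (if Function.update x i0 (!x i0) i then (1 : ℝ) else -1) =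
          ∏ i ∈ S.erase i0, (if x i then (1 : ℝ) else -1) :=
        prod_congr rfl (fun i hi => by rw [Function.update_of_ne (ne_of_mem_erase hi)])
      rw [this, Function.update_self]
      cases x i0 <;> simp
    · intro x _ _ h
      have := congrFun h i0
      simp at this
    · intro x _
      simp
  · intro a b ha hb
    simp only [add_mul, sum_add_distrib, ha, hb, add_zero]
  · intro c a ha
    simp only [mul_assoc, ← mul_sum, ha, mul_zero]

end

/-! ### Expectation under product weights -/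

/-- expectation of `F` when the coordinates are independent with law `p` -/
noncomputable def Ex {N A : Type} [Fintype N] [DecidableEq N] [Fintype A] (p : A → ℝ)
    (F : (N → A) → ℝ) : ℝ := ∑ a : N → A, (∏ i, p (a i)) * F a

section
variable {N A : Type} [Fintype N] [DecidableEq N] [Fintype A] {p : A → ℝ}

lemma Ex_prod (f : N → A → ℝ) : Ex p (fun a => ∏ i, f i (a i)) = ∏ i, ∑ a, p a * f i a := by
  unfold Ex
  rw [prod_univ_sum, Fintype.piFinset_univ]
  exact sum_congr rfl (fun a _ => by rw [prod_mul_distrib])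

lemma Ex_add (F G : (N → A) → ℝ) : Ex p (fun a => F a + G a) = Ex p F + Ex p G := by
  simp only [Ex, mul_add, sum_add_distrib]

lemma Ex_sub (F G : (N → A) → ℝ) : Ex p (fun a => F a - G a) = Ex p F - Ex p G := by
  simp only [Ex, mul_sub, sum_sub_distrib]

lemma Ex_smul (c : ℝ) (F : (N → A) → ℝ) : Ex p (fun a => c * F a) = c * Ex p F := by
  simp only [Ex, mul_sum]
  exact sum_congr rfl (fun a _ => by ring)

lemma Ex_sum {β : Type*} (s : Finset β) (F : β → (N → A) → ℝ) :
    Ex p (fun a => ∑ b ∈ s, F b a) = ∑ b ∈ s, Ex p (F b) := by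
  simp only [Ex, mul_sum]
  exact sum_comm

lemma Ex_congr {F G : (N → A) → ℝ} (h : ∀ a, F a = G a) : Ex p F = Ex p G := by
  rw [show F = G from funext h]

lemma Ex_mono (hp : ∀ a, 0 ≤ p a) {F G : (N → A) → ℝ} (h : ∀ a, F a ≤ G a) : Ex p F ≤ Ex p G :=
  sum_le_sum (fun a _ => mul_le_mul_of_nonneg_left (h a) (prod_nonneg (fun _ _ => hp _)))

lemma Ex_const (hp : ∑ a, p a = 1) (c : ℝ) : Ex p (fun _ : N → A => c) = c := by
  have := Ex_prod (p := p) (fun (_ : N) (_ : A) => (1 : ℝ))
  simp only [prod_const_one, mul_one, hp] at this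
  have h2 := Ex_smul (p := p) c (fun _ : N → A => (1 : ℝ))
  simpa [this] using h2

lemma Ex_reindex {N' : Type} [Fintype N'] [DecidableEq N'] (e : N ≃ N') (F : (N → A) → ℝ) :
    Ex p (fun a : N' → A => F (fun i => a (e i))) = Ex p F := by
  unfold Ex
  refine Fintype.sum_equiv (Equiv.arrowCongr e.symm (Equiv.refl A)) _ _ (fun a => ?_)
  congr 1
  exact (Equiv.prod_comp e (fun i => p (a i))).symm

lemma Ex_coord (hp : ∑ a, p a = 1) (i0 : N) (f : A → ℝ) :
    Ex p (fun a : N → A => f (a i0)) = ∑ a, p a * f a := by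
  have := Ex_prod (p := p) (fun (i : N) (a : A) => if i = i0 then f a else 1)
  simp only [prod_ite_eq', mem_univ, if_true] at this
  rw [this, prod_eq_single i0]
  · simp
  · intro b _ hb
    simp [hb, hp]
  · simp

lemma Ex_sq_sum (hp : ∑ a, p a = 1) (y : A → ℝ) (hy : ∑ a, p a * y a = 0) :
    Ex p (fun a : N → A => (∑ i, y (a i)) ^ 2) = Fintype.card N * ∑ a, p a * y a ^ 2 := by
  have : ∀ a : N → A, (∑ i, y (a i)) ^ 2 = ∑ i, ∑ j, y (a i) * y (a j) := by
    intro a
    rw [sq, sum_mul_sum]
  rw [Ex_congr this, Ex_sum]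
  have h2 : ∀ i : N, Ex p (fun a : N → A => ∑ j, y (a i) * y (a j)) = ∑ a, p a * y a ^ 2 := by
    intro i
    rw [Ex_sum, sum_eq_single i]
    · rw [← Ex_coord hp i (fun a => y a ^ 2)]
      exact Ex_congr (fun a => by ring)
    · intro j _ hj
      have := Ex_prod (p := p) (fun (l : N) (a : A) =>
        (if l = i then y a else 1) * (if l = j then y a else 1))
      simp only [prod_mul_distrib, prod_ite_eq', mem_univ, if_true] at this
      rw [this]
      refine prod_eq_zero (mem_univ i) ?_
      simp [Ne.symm hj, hy]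
    · simp
  simp [h2]

/-- block factorisation -/
lemma Ex_blocks {M B R : Type} [Fintype M] [DecidableEq M] [Fintype B] [DecidableEq B]
    [Fintype R] [DecidableEq R] (F : M → (B → A) → ℝ) (G : (R → A) → ℝ) :
    Ex p (fun a : (M × B) ⊕ R → A =>
      (∏ j, F j (fun i => a (Sum.inl (j, i)))) * G (fun i => a (Sum.inr i))) =
      (∏ j, Ex p (F j)) * Ex p G := by
  unfold Ex
  rw [prod_univ_sum, Fintype.piFinset_univ, sum_mul_sum, ← Fintype.sum_prod_type']
  refine Fintype.sum_equiv
    ((Equiv.sumArrowEquivProdArrow _ _ _).trans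
      (Equiv.prodCongr (Equiv.curry M B A) (Equiv.refl _))) _ _ (fun a => ?_)
  rw [Fintype.prod_sum_type, Fintype.prod_prod_type, prod_mul_distrib]
  simp only [Equiv.trans_apply, Equiv.prodCongr_apply, Equiv.coe_refl, Prod.map_fst, Prod.map_snd,
    id_eq, Equiv.curry_apply, Equiv.sumArrowEquivProdArrow_apply_fst,
    Equiv.sumArrowEquivProdArrow_apply_snd, Function.curry_apply]
  have e1 : ∀ j, Function.curry ((Equiv.sumArrowEquivProdArrow (M × B) R A) a).1 j =
      fun i => a (Sum.inl (j, i)) := fun j => rfl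
  have e2 : ((Equiv.sumArrowEquivProdArrow (M × B) R A) a).2 = fun i => a (Sum.inr i) := rfl
  simp only [e1, e2]
  ring

end

end Crest.Agent.H2BF
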