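import Crest.Agent.H2.BF1

set_option autoImplicit false

namespace Crest.Agent.H2BF

open Finset

/-! ### Pigeonhole partial colouring -/

lemma exists_balanced {X I : Type} [Fintype I] [DecidableEq I] [DecidableEq X] (S : Finset X)
    (v : X → I → ℤ) (hv : ∀ x i, |v x i| ≤ 1) :
    ∃ P N : Finset X, P ⊆ S ∧ N ⊆ S ∧ Disjoint P N ∧ (∀ i, ∑ x ∈ P, v x i = ∑ x ∈ N, v x i) ∧
      2 ^ (S \ (P ∪ N)).card ≤ (2 * S.card + 1) ^ Fintype.card I := by
  classical
  obtain ⟨⟨P, N⟩, hPN, hmax⟩ := exists_max_image
    ((S.powerset ×ˢ S.powerset).filter (fun q : Finset X × Finset X => Disjoint q.1 q.2 ∧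
      ∀ i, ∑ x ∈ q.1, v x i = ∑ x ∈ q.2, v x i)) (fun q => (q.1 ∪ q.2).card)
    ⟨(∅, ∅), by simp⟩
  simp only [mem_filter, mem_product, mem_powerset] at hPN hmax
  obtain ⟨⟨hP, hN⟩, hd, hs⟩ := hPN
  refine ⟨P, N, hP, hN, hd, hs, ?_⟩
  by_contra hlt
  push Not at hlt
  set L := S \ (P ∪ N) with hL
  have hcard : (Fintype.piFinset (fun _ : I => Icc (-(S.card : ℤ)) S.card)).card <
      L.powerset.card := by
    rw [Fintype.card_piFinset, card_powerset]
    simp only [Int.card_Icc, prod_const, card_univ]
    rw [show ((S.card : ℤ) + 1 - -(S.card : ℤ)).toNat = 2 * S.card + 1 by omega]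
    exact hlt
  obtain ⟨U, hU, U', hU', hne, heq⟩ := exists_ne_map_eq_of_card_lt_of_maps_to hcard
    (f := fun U i => ∑ x ∈ U, v x i) (by
      intro U hU
      simp only [coe_powerset, Set.mem_preimage, Set.mem_powerset_iff, coe_subset] at hU
      rw [mem_coe, Fintype.mem_piFinset]
      intro i
      rw [mem_Icc, ← abs_le]
      refine (abs_sum_le_sum_abs _ _).trans ?_
      refine (sum_le_sum (fun x _ => hv x i)).trans ?_
      simp only [sum_const, nsmul_eq_mul, mul_one, Nat.cast_le]
      exact card_le_card (hU.trans sdiff_subset))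
  rw [mem_powerset] at hU hU'
  have hUd : ∀ x ∈ L, x ∈ S ∧ x ∉ P ∧ x ∉ N := by
    intro x hx
    simpa [hL] using hx
  have d1 : Disjoint P (U \ U') := disjoint_left.2 (fun x hx hx' =>
    (hUd x (hU (mem_sdiff.1 hx').1)).2.1 hx)
  have d2 : Disjoint N (U' \ U) := disjoint_left.2 (fun x hx hx' =>
    (hUd x (hU' (mem_sdiff.1 hx').1)).2.2 hx)
  have := hmax (P ∪ (U \ U'), N ∪ (U' \ U)) ⟨⟨?_, ?_⟩, ?_, ?_⟩
  · refine absurd this (not_le.2 (card_lt_card ⟨?_, ?_⟩))
    · exact union_subset_union subset_union_left subset_union_left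
    · intro hsub
      apply hne
      ext x
      constructor
      · intro hx
        by_contra hx'
        have h1 := hsub (show x ∈ _ by simp [hx, hx'])
        have h2 := hUd x (hU hx)
        simp only [mem_union] at h1
        tauto
      · intro hx
        by_contra hx'
        have h1 := hsub (show x ∈ _ by simp [hx, hx'])
        have h2 := hUd x (hU' hx)
        simp only [mem_union] at h1
        tauto
  · exact union_subset hP (fun x hx => (hUd x (hU (mem_sdiff.1 hx).1)).1)
  · exact union_subset hN (fun x hx => (hUd x (hU' (mem_sdiff.1 hx).1)).1)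
  · simp only [disjoint_union_left, disjoint_union_right]
    refine ⟨⟨hd, ?_⟩, ?_, ?_⟩
    · exact disjoint_left.2 (fun x hx hx' => (hUd x (hU (mem_sdiff.1 hx).1)).2.2 hx')
    · exact disjoint_left.2 (fun x hx hx' => (hUd x (hU' (mem_sdiff.1 hx').1)).2.1 hx)
    · exact disjoint_left.2 (fun x hx hx' => (mem_sdiff.1 hx).2 (mem_sdiff.1 hx').1)
  · intro i
    simp only
    rw [sum_union d1, sum_union d2, hs i]
    have h1 := sum_sdiff (f := fun x => v x i) (inter_subset_left (s₁ := U) (s₂ := U'))
    have h2 := sum_sdiff (f := fun x => v x i) (inter_subset_right (s₁ := U) (s₂ := U'))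
    rw [sdiff_inter_self_left] at h1
    rw [sdiff_inter_self_right] at h2
    have h3 : ∑ x ∈ U, v x i = ∑ x ∈ U', v x i := congrFun heq i
    linarith

/-! ### Blocks -/

def hist {A : Type} [DecidableEq A] {b : ℕ} (x : Fin b → A) : A → Fin (b + 1) :=
  fun a => ⟨(univ.filter (fun i => x i = a)).card,
    Nat.lt_succ_of_le ((card_filter_le _ _).trans (by simp))⟩

lemma prod_hist {A M : Type} [Fintype A] [DecidableEq A] [CommMonoid M] {b : ℕ} (x : Fin b → A)
    (f : A → M) : ∏ i, f (x i) = ∏ a, f a ^ (hist x a).val := by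
  rw [← prod_fiberwise_of_maps_to (s := univ) (t := univ) (g := x) (fun _ _ => mem_univ _)]
  refine prod_congr rfl (fun a _ => ?_)
  rw [prod_congr rfl (g := fun _ => f a) (fun i hi => by rw [(mem_filter.1 hi).2])]
  simp [hist]

lemma sum_hist {A : Type} [Fintype A] [DecidableEq A] {b : ℕ} (x : Fin b → A)
    (f : A → ℝ) : ∑ i, f (x i) = ∑ a, (hist x a).val * f a := by
  rw [← sum_fiberwise_of_maps_to (s := univ) (t := univ) (g := x) (fun _ _ => mem_univ _)]
  refine sum_congr rfl (fun a _ => ?_)
  rw [sum_congr rfl (g := fun _ => f a) (fun i hi => by rw [(mem_filter.1 hi).2])]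
  simp [hist]

def mu1 {A : Type} [DecidableEq A] (s y z : A) : ℤ :=
  if y = z then 1 else if y = s then -1 else 0

def ze1 {A : Type} [DecidableEq A] (s z x : A) : ℤ := if z = x ∨ z = s then 1 else 0

lemma mu_ze {A : Type} [Fintype A] [DecidableEq A] (s y x : A) :
    ∑ z, mu1 s y z * ze1 s z x = if y = x then 1 else 0 := by
  by_cases hy : y = s
  · subst hy
    by_cases hx : y = x
    · subst hx
      rw [sum_eq_single y]
      · simp [mu1, ze1]
      · intro z _ hz
        simp [ze1, hz]
      · simp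
    · rw [sum_eq_add y x hx]
      · simp [mu1, ze1, hx]
      · intro z _ hz
        simp [ze1, hz.1, hz.2]
      · simp
      · simp
  · rw [sum_eq_single y]
    · simp [mu1, ze1, hy]
    · intro z _ hz
      simp [mu1, hy, Ne.symm hz]
    · simp

lemma moebius {A : Type} [Fintype A] [DecidableEq A] {b : ℕ} (s : A) (f : (Fin b → A) → ℝ)
    (x : Fin b → A) :
    f x = ∑ z : Fin b → A, (∑ y : Fin b → A, ((∏ i, mu1 s (y i) (z i) : ℤ) : ℝ) * f y) *
      ((∏ i, ze1 s (z i) (x i) : ℤ) : ℝ) := by
  simp only [sum_mul]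
  rw [sum_comm]
  have : ∀ y : Fin b → A, ∑ z : Fin b → A, ((∏ i, mu1 s (y i) (z i) : ℤ) : ℝ) * f y *
      ((∏ i, ze1 s (z i) (x i) : ℤ) : ℝ) = if y = x then f y else 0 := by
    intro y
    have h1 : ∑ z : Fin b → A, (∏ i, mu1 s (y i) (z i)) * (∏ i, ze1 s (z i) (x i)) =
        if y = x then 1 else 0 := by
      simp only [← prod_mul_distrib]
      rw [← Fintype.piFinset_univ, ← prod_univ_sum (fun _ => univ)
        (fun i z => mu1 s (y i) z * ze1 s z (x i))]
      simp only [mu_ze]
      rw [prod_boole]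
      simp [funext_iff]
    have h2 : (∑ z : Fin b → A, (((∏ i, mu1 s (y i) (z i) : ℤ) : ℝ) *
        ((∏ i, ze1 s (z i) (x i) : ℤ) : ℝ))) = if y = x then 1 else 0 := by
      exact_mod_cast h1
    calc _ = f y * (∑ z : Fin b → A, (((∏ i, mu1 s (y i) (z i) : ℤ) : ℝ) *
        ((∏ i, ze1 s (z i) (x i) : ℤ) : ℝ))) := by
          rw [mul_sum]; exact sum_congr rfl (fun z _ => by ring)
      _ = _ := by rw [h2]; split_ifs <;> simp
  rw [sum_congr rfl (fun y _ => this y)]
  simp

lemma deg_of_moebius {A : Type} [Fintype A] [DecidableEq A] {b k : ℕ} (s : A)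
    (f : (Fin b → A) → ℝ)
    (hf : ∀ z : Fin b → A, (hist z s).val < k →
      ∑ y : Fin b → A, ((∏ i, mu1 s (y i) (z i) : ℤ) : ℝ) * f y = 0) : Deg (b - k) f := by
  refine Deg.congr ?_ (moebius s f)
  refine Deg.sum _ (fun z _ => ?_)
  by_cases hz : (hist z s).val < k
  · rw [hf z hz]
    simpa using Deg.const _ 0
  · refine Deg.smul _ (Deg.of_dep (univ.filter (fun i => ¬ z i = s)) ?_ (fun x y h => ?_))
    · have := card_filter_add_card_filter_not (s := (univ : Finset (Fin b))) (fun i => z i = s)
      simp only [hist, card_univ, Fintype.card_fin] at this hz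
      omega
    · congr 1
      refine prod_congr rfl (fun i _ => ?_)
      by_cases hi : z i = s
      · simp [ze1, hi]
      · rw [h i (by simp [hi])]

lemma block_lemma {A : Type} [Fintype A] [DecidableEq A] (p : A → ℝ) (hp0 : ∀ a, 0 ≤ p a)
    (s s' : A) (hss : s' ≠ s) (hmin : ∀ a, p s ≤ p a) (b k : ℕ) (hk : 1 ≤ k) :
    ∃ ψ : (Fin b → A) → ℝ, (∀ x, ψ x = 0 ∨ ψ x = 1 ∨ ψ x = -1) ∧
      (∀ ν, Deg (b - k) (fun x => if hist x = ν then ψ x else 0)) ∧
      (∀ ν, Ex p (fun x => if hist x = ν then ψ x else 0) = 0) ∧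
      Ex p (fun x => if ψ x = 0 then (1 : ℝ) else 0) ≤
        ((b + 1) ^ Fintype.card A : ℕ) * (2 * (Fintype.card A * b + 2 : ℕ) *
          Ex p (fun x : Fin b → A => if (hist x s).val < k then (1 : ℝ) else 0)) := by
  classical
  set q := Ex p (fun x : Fin b → A => if (hist x s).val < k then (1 : ℝ) else 0) with hq
  let Rel : (A → Fin (b + 1)) → Finset (Fin b → A) := fun ν => univ.filter (fun z =>
    (hist z s).val < k ∧ ∃ y, hist y = ν ∧ ∀ i, y i = z i ∨ y i = s)
  have key : ∀ ν : A → Fin (b + 1), _ := fun ν =>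
    exists_balanced (I := Option (Rel ν)) (univ.filter (fun y : Fin b → A => hist y = ν))
      (fun y o => match o with
        | none => 1
        | some z => ∏ i, mu1 s (y i) (z.1 i)) (by
          intro y o
          rcases o with _ | z
          · simp
          · simp only [abs_prod]
            refine prod_le_one (fun _ _ => abs_nonneg _) (fun i _ => ?_)
            unfold mu1
            split_ifs <;> simp)
  choose P N hP hN hd hs hc using key
  have hP' : ∀ ν, ∀ x ∈ P ν, hist x = ν := fun ν x hx => by simpa using hP ν hx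
  have hN' : ∀ ν, ∀ x ∈ N ν, hist x = ν := fun ν x hx => by simpa using hN ν hx
  let ψ : (Fin b → A) → ℝ := fun x =>
    if x ∈ P (hist x) then 1 else if x ∈ N (hist x) then -1 else 0
  have hsum : ∀ ν (g : (Fin b → A) → ℝ),
      ∑ x, g x * (if hist x = ν then ψ x else 0) = ∑ x ∈ P ν, g x - ∑ x ∈ N ν, g x := by
    intro ν g
    rw [← sum_ite_mem_eq (P ν), ← sum_ite_mem_eq (N ν), ← sum_sub_distrib]
    refine sum_congr rfl (fun x _ => ?_)
    by_cases hx : hist x = ν
    · subst hx
      simp only [ψ, if_true]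
      by_cases h1 : x ∈ P (hist x)
      · have : x ∉ N (hist x) := disjoint_left.1 (hd _) h1
        simp [h1, this]
      · by_cases h2 : x ∈ N (hist x) <;> simp [h1, h2]
    · have h1 : x ∉ P ν := fun h => hx (hP' ν x h)
      have h2 : x ∉ N ν := fun h => hx (hN' ν x h)
      simp [hx, h1, h2]
  have hw0 : ∀ x : Fin b → A, 0 ≤ ∏ i, p (x i) := fun x => prod_nonneg (fun _ _ => hp0 _)
  have hwle : ∀ y z : Fin b → A, (∀ i, y i = z i ∨ y i = s) → ∏ i, p (y i) ≤ ∏ i, p (z i) := by
    intro y z h
    refine prod_le_prod (fun _ _ => hp0 _) (fun i _ => ?_)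
    rcases h i with h | h
    · rw [h]
    · rw [h]; exact hmin _
  have hqsub : ∀ T : Finset (Fin b → A), (∀ z ∈ T, (hist z s).val < k) →
      ∑ z ∈ T, ∏ i, p (z i) ≤ q := by
    intro T hT
    rw [hq, Ex]
    calc ∑ z ∈ T, ∏ i, p (z i)
        = ∑ z ∈ T, (∏ i, p (z i)) * (if (hist z s).val < k then (1 : ℝ) else 0) :=
          sum_congr rfl (fun z hz => by rw [if_pos (hT z hz), mul_one])
      _ ≤ _ := sum_le_sum_of_subset_of_nonneg (subset_univ _) (fun z _ _ =>
          mul_nonneg (hw0 z) (by split_ifs <;> norm_num))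
  refine ⟨ψ, fun x => ?_, fun ν => ?_, fun ν => ?_, ?_⟩
  · simp only [ψ]
    split_ifs <;> simp
  · refine deg_of_moebius s _ (fun z hz => ?_)
    rw [hsum]
    by_cases hrel : z ∈ Rel ν
    · have := hs ν (some ⟨z, hrel⟩)
      simp only at this
      rw [sub_eq_zero]
      exact_mod_cast this
    · have h0 : ∀ y, hist y = ν → ((∏ i, mu1 s (y i) (z i) : ℤ) : ℝ) = 0 := by
        intro y hy
        by_contra hne
        apply hrel
        simp only [Rel, mem_filter, mem_univ, true_and]
        refine ⟨hz, y, hy, fun i => ?_⟩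
        by_contra hi
        push Not at hi
        apply hne
        rw [prod_eq_zero (mem_univ i) (by simp [mu1, hi.1, hi.2])]
        simp
      rw [sum_eq_zero (fun y hy => h0 y (hP' ν y hy)), sum_eq_zero (fun y hy => h0 y (hN' ν y hy))]
      simp
  · rw [Ex, hsum]
    have h1 := hs ν none
    simp only [sum_const, nsmul_eq_mul, mul_one, Nat.cast_inj] at h1
    rw [sum_congr rfl (g := fun _ => ∏ a, p a ^ (ν a).val)
        (fun x hx => by rw [prod_hist, hP' ν x hx]),
      sum_congr rfl (s₁ := N ν) (g := fun _ => ∏ a, p a ^ (ν a).val)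
        (fun x hx => by rw [prod_hist, hN' ν x hx])]
    simp [h1]
  · have hcls : ∀ ν : A → Fin (b + 1),
        ∑ x ∈ (univ.filter (fun y : Fin b → A => hist y = ν)) \ (P ν ∪ N ν), ∏ i, p (x i) ≤
          2 * (Fintype.card A * b + 2 : ℕ) * q := by
      intro ν
      set L := (univ.filter (fun y : Fin b → A => hist y = ν)) \ (P ν ∪ N ν) with hL
      have hLc : L.card ≤ (Fintype.card A * b + 2) * ((Rel ν).card + 1) := by
        have h1 := hc ν
        rw [Fintype.card_option, Fintype.card_coe] at h1
        have h2 : (univ.filter (fun y : Fin b → A => hist y = ν)).card ≤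
            2 ^ (Fintype.card A * b) := by
          refine (card_le_univ _).trans ?_
          rw [Fintype.card_fun, Fintype.card_fin, pow_mul]
          exact Nat.pow_le_pow_left (Nat.lt_two_pow_self).le _
        have h3 : 2 * (univ.filter (fun y : Fin b → A => hist y = ν)).card + 1 ≤
            2 ^ (Fintype.card A * b + 2) := by
          have : 1 ≤ 2 ^ (Fintype.card A * b) := Nat.one_le_two_pow
          rw [pow_add]
          omega
        have h4 := h1.trans (Nat.pow_le_pow_left h3 _)
        rw [← pow_mul] at h4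
        exact (Nat.pow_le_pow_iff_right (by norm_num)).1 h4
      have hy : ∀ y ∈ L, (∏ i, p (y i)) * ((Rel ν).card + 1 : ℕ) ≤ 2 * q := by
        intro y hy
        have hyν : hist y = ν := by
          have := (mem_sdiff.1 hy).1
          simpa using this
        have a1 : (∏ i, p (y i)) * (Rel ν).card ≤ q := by
          refine le_trans ?_ (hqsub (Rel ν) (fun z hz => (mem_filter.1 hz).2.1))
          rw [mul_comm, ← nsmul_eq_mul, ← sum_const]
          refine sum_le_sum (fun z hz => ?_)
          obtain ⟨y', hy', hle⟩ := (mem_filter.1 hz).2.2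
          rw [prod_hist y, hyν, ← hy', ← prod_hist y']
          exact hwle y' z hle
        have a2 : ∏ i, p (y i) ≤ q := by
          refine le_trans ?_ (hqsub {fun i => if y i = s then s' else y i} ?_)
          · rw [sum_singleton]
            refine hwle _ _ (fun i => ?_)
            by_cases h : y i = s <;> simp [h]
          · intro z hz
            rw [mem_singleton] at hz
            subst hz
            have : (univ.filter (fun i => (if y i = s then s' else y i) = s)).card = 0 := by
              rw [card_eq_zero, filter_eq_empty_iff]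
              intro i _
              by_cases h : y i = s <;> simp [h, hss]
            simp only [hist, this]
            omega
        push_cast
        linarith
      have hq0 : 0 ≤ q := le_trans (by simp) (hqsub ∅ (by simp))
      have hpos : (0 : ℝ) < ((Rel ν).card + 1 : ℕ) := by positivity
      refine le_of_mul_le_mul_right ?_ hpos
      rw [sum_mul]
      refine (sum_le_sum hy).trans ?_
      rw [sum_const, nsmul_eq_mul]
      have : (L.card : ℝ) ≤ ((Fintype.card A * b + 2 : ℕ) : ℝ) * ((Rel ν).card + 1 : ℕ) := by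
        exact_mod_cast hLc
      nlinarith
    rw [Ex, ← sum_fiberwise_of_maps_to (s := univ) (t := univ) (g := hist) (fun _ _ => mem_univ _)]
    refine (sum_le_sum (g := fun _ => 2 * (Fintype.card A * b + 2 : ℕ) * q) (fun ν _ => ?_)).trans ?_
    · refine le_trans (le_of_eq ?_) (hcls ν)
      simp only [mul_ite, mul_one, mul_zero]
      rw [← sum_filter]
      refine sum_congr ?_ (fun _ _ => rfl)
      ext x
      simp only [mem_filter, mem_univ, true_and, mem_sdiff, mem_union, not_or]
      refine and_congr_right (fun hx => ?_)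
      subst hx
      simp only [ψ]
      split_ifs with h1 h2 <;> simp [*]
    · simp

end Crest.Agent.H2BF
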