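import Crest.Agent.H2.BF2

set_option autoImplicit false

namespace Crest.Agent.H2BF

open Finset

/-! ### Gilbert–Varshamov -/

lemma exists_code {G I : Type} [AddCommGroup G] [Fintype G] [DecidableEq G] [DecidableEq I]
    (B : Finset G) (S : Finset I) (h : 2 ^ S.card * B.card < Fintype.card G) :
    ∃ g : I → G, ∀ ξ ⊆ S, ξ.Nonempty → ∑ i ∈ ξ, g i ∉ B := by
  induction S using Finset.induction_on with
  | empty =>
    refine ⟨0, fun ξ hξ hne => ?_⟩
    rw [subset_empty] at hξ
    simp [hξ] at hne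
  | insert i S hi ih =>
    rw [card_insert_of_notMem hi, pow_succ] at h
    have h' : 2 ^ S.card * B.card < Fintype.card G := by
      refine lt_of_le_of_lt ?_ h
      exact Nat.mul_le_mul_right _ (by omega)
    obtain ⟨g, hg⟩ := ih h'
    obtain ⟨v, hv⟩ : ∃ v, v ∉ (S.powerset ×ˢ B).image (fun q => q.2 - ∑ j ∈ q.1, g j) := by
      by_contra hcon
      push Not at hcon
      have h1 := card_le_card (show univ ⊆ _ from fun v _ => hcon v)
      have h2 := h1.trans card_image_le
      rw [card_product, card_powerset, card_univ] at h2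
      omega
    refine ⟨Function.update g i v, fun ξ hξ hne => ?_⟩
    have hs : ∀ ζ ⊆ S, ∑ j ∈ ζ, Function.update g i v j = ∑ j ∈ ζ, g j := fun ζ hζ =>
      sum_congr rfl (fun j hj => Function.update_of_ne (by rintro rfl; exact hi (hζ hj)) _ _)
    by_cases hiξ : i ∈ ξ
    · have hsub : ξ.erase i ⊆ S := by
        intro j hj
        have := hξ (mem_of_mem_erase hj)
        rw [mem_insert] at this
        exact this.resolve_left (ne_of_mem_erase hj)
      rw [← add_sum_erase _ _ hiξ, hs _ hsub, Function.update_self]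
      intro hB
      exact hv (mem_image.2 ⟨(ξ.erase i, v + ∑ j ∈ ξ.erase i, g j),
        mem_product.2 ⟨mem_powerset.2 hsub, hB⟩, by simp⟩)
    · have hsub : ξ ⊆ S := fun j hj =>
        (mem_insert.1 (hξ hj)).resolve_left (by rintro rfl; exact hiξ hj)
      rw [hs _ hsub]
      exact hg ξ hsub hne

lemma exists_code' (m t : ℕ) (h : 2 * m + 1 ≤ t) :
    ∃ g : Fin m → Fin (4 * t) → ZMod 2, ∀ ξ : Finset (Fin m), ξ.Nonempty →
      t ≤ (univ.filter (fun l => ∑ i ∈ ξ, g i l ≠ 0)).card := by
  set B := (univ : Finset (Fin (4 * t) → ZMod 2)).filter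
    (fun v => (univ.filter (fun l => v l ≠ 0)).card < t) with hB
  have h1 : ∑ v : Fin (4 * t) → ZMod 2, ∏ l, (if v l = 0 then 3 else 1) = 4 ^ (4 * t) := by
    rw [← Fintype.piFinset_univ, ← prod_univ_sum (fun _ => univ)
      (fun _ (z : ZMod 2) => if z = 0 then 3 else 1)]
    have : ∑ z : ZMod 2, (if z = 0 then 3 else 1) = 4 := by decide
    simp [this]
  have h2 : B.card * 27 ^ t ≤ 256 ^ t := by
    have : (256 : ℕ) ^ t = 4 ^ (4 * t) := by rw [pow_mul]; norm_num
    rw [this, ← h1, ← smul_eq_mul, ← sum_const]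
    refine le_trans (sum_le_sum (fun v hv => ?_)) (sum_le_sum_of_subset (subset_univ B))
    rw [prod_ite, prod_const_one, mul_one, prod_const]
    have e : (27 : ℕ) ^ t = 3 ^ (3 * t) := by rw [pow_mul]; norm_num
    rw [e]
    refine Nat.pow_le_pow_right (by norm_num) ?_
    have h3 := card_filter_add_card_filter_not (s := (univ : Finset (Fin (4 * t))))
      (fun l => v l = 0)
    have h4 := (mem_filter.1 hv).2
    simp only [card_univ, Fintype.card_fin, ne_eq] at h3 h4
    omega
  have h3 : 2 ^ m * 16 ^ t < 27 ^ t := by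
    obtain ⟨r, rfl⟩ := Nat.exists_eq_add_of_le h
    have a1 : 2 ^ m * 16 ^ (2 * m) ≤ 27 ^ (2 * m) := by
      rw [pow_mul, pow_mul, ← mul_pow]
      exact Nat.pow_le_pow_left (by norm_num) _
    have a2 : 16 ^ (1 + r) < 27 ^ (1 + r) := Nat.pow_lt_pow_left (by norm_num) (by omega)
    rw [add_assoc, pow_add 16, pow_add 27, ← mul_assoc]
    exact Nat.mul_lt_mul_of_le_of_lt a1 a2 (by positivity)
  obtain ⟨g, hg⟩ := exists_code B (univ : Finset (Fin m)) (by
    rw [card_univ, Fintype.card_fin, Fintype.card_fun, ZMod.card, Fintype.card_fin]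
    have e : (2 : ℕ) ^ (4 * t) = 16 ^ t := by rw [pow_mul]; norm_num
    have e2 : (256 : ℕ) ^ t = 16 ^ t * 16 ^ t := by rw [← mul_pow]; norm_num
    rw [e]
    refine lt_of_mul_lt_mul_right (a := 27 ^ t) ?_ (Nat.zero_le _)
    calc 2 ^ m * B.card * 27 ^ t = 2 ^ m * (B.card * 27 ^ t) := by ring
      _ ≤ 2 ^ m * (16 ^ t * 16 ^ t) := Nat.mul_le_mul_left _ (e2 ▸ h2)
      _ = 16 ^ t * (2 ^ m * 16 ^ t) := by ring
      _ < 16 ^ t * 27 ^ t := Nat.mul_lt_mul_of_pos_left h3 (by positivity))
  refine ⟨g, fun ξ hξ => ?_⟩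
  have := hg ξ (subset_univ _) hξ
  simpa [hB] using this

lemma exists_fibers {T H : Type} [Fintype T] [DecidableEq T] [Fintype H] (f : T → ℕ)
    (hf : ∑ τ, f τ = Fintype.card H) :
    ∃ Λ : H → T, ∀ τ, (univ.filter (fun h => Λ h = τ)).card = f τ := by
  obtain ⟨e⟩ : Nonempty (H ≃ (Σ τ, Fin (f τ))) := Fintype.card_eq.1 (by simp [hf])
  refine ⟨fun h => (e h).1, fun τ => ?_⟩
  rw [card_filter, Equiv.sum_comp e (fun σ => if σ.1 = τ then 1 else 0), Fintype.sum_sigma,
    sum_eq_single τ (fun x _ hx => by simp [hx]) (by simp)]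
  simp

/-! ### Rounding -/

section
variable {A C M R : Type} [Fintype A] [DecidableEq A] [Fintype C] [DecidableEq C]
  [Fintype M] [DecidableEq M] [Fintype R] [DecidableEq R] {b : ℕ}

/-- the `j`-th block -/
def blk (a : (M × Fin b) ⊕ R → A) (j : M) : Fin b → A := fun i => a (Sum.inl (j, i))

/-- the coarse information -/
def cell (cls : (Fin b → A) → C) (a : (M × Fin b) ⊕ R → A) : (M → C) × (R → A) :=
  (fun j => cls (blk a j), fun r => a (Sum.inr r))

lemma core (p : A → ℝ) {k t : ℕ} (hk : k ≤ b) (ht : 1 ≤ t) (ψ : (Fin b → A) → ℝ)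
    (cls : (Fin b → A) → C)
    (hdeg : ∀ c, Deg (b - k) (fun x => if cls x = c then ψ x else 0))
    (hex : ∀ c, Ex p (fun x => if cls x = c then ψ x else 0) = 0)
    (c : ((M × Fin b) ⊕ R → A) → ℝ) (J : ((M × Fin b) ⊕ R → A) → Finset M)
    (hc : ∀ a a', cell cls a = cell cls a' → c a = c a' ∧ J a = J a')
    (hJ : ∀ a, c a ≠ 0 → t ≤ (J a).card) :
    Deg (Fintype.card M * b + Fintype.card R - k * t) (fun a => c a * ∏ j ∈ J a, ψ (blk a j)) ∧
      Ex p (fun a => c a * ∏ j ∈ J a, ψ (blk a j)) = 0 := by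
  have key : ∀ z : (M → C) × (R → A),
      Deg (Fintype.card M * b + Fintype.card R - k * t)
        (fun a => if cell cls a = z then c a * ∏ j ∈ J a, ψ (blk a j) else 0) ∧
      Ex p (fun a => if cell cls a = z then c a * ∏ j ∈ J a, ψ (blk a j) else 0) = 0 := by
    intro z
    by_cases hz : ∃ a0, cell cls a0 = z ∧ c a0 ≠ 0
    · obtain ⟨a0, rfl, hc0⟩ := hz
      have hJ0 := hJ a0 hc0
      have e : ∀ a, (if cell cls a = cell cls a0 then c a * ∏ j ∈ J a, ψ (blk a j) else 0) =
          c a0 * ((∏ j, (if j ∈ J a0 then (if cls (blk a j) = cls (blk a0 j) then ψ (blk a j) else 0)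
            else (if cls (blk a j) = cls (blk a0 j) then 1 else 0))) *
            (if (fun r => a (Sum.inr r)) = (fun r => a0 (Sum.inr r)) then 1 else 0)) := by
        intro a
        by_cases h : cell cls a = cell cls a0
        · obtain ⟨h1, h2⟩ := hc a a0 h
          have h3 : ∀ j, cls (blk a j) = cls (blk a0 j) := fun j => congrFun (congrArg Prod.fst h) j
          have h4 : (fun r => a (Sum.inr r)) = (fun r => a0 (Sum.inr r)) := congrArg Prod.snd h
          rw [if_pos h, if_pos h4, h1, h2]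
          simp [h3]
        · rw [if_neg h]
          by_cases h4 : (fun r => a (Sum.inr r)) = (fun r => a0 (Sum.inr r))
          · obtain ⟨j, hj⟩ : ∃ j, cls (blk a j) ≠ cls (blk a0 j) := by
              by_contra hcon
              push Not at hcon
              exact h (Prod.ext (funext hcon) h4)
            rw [prod_eq_zero (mem_univ j) (by simp [hj])]
            simp
          · simp [h4]
      constructor
      · refine Deg.congr (Deg.smul _ ?_) e
        have d1 := Deg.prod (univ : Finset M) (d := fun j => if j ∈ J a0 then b - k else b)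
          (f := fun j (a : (M × Fin b) ⊕ R → A) =>
            (if j ∈ J a0 then (if cls (blk a j) = cls (blk a0 j) then ψ (blk a j) else 0)
            else (if cls (blk a j) = cls (blk a0 j) then 1 else 0))) (fun j _ => by
              by_cases hj : j ∈ J a0
              · simp only [hj, if_true]
                exact (hdeg (cls (blk a0 j))).comp (fun i => Sum.inl (j, i))
              · simp only [hj, if_false]
                have := (Deg.of_card (fun x : Fin b → A =>
                  if cls x = cls (blk a0 j) then (1 : ℝ) else 0)).comp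
                  (fun i => (Sum.inl (j, i) : (M × Fin b) ⊕ R))
                rwa [Fintype.card_fin] at this)
        have d2 := (Deg.of_card (fun x : R → A =>
          if x = (fun r => a0 (Sum.inr r)) then (1 : ℝ) else 0)).comp
          (fun r => (Sum.inr r : (M × Fin b) ⊕ R))
        refine (d1.mul d2).mono ?_
        have e1 : ∑ j : M, (if j ∈ J a0 then b - k else b) + k * (J a0).card =
            Fintype.card M * b := by
          rw [mul_comm k, ← smul_eq_mul, ← sum_const, ← sum_ite_mem_eq (J a0), ← sum_add_distrib,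
            sum_congr rfl (g := fun _ => b) (fun j _ => by split_ifs <;> omega)]
          simp
        have e2 := Nat.mul_le_mul_left k hJ0
        omega
      · rw [Ex_congr e, Ex_smul]
        have := Ex_blocks (p := p) (M := M) (B := Fin b) (R := R)
          (fun j x => (if j ∈ J a0 then (if cls x = cls (blk a0 j) then ψ x else 0)
            else (if cls x = cls (blk a0 j) then 1 else 0)))
          (fun x => if x = (fun r => a0 (Sum.inr r)) then (1 : ℝ) else 0)
        refine (congrArg (c a0 * ·) this).trans ?_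
        obtain ⟨j, hj⟩ : (J a0).Nonempty := card_pos.1 (by omega)
        rw [prod_eq_zero (mem_univ j) (by simp only [hj, if_true]; exact hex _)]
        simp
    · push Not at hz
      have e : ∀ a, (if cell cls a = z then c a * ∏ j ∈ J a, ψ (blk a j) else 0) = 0 := by
        intro a
        split_ifs with h
        · rw [hz a h, zero_mul]
        · rfl
      exact ⟨Deg.congr (Deg.const _ 0) e, by rw [Ex_congr e]; simp [Ex]⟩
  have e : ∀ a, c a * ∏ j ∈ J a, ψ (blk a j) = ∑ z : (M → C) × (R → A),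
      (if cell cls a = z then c a * ∏ j ∈ J a, ψ (blk a j) else 0) := fun a => by simp
  exact ⟨Deg.congr (Deg.sum _ (fun z _ => (key z).1)) e,
    by rw [Ex_congr e, Ex_sum]; exact sum_eq_zero (fun z _ => (key z).2)⟩

/-- sign of a bit -/
noncomputable def sg (x : Bool) : ℝ := if x then 1 else -1

/-- `ε ^ v` -/
noncomputable def chi (ε : ℝ) (v : ZMod 2) : ℝ := if v = 0 then 1 else ε

lemma chi_add {ε : ℝ} (hε : ε = 1 ∨ ε = -1) (u v : ZMod 2) :
    chi ε (u + v) = chi ε u * chi ε v := by
  have h11 : (1 : ZMod 2) + 1 = 0 := by decide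
  have hu : u = 0 ∨ u = 1 := by revert u; decide
  have hv : v = 0 ∨ v = 1 := by revert v; decide
  rcases hu with rfl | rfl <;> rcases hv with rfl | rfl <;> rcases hε with rfl | rfl <;>
    simp [chi, h11]

lemma chi_sum {I : Type} {ε : ℝ} (hε : ε = 1 ∨ ε = -1) (ξ : Finset I) (v : I → ZMod 2) :
    ∏ i ∈ ξ, chi ε (v i) = chi ε (∑ i ∈ ξ, v i) := by
  classical
  induction ξ using Finset.induction_on with
  | empty => simp [chi]
  | insert a s ha ih => rw [prod_insert ha, sum_insert ha, chi_add hε, ih]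

lemma rounding {T : Type} [Fintype T] [DecidableEq T] (p : A → ℝ) {k t m : ℕ} (hk : k ≤ b)
    (ht : 2 * m + 1 ≤ t) (ψ : (Fin b → A) → ℝ) (cls : (Fin b → A) → C)
    (hψ : ∀ x, ψ x = 0 ∨ ψ x = 1 ∨ ψ x = -1)
    (hdeg : ∀ c, Deg (b - k) (fun x => if cls x = c then ψ x else 0))
    (hex : ∀ c, Ex p (fun x => if cls x = c then ψ x else 0) = 0)
    (hact : ∀ x x', cls x = cls x' → (ψ x = 0 ↔ ψ x' = 0))
    (Nn : ((M × Fin b) ⊕ R → A) → T → ℕ)
    (hN : ∀ a a', cell cls a = cell cls a' → Nn a = Nn a')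
    (hsum : ∀ a, ∑ τ, Nn a τ = 2 ^ m)
    (hgood : ∀ a, 4 * t ≤ (univ.filter (fun j => ψ (blk a j) ≠ 0)).card ∨ ∃ τ, Nn a τ = 2 ^ m) :
    ∃ Lab : ((M × Fin b) ⊕ R → A) → T, ∀ τ,
      Deg (Fintype.card M * b + Fintype.card R - k * t)
        (fun a => (if Lab a = τ then (1 : ℝ) else 0) - Nn a τ / 2 ^ m) ∧
      ∀ F : ((M × Fin b) ⊕ R → A) → ℝ, (∀ a a', cell cls a = cell cls a' → F a = F a') →
        Ex p (fun a => F a * ((if Lab a = τ then (1 : ℝ) else 0) - Nn a τ / 2 ^ m)) = 0 := by
  classical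
  obtain ⟨g, hg⟩ := exists_code' m t ht
  have hΛ : ∀ f : {f : T → ℕ // ∑ τ, f τ = 2 ^ m}, ∃ Λ : (Fin m → Bool) → T,
      ∀ τ, (univ.filter (fun h => Λ h = τ)).card = f.1 τ := fun f =>
    exists_fibers f.1 (by simp [f.2])
  choose Λ hΛ using hΛ
  have hemb : ∀ S : {S : Finset M // 4 * t ≤ S.card}, ∃ e : Fin (4 * t) → M,
      Function.Injective e ∧ ∀ l, e l ∈ S.1 := by
    intro S
    obtain ⟨e⟩ : Nonempty (Fin (4 * t) ↪ S.1) :=
      Function.Embedding.nonempty_of_card_le (by simpa using S.2)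
    exact ⟨fun l => e l, fun l l' h => e.injective (Subtype.ext h), fun l => (e l).2⟩
  choose emb hemb1 hemb2 using hemb
  let Act : ((M × Fin b) ⊕ R → A) → Finset M := fun a => univ.filter (fun j => ψ (blk a j) ≠ 0)
  have hAct : ∀ a a', cell cls a = cell cls a' → Act a = Act a' := by
    intro a a' h
    ext j
    have h3 : cls (blk a j) = cls (blk a' j) := congrFun (congrArg Prod.fst h) j
    simp [Act, hact _ _ h3]
  let e : ((M × Fin b) ⊕ R → A) → Fin m → ℝ := fun a i =>
    if h : 4 * t ≤ (Act a).card then ∏ l, chi (ψ (blk a (emb ⟨_, h⟩ l))) (g i l) else 1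
  let JS : Finset M → Finset (Fin m) → Finset M := fun S ξ =>
    if h : 4 * t ≤ S.card then
      (univ.filter (fun l => ∑ i ∈ ξ, g i l ≠ 0)).image (emb ⟨S, h⟩) else ∅
  let Lab : ((M × Fin b) ⊕ R → A) → T := fun a => Λ ⟨Nn a, hsum a⟩ (fun i => decide (e a i = 1))
  let co : T → (Fin m → Bool) → Finset (Fin m) → Finset M → {f : T → ℕ // ∑ τ, f τ = 2 ^ m} → ℝ :=
    fun τ h0 ξ S f => if 4 * t ≤ S.card then
      (if Λ f h0 = τ then 1 else 0) / 2 ^ m * ∏ i ∈ ξ, sg (h0 i) else 0
  have expand : ∀ τ a, (if Lab a = τ then (1 : ℝ) else 0) - Nn a τ / 2 ^ m =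
      ∑ h0 : Fin m → Bool, ∑ ξ ∈ (univ : Finset (Fin m)).powerset.erase ∅,
        co τ h0 ξ (Act a) ⟨Nn a, hsum a⟩ * ∏ j ∈ JS (Act a) ξ, ψ (blk a j) := by
    intro τ a
    by_cases h : 4 * t ≤ (Act a).card
    · have hε : ∀ l, ψ (blk a (emb ⟨_, h⟩ l)) = 1 ∨ ψ (blk a (emb ⟨_, h⟩ l)) = -1 := by
        intro l
        have := hemb2 ⟨_, h⟩ l
        exact (hψ _).resolve_left (mem_filter.1 this).2
      have he : ∀ i, e a i = 1 ∨ e a i = -1 := by
        intro i
        simp only [e, h, dif_pos]
        refine prod_induction _ (fun x : ℝ => x = 1 ∨ x = -1) ?_ (Or.inl rfl) ?_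
        · rintro x y (rfl | rfl) (rfl | rfl) <;> simp
        · intro l _
          unfold chi
          split_ifs
          · exact Or.inl rfl
          · exact hε l
      have hprod : ∀ ξ : Finset (Fin m), ∏ i ∈ ξ, e a i = ∏ j ∈ JS (Act a) ξ, ψ (blk a j) := by
        intro ξ
        simp only [e, JS, h, dif_pos]
        rw [prod_comm, prod_image (fun x _ y _ hxy => hemb1 _ hxy), prod_filter]
        refine prod_congr rfl (fun l _ => ?_)
        rw [chi_sum (hε l)]
        simp [chi]
      have hind : ∀ h0 : Fin m → Bool,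
          (if (fun i => decide (e a i = 1)) = h0 then (1 : ℝ) else 0) =
          (∏ i, (1 + sg (h0 i) * e a i)) / 2 ^ m := by
        intro h0
        rw [eq_div_iff (by positivity)]
        split_ifs with h1
        · subst h1
          rw [prod_congr rfl (g := fun _ => 2) (fun i _ => by
            rcases he i with h2 | h2 <;> norm_num [h2, sg])]
          simp
        · obtain ⟨i, hi⟩ := Function.ne_iff.1 h1
          rw [prod_eq_zero (mem_univ i), zero_mul]
          rcases he i with h2 | h2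
          · have : h0 i = false := by simpa [h2] using hi
            simp [h2, sg, this]
          · have : h0 i = true := by
              have h3 : ¬ (-1 : ℝ) = 1 := by norm_num
              simpa [h2, h3] using hi
            simp [h2, sg, this]
      have e1 : (if Lab a = τ then (1 : ℝ) else 0) = ∑ h0 : Fin m → Bool,
          (if Λ ⟨Nn a, hsum a⟩ h0 = τ then (1 : ℝ) else 0) *
            (if (fun i => decide (e a i = 1)) = h0 then (1 : ℝ) else 0) := by
        simp [Lab]
      have e2 : (Nn a τ : ℝ) = ∑ h0 : Fin m → Bool,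
          (if Λ ⟨Nn a, hsum a⟩ h0 = τ then (1 : ℝ) else 0) := by
        have := hΛ ⟨Nn a, hsum a⟩ τ
        simp only at this
        rw [← this]
        simp
      rw [e1, e2, sum_div, ← sum_sub_distrib]
      refine sum_congr rfl (fun h0 _ => ?_)
      rw [hind, prod_one_add, ← add_sum_erase _ _ (empty_mem_powerset _), prod_empty]
      simp only [co, h, if_true, prod_mul_distrib, hprod, mul_assoc, ← mul_sum]
      ring
    · obtain ⟨τ0, hτ0⟩ := (hgood a).resolve_left h
      have hall : ∀ h0, Λ ⟨Nn a, hsum a⟩ h0 = τ0 := by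
        intro h0
        have h1 := hΛ ⟨Nn a, hsum a⟩ τ0
        simp only at h1
        rw [hτ0] at h1
        have h2 := eq_univ_of_card _ (h1.trans (by simp))
        have h3 : h0 ∈ univ.filter (fun h => Λ ⟨Nn a, hsum a⟩ h = τ0) := by
          rw [h2]; exact mem_univ h0
        exact (mem_filter.1 h3).2
      simp only [co, h, if_false, zero_mul, sum_const_zero, Lab, hall]
      by_cases hτ : τ0 = τ
      · subst hτ
        rw [hτ0]
        simp
      · have h1 := hΛ ⟨Nn a, hsum a⟩ τ
        simp only [hall, hτ] at h1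
        simp at h1
        simp [hτ, ← h1]
  have hcore : ∀ τ h0, ∀ ξ ∈ (univ : Finset (Fin m)).powerset.erase ∅,
      ∀ F : ((M × Fin b) ⊕ R → A) → ℝ, (∀ a a', cell cls a = cell cls a' → F a = F a') → _ :=
    fun τ h0 ξ hξ F hF => core (M := M) (R := R) p hk (show 1 ≤ t by omega) ψ cls hdeg hex
      (fun a => F a * co τ h0 ξ (Act a) ⟨Nn a, hsum a⟩) (fun a => JS (Act a) ξ) (by
        intro a a' h
        have h1 : (⟨Nn a, hsum a⟩ : {f : T → ℕ // ∑ τ, f τ = 2 ^ m}) = ⟨Nn a', hsum a'⟩ :=
          Subtype.ext (hN a a' h)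
        rw [hF a a' h, hAct a a' h, h1]
        exact ⟨rfl, rfl⟩) (by
        intro a ha
        have h : 4 * t ≤ (Act a).card := by
          by_contra h
          simp [co, h] at ha
        simp only [JS, h, dif_pos]
        rw [card_image_of_injective _ (hemb1 _)]
        exact hg ξ (nonempty_iff_ne_empty.2 (ne_of_mem_erase hξ)))
  refine ⟨Lab, fun τ => ⟨?_, fun F hF => ?_⟩⟩
  · refine Deg.congr (Deg.sum _ (fun h0 _ => Deg.sum _ (fun ξ hξ => ?_))) (expand τ)
    exact (hcore τ h0 ξ hξ (fun _ => 1) (fun _ _ _ => rfl)).1.congr (fun a => by ring)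
  · simp only [expand, mul_sum, Ex_sum]
    refine sum_eq_zero (fun h0 _ => sum_eq_zero (fun ξ hξ => ?_))
    rw [← (hcore τ h0 ξ hξ F hF).2]
    exact Ex_congr (fun a => by ring)

end

end Crest.Agent.H2BF
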