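import Crest.Agent.H2.BF3

set_option autoImplicit false

namespace Crest.Agent.H2BF

open Finset Filter Topology

/-! ### Blocks that are active with high probability -/

lemma block_limit {A : Type} [Fintype A] [DecidableEq A] (p : A → ℝ) (hp0 : ∀ a, 0 ≤ p a)
    (hp1 : ∑ a, p a = 1) (s s' : A) (hss : s' ≠ s) (hmin : ∀ a, p s ≤ p a) (hs : 0 < p s)
    (ε : ℝ) (hε : 0 < ε) :
    ∃ (b k : ℕ) (ψ : (Fin b → A) → ℝ), 1 ≤ k ∧ k ≤ b ∧ p s * b / 8 ≤ k ∧
      (∀ x, ψ x = 0 ∨ ψ x = 1 ∨ ψ x = -1) ∧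
      (∀ ν, Deg (b - k) (fun x => if hist x = ν then ψ x else 0)) ∧
      (∀ ν, Ex p (fun x => if hist x = ν then ψ x else 0) = 0) ∧
      Ex p (fun x => if ψ x = 0 then (1 : ℝ) else 0) ≤ ε := by
  set π := p s with hπ
  have hπ1 : π ≤ 1 := hp1 ▸ single_le_sum (fun a _ => hp0 a) (mem_univ s)
  set r := Fintype.card A
  set ρ := Real.exp (-(π / 4)) with hρ
  have hρ0 : 0 < ρ := Real.exp_pos _
  have hρ1 : ρ < 1 := Real.exp_lt_one_iff.2 (by linarith)
  have hlim : Tendsto (fun b : ℕ => (2 * (r + 2) / ρ) * (((b + 1 : ℕ) : ℝ) ^ (r + 1) * ρ ^ (b + 1)))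
      atTop (𝓝 0) := by
    have := (tendsto_pow_const_mul_const_pow_of_abs_lt_one (r + 1) (r := ρ)
      (by rw [abs_of_pos hρ0]; exact hρ1)).comp (tendsto_add_atTop_nat 1)
    simpa using this.const_mul (2 * (r + 2) / ρ)
  obtain ⟨b, hb1, hb2⟩ := ((hlim.eventually (gt_mem_nhds hε)).and
    (eventually_ge_atTop ⌈8 / π⌉₊)).exists
  have hb3 : 8 ≤ π * b := by
    have : 8 / π ≤ b := (Nat.le_ceil _).trans (by exact_mod_cast hb2)
    rwa [div_le_iff₀' hs] at this
  set k := ⌊π * b / 4⌋₊ with hk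
  have hk1 : (k : ℝ) ≤ π * b / 4 := Nat.floor_le (by linarith)
  have hk2 : π * b / 4 < k + 1 := Nat.lt_floor_add_one _
  have hb0 : (0 : ℝ) ≤ b := Nat.cast_nonneg b
  have hk3 : 1 ≤ k := by
    have : (1 : ℝ) < k := by linarith
    exact_mod_cast this.le
  obtain ⟨ψ, h1, h2, h3, h4⟩ := block_lemma p hp0 s s' hss hmin b k hk3
  refine ⟨b, k, ψ, hk3, ?_, by linarith, h1, h2, h3, h4.trans (le_trans ?_ hb1.le)⟩
  · have : (k : ℝ) ≤ b := by nlinarith
    exact_mod_cast this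
  have hq : Ex p (fun x : Fin b → A => if (hist x s).val < k then (1 : ℝ) else 0) ≤ ρ ^ b := by
    have e1 : Ex p (fun x : Fin b → A => if (hist x s).val < k then (1 : ℝ) else 0) ≤
        Ex p (fun x : Fin b → A => 2 ^ k * ∏ i, (if x i = s then (1 / 2 : ℝ) else 1)) := by
      refine Ex_mono hp0 (fun x => ?_)
      rw [prod_ite, prod_const_one, mul_one, prod_const]
      split_ifs with h
      · have h' : (univ.filter (fun i => x i = s)).card ≤ k := h.le
        rw [one_div, inv_pow, ← div_eq_mul_inv, le_div_iff₀ (by positivity), one_mul]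
        exact pow_le_pow_right₀ (by norm_num) h'
      · positivity
    rw [Ex_smul, Ex_prod (fun _ a => if a = s then (1 / 2 : ℝ) else 1)] at e1
    have e2 : ∑ a, p a * (if a = s then (1 / 2 : ℝ) else 1) = 1 - π / 2 := by
      have : ∀ a, p a * (if a = s then (1 / 2 : ℝ) else 1) =
          p a - (if a = s then π / 2 else 0) := by
        intro a
        split_ifs with h
        · rw [h]; ring
        · ring
      rw [sum_congr rfl (fun a _ => this a), sum_sub_distrib, hp1]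
      simp
    rw [e2, prod_const, card_univ, Fintype.card_fin] at e1
    refine e1.trans ?_
    have a1 : (2 : ℝ) ^ k ≤ Real.exp (π * b / 4) := by
      refine le_trans ?_ (Real.exp_le_exp.2 hk1)
      rw [← Real.exp_one_pow]
      exact pow_le_pow_left₀ (by norm_num) (by linarith [Real.add_one_le_exp 1]) _
    have a2 : (1 - π / 2) ^ b ≤ Real.exp (-(π / 2)) ^ b :=
      pow_le_pow_left₀ (by linarith) (by linarith [Real.add_one_le_exp (-(π / 2))]) _
    refine (mul_le_mul a1 a2 (pow_nonneg (by linarith) _) (by positivity)).trans (le_of_eq ?_)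
    rw [hρ, ← Real.exp_nat_mul, ← Real.exp_nat_mul, ← Real.exp_add]
    congr 1
    ring
  have e3 : 2 * ((r : ℝ) + 2) / ρ * (((b + 1 : ℕ) : ℝ) ^ (r + 1) * ρ ^ (b + 1)) =
      ((b + 1) ^ r : ℕ) * (2 * ((r + 2) * (b + 1)) * ρ ^ b) := by
    push_cast
    field_simp
    ring
  rw [e3]
  refine mul_le_mul_of_nonneg_left (mul_le_mul ?_ hq ?_ (by positivity)) (by positivity)
  · push_cast
    have : (0 : ℝ) ≤ r := Nat.cast_nonneg r
    nlinarith
  · exact le_trans (by simp [Ex]) (Ex_mono hp0 (F := fun _ => 0) (fun x => by positivity))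

/-! ### Chebyshev polynomials -/

noncomputable def cheb (D : ℕ) (x : ℝ) : ℝ := (Polynomial.Chebyshev.T ℝ D).eval x

lemma cheb_expand (D : ℕ) : ∃ c : ℕ → ℤ, ∀ x, cheb D x = ∑ i ∈ range (D + 1), c i * x ^ i := by
  refine ⟨fun i => (Polynomial.Chebyshev.T ℤ D).coeff i, fun x => ?_⟩
  unfold cheb
  rw [← Polynomial.Chebyshev.aeval_T (R := ℤ), Polynomial.aeval_eq_sum_range,
    Polynomial.Chebyshev.natDegree_T]
  simp

lemma abs_cheb_le (D : ℕ) {x : ℝ} (hx : |x| ≤ 1) : |cheb D x| ≤ 1 :=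
  Polynomial.Chebyshev.abs_eval_T_real_le_one _ hx

lemma abs_sub_sin_le_sq (a : ℝ) : |a - Real.sin a| ≤ 2 * a ^ 2 := by
  have h0 := abs_nonneg a
  rw [← sq_abs a]
  by_cases h : |a| ≤ 1
  · have := Real.abs_sub_sin_le a
    nlinarith
  · have h1 := abs_sub a (Real.sin a)
    have h2 := Real.abs_sin_le_abs (x := a)
    nlinarith

lemma cheb_approx (r : ℕ) {x : ℝ} (hx : |x| ≤ 1) :
    |cheb (4 * r + 1) x - (4 * r + 1 : ℕ) * x| ≤ 16 * ((4 * r + 1 : ℕ) * x) ^ 2 := by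
  obtain ⟨h1, h2⟩ := abs_le.1 hx
  set θ := Real.arcsin x with hθ
  have hs : Real.sin θ = x := Real.sin_arcsin h1 h2
  have hθ2 : |θ| ≤ 2 * |x| := by
    have a1 : |θ| ≤ Real.pi / 2 := abs_le.2 ⟨Real.neg_pi_div_two_le_arcsin x, Real.arcsin_le_pi_div_two x⟩
    have a2 := Real.mul_abs_le_abs_sin a1
    rw [hs] at a2
    have a3 : 1 / 2 ≤ 2 / Real.pi := by
      rw [div_le_div_iff₀ (by norm_num) Real.pi_pos]
      linarith [Real.pi_le_four]
    nlinarith [abs_nonneg θ]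
  set D : ℝ := ((4 * r + 1 : ℕ) : ℝ) with hD
  have hD1 : 1 ≤ D := by rw [hD]; exact_mod_cast Nat.le_add_left 1 _
  have hc : cheb (4 * r + 1) x = Real.sin (D * θ) := by
    unfold cheb
    rw [← hs, ← Real.cos_pi_div_two_sub, Polynomial.Chebyshev.T_real_cos,
      ← Real.cos_pi_div_two_sub, ← Real.cos_add_nat_mul_two_pi (Real.pi / 2 - D * θ) r]
    congr 1
    rw [hD]
    push_cast
    ring
  rw [hc]
  have b1 := abs_sub_sin_le_sq (D * θ)
  have b2 := abs_sub_sin_le_sq θ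
  have b3 : θ ^ 2 ≤ 4 * x ^ 2 := by
    rw [← sq_abs θ, ← sq_abs x]
    nlinarith [abs_nonneg θ]
  rw [hs] at b2
  have b4 : |D * θ - D * x| ≤ D * (2 * θ ^ 2) := by
    rw [← mul_sub, abs_mul, abs_of_pos (by linarith)]
    exact mul_le_mul_of_nonneg_left b2 (by linarith)
  have b5 : |Real.sin (D * θ) - D * x| ≤ |D * θ - Real.sin (D * θ)| + |D * θ - D * x| := by
    rw [abs_sub_comm (D * θ) (Real.sin _)]
    exact abs_sub_le _ _ _
  have b6 : D * θ ^ 2 ≤ D ^ 2 * θ ^ 2 := mul_le_mul_of_nonneg_right (by nlinarith) (sq_nonneg _)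
  have b7 : D ^ 2 * θ ^ 2 ≤ D ^ 2 * (4 * x ^ 2) := mul_le_mul_of_nonneg_left b3 (sq_nonneg _)
  nlinarith

/-! ### Bernstein weights -/

noncomputable def bern (L k : ℕ) (u : ℝ) : ℝ := L.choose k * u ^ k * (1 - u) ^ (L - k)

lemma bern_nonneg (L k : ℕ) {u : ℝ} (h0 : 0 ≤ u) (h1 : u ≤ 1) : 0 ≤ bern L k u := by
  have : 0 ≤ 1 - u := by linarith
  unfold bern
  positivity

lemma bern_sum (L : ℕ) {u : ℝ} (h0 : 0 ≤ u) (h1 : u ≤ 1) :
    ∑ k : Fin (L + 1), bern L k u = 1 := by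
  have := bernstein.probability L ⟨u, h0, h1⟩
  simpa only [bernstein_apply, bern] using this

lemma bern_err {L : ℕ} (hL : L ≠ 0) {u : ℝ} (h0 : 0 ≤ u) (h1 : u ≤ 1) {δ : ℝ} (hδ : 0 < δ) :
    ∑ k : Fin (L + 1), bern L k u * (2 * |u - k / L|) ≤ δ + 1 / (4 * L * δ) := by
  have hv := bernstein.variance hL ⟨u, h0, h1⟩
  simp only [bernstein_apply, bernstein.z] at hv
  have hL0 : (0 : ℝ) < L := by exact_mod_cast Nat.pos_of_ne_zero hL
  calc ∑ k : Fin (L + 1), bern L k u * (2 * |u - k / L|)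
      ≤ ∑ k : Fin (L + 1), (δ * bern L k u + (u - k / L) ^ 2 * bern L k u / δ) := by
        refine sum_le_sum (fun k _ => ?_)
        have a1 : 2 * |u - k / L| ≤ δ + (u - k / L) ^ 2 / δ := by
          rw [← sq_abs, ← sub_nonneg]
          have : δ + |u - k / L| ^ 2 / δ - 2 * |u - k / L| = (δ - |u - k / L|) ^ 2 / δ := by
            field_simp
            ring
          rw [this]
          positivity
        refine (mul_le_mul_of_nonneg_left a1 (bern_nonneg L k h0 h1)).trans (le_of_eq ?_)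
        ring
    _ = δ + u * (1 - u) / L / δ := by
        rw [sum_add_distrib, ← mul_sum, bern_sum L h0 h1, ← sum_div, ← hv, mul_one]
        rfl
    _ ≤ _ := by
        have : u * (1 - u) / L / δ ≤ 1 / 4 / L / δ := by
          gcongr
          nlinarith [sq_nonneg (u - 1 / 2)]
        refine add_le_add_right (this.trans (le_of_eq ?_)) _
        field_simp

lemma bern_dyadic (D L E k : ℕ) (hk : k ≤ L) (W : ℤ) :
    ∃ z : ℤ, bern L k ((1 + cheb D (W / 2 ^ E)) / 2) * 2 ^ (L * (E * D + 1)) = z := by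
  obtain ⟨c, hc⟩ := cheb_expand D
  obtain ⟨U, hU⟩ : ∃ U : ℤ, (1 + cheb D (W / 2 ^ E)) / 2 * 2 ^ (E * D + 1) = U := by
    refine ⟨2 ^ (E * D) + ∑ i ∈ range (D + 1), c i * W ^ i * (2 ^ E) ^ (D - i), ?_⟩
    rw [hc, pow_succ]
    push_cast
    have : (∑ i ∈ range (D + 1), (c i : ℝ) * ((W : ℝ) / 2 ^ E) ^ i) * 2 ^ (E * D) =
        ∑ i ∈ range (D + 1), (c i : ℝ) * (W : ℝ) ^ i * (2 ^ E) ^ (D - i) := by
      rw [sum_mul]
      refine sum_congr rfl (fun i hi => ?_)
      have hi' : i ≤ D := Nat.lt_succ_iff.1 (mem_range.1 hi)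
      obtain ⟨l, rfl⟩ := Nat.exists_eq_add_of_le hi'
      rw [Nat.add_sub_cancel_left, pow_mul, pow_add, div_pow]
      field_simp
    rw [← this]
    ring
  set u := (1 + cheb D (W / 2 ^ E)) / 2
  refine ⟨L.choose k * U ^ k * (2 ^ (E * D + 1) - U) ^ (L - k), ?_⟩
  obtain ⟨l, rfl⟩ := Nat.exists_eq_add_of_le hk
  push_cast
  rw [← hU, bern, Nat.add_sub_cancel_left, mul_comm (k + l), pow_mul,
    show (2 : ℝ) ^ (E * D + 1) - u * 2 ^ (E * D + 1) = (1 - u) * 2 ^ (E * D + 1) by ring,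
    mul_pow, mul_pow, pow_add _ k l]
  ring

lemma Deg.bern_cheb {ι α : Type} {f : (ι → α) → ℝ} (hf : Deg 1 f) (D L k : ℕ) (hk : k ≤ L) :
    Deg (L * D) (fun x => bern L k ((1 + cheb D (f x)) / 2)) := by
  obtain ⟨c, hc⟩ := cheb_expand D
  have h1 : Deg D (fun x => cheb D (f x)) := by
    refine Deg.congr (Deg.sum (range (D + 1)) (fun i hi => Deg.smul (c i : ℝ)
      ((hf.pow i).mono ?_))) (fun x => hc _)
    have := mem_range.1 hi
    omega
  have h2 : Deg D (fun x => (1 + cheb D (f x)) / 2) :=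
    (((Deg.const D 1).add h1).smul (1 / 2)).congr (fun x => by ring)
  have h3 := (((h2.pow k).smul (L.choose k)).mul (((Deg.const D 1).sub h2).pow (L - k)))
  refine (h3.mono (le_of_eq ?_)).congr (fun x => rfl)
  rw [← add_mul, Nat.add_sub_cancel' hk]

end Crest.Agent.H2BF
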