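import Crest.Agent.H2.BF4

set_option autoImplicit false

namespace Crest.Agent.H2BF

open Finset

lemma Ex_blk {A M R : Type} [Fintype A] [Fintype M] [DecidableEq M] [Fintype R] [DecidableEq R]
    {b : ℕ} {p : A → ℝ} (hp1 : ∑ a, p a = 1) (j : M) (F : (Fin b → A) → ℝ) :
    Ex p (fun a : (M × Fin b) ⊕ R → A => F (blk a j)) = Ex p F := by
  have := Ex_blocks (p := p) (M := M) (B := Fin b) (R := R)
    (fun j' x => if j' = j then F x else 1) (fun _ => 1)
  simp only [prod_ite_eq', mem_univ, if_true, mul_one] at this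
  refine this.trans ?_
  rw [Ex_const hp1, mul_one, prod_eq_single j]
  · simp
  · intro j' _ hj
    simp only [hj, if_false]
    exact Ex_const hp1 1
  · simp

lemma estimator_core {A : Type} [Fintype A] [DecidableEq A] (p y : A → ℝ) (hp0 : ∀ a, 0 ≤ p a)
    (hp1 : ∑ a, p a = 1) (hy : ∑ a, p a * y a = 0) (V : ℝ) (hV : V = ∑ a, p a * y a ^ 2)
    (hV0 : 0 < V) (K : ℕ) (yi : A → ℤ) (hyi : ∀ a, (K : ℝ) * y a = yi a)
    (B : ℝ) (hB : ∀ a, |(yi a : ℝ)| ≤ B)
    {b k : ℕ} (ψ : (Fin b → A) → ℝ) (hk1 : 1 ≤ k) (hk : k ≤ b)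
    (hψ : ∀ x, ψ x = 0 ∨ ψ x = 1 ∨ ψ x = -1)
    (hdeg : ∀ ν, Deg (b - k) (fun x => if hist x = ν then ψ x else 0))
    (hex : ∀ ν, Ex p (fun x => if hist x = ν then ψ x else 0) = 0)
    (ε : ℝ) (hε : Ex p (fun x => if ψ x = 0 then (1 : ℝ) else 0) ≤ ε)
    (t r E L : ℕ) (hL : L ≠ 0) (ht : 2 * (L * (E * (4 * r + 1) + 1)) + 1 ≤ t)
    (hE : (t * (8 * b + k) : ℕ) * B ≤ 2 ^ E)
    (lam δ η : ℝ) (hlam0 : 0 < lam) (hδ : 0 < δ) (hη : 0 < η)
    (hlam : lam = (4 * r + 1 : ℕ) * K * Real.sqrt ((t * (8 * b + k) : ℕ) * V) / 2 ^ E) :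
    ∃ Zh : ((Fin (8 * t) × Fin b) ⊕ Fin (k * t) → A) → ℝ,
      (∀ q : ℝ → ℝ, Deg (8 * t * b + L * (4 * r + 1)) (fun a => q (Zh a))) ∧
      Ex p (fun a => |(∑ i, y (a i)) / Real.sqrt ((t * (8 * b + k) : ℕ) * V) - Zh a|) ≤
        16 * lam + (δ + 1 / (4 * L * δ)) / lam + η + 2 * ε / η := by
  classical
  set n : ℕ := t * (8 * b + k) with hn
  set D : ℕ := 4 * r + 1 with hD
  set m : ℕ := L * (E * D + 1) with hm
  have ht0 : 0 < t := by omega
  have hn0 : 0 < n := Nat.mul_pos ht0 (by omega)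
  have hcard : Fintype.card ((Fin (8 * t) × Fin b) ⊕ Fin (k * t)) = n := by
    simp [hn]; ring
  have hsq : 0 < Real.sqrt (n * V) := Real.sqrt_pos.2 (by positivity)
  let cls : (Fin b → A) → (A → Fin (b + 1)) × Bool := fun x => (hist x, decide (ψ x = 0))
  let Y : ((Fin (8 * t) × Fin b) ⊕ Fin (k * t) → A) → ℝ := fun a => ∑ i, y (a i)
  let Z : ((Fin (8 * t) × Fin b) ⊕ Fin (k * t) → A) → ℝ := fun a => Y a / Real.sqrt (n * V)
  let u : ((Fin (8 * t) × Fin b) ⊕ Fin (k * t) → A) → ℝ := fun a =>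
    (1 + cheb D (K * Y a / 2 ^ E)) / 2
  let G : ((Fin (8 * t) × Fin b) ⊕ Fin (k * t) → A) → ℝ := fun a =>
    if 4 * t ≤ (univ.filter (fun j => ψ (blk a j) ≠ 0)).card then 1 else 0
  let w : ((Fin (8 * t) × Fin b) ⊕ Fin (k * t) → A) → Option (Fin (L + 1)) → ℝ := fun a τ =>
    match τ with
    | none => 1 - G a
    | some l => G a * bern L l (u a)
  let Zt : Option (Fin (L + 1)) → ℝ := fun τ =>
    match τ with
    | none => 0
    | some l => (2 * ((l : ℝ) / L) - 1) / lam
  have hKY : ∀ a, K * Y a = ((∑ i, yi (a i) : ℤ) : ℝ) := by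
    intro a
    simp only [Y, mul_sum, hyi]
    push_cast
    rfl
  have hx : ∀ a, |K * Y a / 2 ^ E| ≤ 1 := by
    intro a
    rw [abs_div, abs_of_pos (by positivity : (0 : ℝ) < 2 ^ E), div_le_one (by positivity), hKY]
    push_cast
    refine (abs_sum_le_sum_abs _ _).trans ((sum_le_sum (fun i _ => hB (a i))).trans ?_)
    rw [sum_const, card_univ, hcard, nsmul_eq_mul]
    exact hE
  have hu : ∀ a, 0 ≤ u a ∧ u a ≤ 1 := by
    intro a
    have := abs_le.1 (abs_cheb_le D (hx a))
    simp only [u]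
    constructor <;> linarith [this.1, this.2]
  have hG : ∀ a, G a = 0 ∨ G a = 1 := by
    intro a
    simp only [G]
    split_ifs <;> simp
  have hw0 : ∀ a τ, 0 ≤ w a τ := by
    intro a τ
    rcases τ with _ | l
    · rcases hG a with h | h <;> simp [w, h]
    · have := bern_nonneg L l (hu a).1 (hu a).2
      rcases hG a with h | h <;> simp [w, h, this]
  have hw1 : ∀ a, ∑ τ, w a τ = 1 := by
    intro a
    rw [Fintype.sum_option]
    simp only [w, ← mul_sum, bern_sum L (hu a).1 (hu a).2]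
    ring
  have hwint : ∀ a τ, ((⌊w a τ * 2 ^ m⌋₊ : ℕ) : ℝ) = w a τ * 2 ^ m := by
    intro a τ
    obtain ⟨z, hz⟩ : ∃ z : ℤ, w a τ * 2 ^ m = z := by
      rcases τ with _ | l
      · rcases hG a with h | h
        · exact ⟨2 ^ m, by simp [w, h]⟩
        · exact ⟨0, by simp [w, h]⟩
      · rcases hG a with h | h
        · exact ⟨0, by simp [w, h]⟩
        · obtain ⟨z, hz⟩ := bern_dyadic D L E l (Nat.lt_succ_iff.1 l.2) (∑ i, yi (a i))
          refine ⟨z, ?_⟩
          rw [← hz]
          simp only [w, h, one_mul, u, hKY, hm]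
    have h0 : 0 ≤ w a τ * 2 ^ m := mul_nonneg (hw0 a τ) (by positivity)
    rw [hz] at h0 ⊢
    obtain ⟨N, rfl⟩ := Int.eq_ofNat_of_zero_le (by exact_mod_cast h0 : 0 ≤ z)
    simp
  have hYc : ∀ a a', cell cls a = cell cls a' → Y a = Y a' := by
    intro a a' h
    have h3 : ∀ j, hist (blk a j) = hist (blk a' j) := fun j =>
      congrArg Prod.fst (congrFun (congrArg Prod.fst h) j)
    have h4 : ∀ r, a (Sum.inr r) = a' (Sum.inr r) := fun r => congrFun (congrArg Prod.snd h) r
    simp only [Y, Fintype.sum_sum_type, Fintype.sum_prod_type, h4]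
    congr 1
    refine sum_congr rfl (fun j _ => ?_)
    have e1 := sum_hist (blk a j) y
    have e2 := sum_hist (blk a' j) y
    rw [h3 j, ← e2] at e1
    exact e1
  have hact : ∀ x x', cls x = cls x' → (ψ x = 0 ↔ ψ x' = 0) := by
    intro x x' h
    have := congrArg Prod.snd h
    simpa [cls] using this
  have hGc : ∀ a a', cell cls a = cell cls a' → G a = G a' := by
    intro a a' h
    have h3 : ∀ j, (ψ (blk a j) = 0 ↔ ψ (blk a' j) = 0) := fun j =>
      hact _ _ (congrFun (congrArg Prod.fst h) j)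
    simp only [G, ne_eq, h3]
  have hwc : ∀ a a', cell cls a = cell cls a' → w a = w a' := by
    intro a a' h
    funext τ
    rcases τ with _ | l <;> simp only [w, u, hGc a a' h, hYc a a' h]
  have hcls : ∀ (c : (A → Fin (b + 1)) × Bool) x, (if cls x = c then ψ x else 0) =
      (if c.2 then 0 else 1) * (if hist x = c.1 then ψ x else 0) := by
    rintro ⟨ν, β⟩ x
    by_cases h : ψ x = 0
    · simp [h]
    · cases β <;> simp [cls, h]
  obtain ⟨Lab, hLab⟩ := rounding (M := Fin (8 * t)) (R := Fin (k * t)) (T := Option (Fin (L + 1)))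
    (m := m) p hk ht ψ cls hψ
    (fun c => ((hdeg c.1).smul _).congr (hcls c))
    (fun c => by rw [Ex_congr (hcls c), Ex_smul, hex, mul_zero]) hact
    (fun a τ => ⌊w a τ * 2 ^ m⌋₊) (fun a a' h => by rw [hwc a a' h])
    (fun a => by
      have : ((∑ τ, ⌊w a τ * 2 ^ m⌋₊ : ℕ) : ℝ) = (2 ^ m : ℕ) := by
        push_cast
        simp only [hwint, ← sum_mul, hw1, one_mul]
      exact_mod_cast this)
    (fun a => by
      by_cases h : 4 * t ≤ (univ.filter (fun j => ψ (blk a j) ≠ 0)).card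
      · exact Or.inl h
      · refine Or.inr ⟨none, ?_⟩
        have := hwint a none
        have h2 : w a none = 1 := by
          simp only [w, G, h, if_false]
          simp
        rw [h2, one_mul] at this ⊢
        exact_mod_cast this)
  have h2m : (2 : ℝ) ^ m ≠ 0 := by positivity
  simp only [hwint, mul_div_cancel_right₀ _ h2m, Fintype.card_fin, Nat.add_sub_cancel] at hLab
  have hsplit : ∀ (f : Option (Fin (L + 1)) → ℝ) a,
      f (Lab a) = ∑ τ, f τ * (if Lab a = τ then (1 : ℝ) else 0) := fun f a => by simp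
  refine ⟨fun a => Zt (Lab a), fun q => ?_, ?_⟩
  · refine Deg.congr (Deg.sum _ (fun τ _ => Deg.smul _ ?_)) (hsplit (fun τ => q (Zt τ)))
    have dG : Deg (8 * t * b) G := by
      have := (Deg.of_card (fun x : Fin (8 * t) × Fin b → A =>
        if 4 * t ≤ (univ.filter (fun j => ψ (fun i => x (j, i)) ≠ 0)).card then (1 : ℝ) else 0)).comp
        (fun i => (Sum.inl i : (Fin (8 * t) × Fin b) ⊕ Fin (k * t)))
      simp only [Fintype.card_prod, Fintype.card_fin] at this
      exact this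
    have dw : Deg (8 * t * b + L * D) (fun a => w a τ) := by
      rcases τ with _ | l
      · exact ((Deg.const _ 1).sub dG).mono (Nat.le_add_right _ _)
      · refine dG.mul (Deg.bern_cheb (f := fun a => K * Y a / 2 ^ E) ?_ D L l
          (Nat.lt_succ_iff.1 l.2))
        exact ((Deg.sum univ (fun i _ => Deg.coord y i)).smul (K / 2 ^ E)).congr
          (fun a => by simp only [Y]; ring)
    exact (((hLab τ).1.mono (Nat.le_add_right _ _)).add dw).congr (fun a => by ring)
  · have e1 : Ex p (fun a => |Z a - Zt (Lab a)|) = Ex p (fun a => ∑ τ, |Z a - Zt τ| * w a τ) := by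
      rw [Ex_congr (fun a => hsplit (fun τ => |Z a - Zt τ|) a), Ex_sum, Ex_sum]
      refine sum_congr rfl (fun τ _ => ?_)
      have := (hLab τ).2 (fun a => |Z a - Zt τ|) (fun a a' h => by simp only [Z, hYc a a' h])
      rw [← sub_eq_zero, ← Ex_sub]
      exact (Ex_congr (fun a => by ring)).trans this
    refine (le_of_eq e1).trans ?_
    have hpt : ∀ a, ∑ τ, |Z a - Zt τ| * w a τ ≤ (16 * lam + η) * Z a ^ 2 +
        ((δ + 1 / (4 * L * δ)) / lam +
          1 / (4 * t * η) * ∑ j, (if ψ (blk a j) = 0 then (1 : ℝ) else 0)) := by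
      intro a
      have hc0 : 0 ≤ (δ + 1 / (4 * L * δ)) / lam := by positivity
      have hs0 : 0 ≤ 1 / (4 * t * η) * ∑ j, (if ψ (blk a j) = 0 then (1 : ℝ) else 0) := by
        positivity
      rw [Fintype.sum_option]
      by_cases h : 4 * t ≤ (univ.filter (fun j => ψ (blk a j) ≠ 0)).card
      · simp only [w, G, h, if_true, sub_self, mul_zero, zero_add, one_mul]
        have a1 := cheb_approx r (hx a)
        have a2 : (D : ℝ) * (K * Y a / 2 ^ E) = lam * Z a := by
          simp only [hlam, Z]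
          field_simp
        rw [← hD, a2] at a1
        set T := cheb D (K * Y a / 2 ^ E) with hT
        have a3 : ∀ l : Fin (L + 1), |Z a - Zt (some l)| ≤
            16 * lam * Z a ^ 2 + 2 * |u a - l / L| / lam := by
          intro l
          have : Z a - Zt (some l) = (-(T - lam * Z a) + 2 * (u a - l / L)) / lam := by
            simp only [Zt, u, ← hT]
            field_simp
            ring
          rw [this, abs_div, abs_of_pos hlam0, div_le_iff₀ hlam0]
          refine (abs_add_le _ _).trans ?_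
          rw [abs_neg, abs_mul, abs_two, add_mul, div_mul_cancel₀ _ hlam0.ne']
          nlinarith
        have a4 := bern_err hL (hu a).1 (hu a).2 hδ
        calc ∑ l : Fin (L + 1), |Z a - Zt (some l)| * bern L l (u a)
            ≤ ∑ l : Fin (L + 1), (16 * lam * Z a ^ 2 * bern L l (u a) +
                bern L l (u a) * (2 * |u a - l / L|) / lam) := by
              refine sum_le_sum (fun l _ => ?_)
              refine (mul_le_mul_of_nonneg_right (a3 l)
                (bern_nonneg L l (hu a).1 (hu a).2)).trans (le_of_eq ?_)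
              ring
          _ ≤ 16 * lam * Z a ^ 2 + (δ + 1 / (4 * L * δ)) / lam := by
              rw [sum_add_distrib, ← mul_sum, bern_sum L (hu a).1 (hu a).2, mul_one, ← sum_div]
              gcongr
          _ ≤ _ := by nlinarith [sq_nonneg (Z a)]
      · simp only [w, G, h, if_false, zero_mul, mul_zero, sum_const_zero, add_zero, sub_zero,
          mul_one, Zt]
        have a1 : (4 * t : ℝ) ≤ ∑ j, (if ψ (blk a j) = 0 then (1 : ℝ) else 0) := by
          have := card_filter_add_card_filter_not (s := (univ : Finset (Fin (8 * t))))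
            (fun j => ψ (blk a j) = 0)
          simp only [card_univ, Fintype.card_fin, ne_eq] at this h
          rw [sum_boole]
          exact_mod_cast (by omega : 4 * t ≤ _)
        have a2 : 1 / η ≤ 1 / (4 * t * η) * ∑ j, (if ψ (blk a j) = 0 then (1 : ℝ) else 0) := by
          refine le_trans (le_of_eq ?_) (mul_le_mul_of_nonneg_left a1 (by positivity))
          field_simp
        have a3 : |Z a| ≤ η * Z a ^ 2 + 1 / η := by
          rw [← sq_abs, ← sub_nonneg]
          have : η * |Z a| ^ 2 + 1 / η - |Z a| = ((η * |Z a| - 1) ^ 2 + η * |Z a|) / η := by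
            field_simp
            ring
          rw [this]
          positivity
        nlinarith [sq_nonneg (Z a)]
    refine (Ex_mono hp0 hpt).trans ?_
    have hZ2 : Ex p (fun a => Z a ^ 2) = 1 := by
      have := Ex_sq_sum (N := (Fin (8 * t) × Fin b) ⊕ Fin (k * t)) hp1 y hy
      rw [hcard, ← hV] at this
      rw [Ex_congr (G := fun a => (1 / (n * V)) * (∑ i, y (a i)) ^ 2) (fun a => by
        simp only [Z, Y]
        rw [div_pow, Real.sq_sqrt (by positivity)]
        ring), Ex_smul, this]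
      field_simp
    rw [Ex_add, Ex_add, Ex_smul, Ex_smul, Ex_const hp1, hZ2, Ex_sum]
    have a1 : ∑ j : Fin (8 * t), Ex p (fun a : (Fin (8 * t) × Fin b) ⊕ Fin (k * t) → A =>
        if ψ (blk a j) = 0 then (1 : ℝ) else 0) ≤ 8 * t * ε := by
      refine (sum_le_sum (g := fun _ => ε) (fun j _ => ?_)).trans (by simp)
      rw [Ex_blk hp1 j (fun x => if ψ x = 0 then (1 : ℝ) else 0)]
      exact hε
    have a2 := mul_le_mul_of_nonneg_left a1 (by positivity : 0 ≤ 1 / (4 * t * η))
    have a3 : 1 / (4 * t * η) * (8 * t * ε) = 2 * ε / η := by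
      field_simp
      ring
    linarith

lemma exists_lin_le_two_pow (α β : ℕ) : ∃ j : ℕ, α + β * j ≤ 2 ^ j := by
  refine ⟨2 * (α + 2 * β), ?_⟩
  have := @Nat.lt_two_pow_self (α + 2 * β)
  rw [mul_comm 2 (α + 2 * β), pow_mul]
  nlinarith

lemma estimator {A : Type} [Fintype A] [DecidableEq A] (p y : A → ℝ)
    (hp1 : ∑ a, p a = 1) (hy : ∑ a, p a * y a = 0) (V : ℝ) (hV : V = ∑ a, p a * y a ^ 2)
    (hV0 : 0 < V) (K : ℕ) (hK : 0 < K) (yi : A → ℤ) (hyi : ∀ a, (K : ℝ) * y a = yi a)
    (π0 : ℝ) (hπ : 0 < π0) (hmin : ∀ a, π0 ≤ p a) (η : ℝ) (hη : 0 < η) (n1 : ℕ) :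
    ∃ (N : Type) (_ : Fintype N) (_ : DecidableEq N) (Zh : (N → A) → ℝ) (D' : ℕ),
      n1 ≤ Fintype.card N ∧ (∀ q : ℝ → ℝ, Deg D' (fun a => q (Zh a))) ∧
      D' * (1 + π0 / 64) ≤ (1 + η) * Fintype.card N ∧
      Ex p (fun a => |(∑ i, y (a i)) / Real.sqrt (Fintype.card N * V) - Zh a|) ≤ η := by
  have hp0 : ∀ a, 0 ≤ p a := fun a => hπ.le.trans (hmin a)
  have hne : (univ : Finset A).Nonempty := by
    by_contra h
    rw [not_nonempty_iff_eq_empty] at h
    simp [h] at hp1
  obtain ⟨s, -, hs⟩ := exists_min_image univ p hne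
  obtain ⟨s', hss⟩ : ∃ s', s' ≠ s := by
    by_contra h
    push Not at h
    have hu : (univ : Finset A) = {s} := by ext a; simp [h a]
    rw [hu, sum_singleton] at hy hV
    have : V = 0 := by rw [hV, sq, ← mul_assoc, hy, zero_mul]
    linarith
  have hπ1 : π0 ≤ 1 := (hmin s).trans (hp1 ▸ single_le_sum (fun a _ => hp0 a) (mem_univ s))
  obtain ⟨b, k, ψ, hk1, hk, hkb, hψ, hdeg, hex, hε⟩ := block_limit p hp0 hp1 s s' hss
    (fun a => hs a (mem_univ a)) (hπ.trans_le (hmin s)) (η ^ 2 / 50) (by positivity)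
  set n0 : ℕ := 8 * b + k with hn0
  have hn00 : 0 < n0 := by omega
  set B : ℝ := ∑ a, |(yi a : ℝ)| with hB
  set σ : ℝ := K * Real.sqrt (n0 * V) with hσ
  have hσ0 : 0 < σ := mul_pos (by positivity) (Real.sqrt_pos.2 (by positivity))
  obtain ⟨e, he⟩ := pow_unbounded_of_one_lt (max (n0 * B) (400 * σ / η)) (by norm_num : (1 : ℝ) < 2)
  have he1 : n0 * B ≤ 2 ^ e := ((le_max_left _ _).trans he.le)
  have he2 : 400 * σ / η ≤ 2 ^ e := ((le_max_right _ _).trans he.le)
  set l0 : ℝ := σ / 2 ^ e with hl0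
  have hl00 : 0 < l0 := by positivity
  have hl1 : 400 * l0 ≤ η := by
    rw [div_le_iff₀ hη] at he2
    rw [hl0, ← mul_div_assoc, div_le_iff₀ (by positivity)]
    linarith
  obtain ⟨L, hL⟩ := exists_nat_gt (1 / (l0 * η) ^ 2)
  have hL0 : (0 : ℝ) < L := lt_trans (by positivity) hL
  have hL0' : L ≠ 0 := by rintro rfl; simp at hL0
  obtain ⟨c, hc⟩ := exists_nat_gt (10 * L / η)
  obtain ⟨j, hj⟩ := exists_lin_le_two_pow (n1 + c + 2 * L * (5 * e + 1) + 1) (20 * L)
  set r : ℕ := 2 ^ j with hr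
  have hr1 : 1 ≤ r := Nat.one_le_two_pow
  have hrR : (1 : ℝ) ≤ r := by exact_mod_cast hr1
  set lam : ℝ := (4 * r + 1 : ℕ) * K * Real.sqrt ((r * r * n0 : ℕ) * V) / 2 ^ (e + 2 * j)
    with hlam
  have hlam' : lam = (4 + 1 / r) * l0 := by
    rw [hlam, hl0, hσ, pow_add, mul_comm 2 j, pow_mul]
    push_cast
    rw [mul_assoc ((r : ℝ) * r), Real.sqrt_mul (by positivity), Real.sqrt_mul_self (by positivity)]
    have : (2 : ℝ) ^ j = r := by rw [hr]; push_cast; rfl
    rw [this]
    field_simp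
  have hr2 : 1 / (r : ℝ) ≤ 1 := by rw [div_le_one (by linarith)]; exact hrR
  have hr3 : 0 < 1 / (r : ℝ) := by positivity
  have hlam1 : 4 * l0 ≤ lam := by rw [hlam']; nlinarith
  have hlam2 : lam ≤ 5 * l0 := by rw [hlam']; nlinarith
  obtain ⟨Zh, h1, h2⟩ := estimator_core p y hp0 hp1 hy V hV hV0 K yi hyi B
    (fun a => single_le_sum (f := fun a => |(yi a : ℝ)|) (fun _ _ => abs_nonneg _) (mem_univ a))
    ψ hk1 hk hψ hdeg hex _ hε (r * r) r (e + 2 * j) L hL0' (by
      have a1 : (e + 2 * j) * (4 * r + 1) + 1 ≤ (5 * e + 1 + 10 * j) * r := by nlinarith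
      have a2 : 2 * L * (5 * e + 1 + 10 * j) + 1 ≤ r := by nlinarith
      have a3 := Nat.mul_le_mul_left (2 * L) a1
      have a4 := Nat.mul_le_mul_right r a2
      nlinarith) (by
      rw [pow_add, mul_comm 2 j, pow_mul]
      have : (2 : ℝ) ^ j = r := by rw [hr]; push_cast; rfl
      rw [this, ← hn0]
      push_cast
      nlinarith [mul_pos (by linarith : (0 : ℝ) < r) (by linarith : (0 : ℝ) < r)])
    lam (l0 * η / 2) (η / 5) (by linarith) (by positivity) (by positivity) hlam
  have hcard : Fintype.card ((Fin (8 * (r * r)) × Fin b) ⊕ Fin (k * (r * r))) = r * r * n0 := by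
    simp [hn0]; ring
  refine ⟨_, inferInstance, inferInstance, Zh, _, ?_, h1, ?_, ?_⟩
  · rw [hcard]
    have : n1 ≤ r := by omega
    nlinarith
  · rw [hcard, hn0]
    push_cast
    have a1 : π0 * b / 8 ≤ k := le_trans (by gcongr; exact hmin s) hkb
    have a2 : 10 * L ≤ η * r := by
      have : (c : ℝ) ≤ r := by exact_mod_cast (by omega : c ≤ r)
      rw [div_lt_iff₀ hη] at hc
      nlinarith
    have a3 : (1 : ℝ) ≤ 8 * b + k := by exact_mod_cast hn00
    have a4 : (L : ℝ) * (4 * r + 1) * (1 + π0 / 64) ≤ 10 * L * r := by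
      have : (4 * (r : ℝ) + 1) * (1 + π0 / 64) ≤ (5 * r) * 2 :=
        mul_le_mul (by linarith) (by linarith) (by linarith) (by linarith)
      nlinarith
    have a5 : 10 * (L : ℝ) * r ≤ η * (r * r * (8 * b + k)) := by
      have := mul_le_mul_of_nonneg_right a2 (by linarith : (0 : ℝ) ≤ r)
      have h2 : η * r * r * 1 ≤ η * r * r * (8 * b + k) :=
        mul_le_mul_of_nonneg_left a3 (by positivity)
      nlinarith
    have a6 := mul_le_mul_of_nonneg_left a1 (by positivity : (0 : ℝ) ≤ r * r)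
    nlinarith
  · rw [hcard]
    refine h2.trans ?_
    have a1 : 1 / (4 * L * (l0 * η / 2)) ≤ l0 * η / 2 := by
      rw [div_lt_iff₀ (by positivity)] at hL
      rw [div_le_iff₀ (by positivity)]
      nlinarith
    have a2 : (l0 * η / 2 + 1 / (4 * L * (l0 * η / 2))) / lam ≤ η / 4 := by
      rw [div_le_iff₀ (by linarith)]
      nlinarith
    have a3 : 2 * (η ^ 2 / 50) / (η / 5) = η / 5 := by
      field_simp
      ring
    linarith

end Crest.Agent.H2BF
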