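import Crest.Agent.H2.BF1

set_option autoImplicit false

namespace Crest.Agent.H2BF

open Finset Filter Topology MeasureTheory ProbabilityTheory

/-- discrete measure -/
noncomputable def dm {Ω : Type} [Fintype Ω] (w X : Ω → ℝ) : Measure ℝ :=
  ∑ ω, ENNReal.ofReal (w ω) • Measure.dirac (X ω)

lemma integral_dm {Ω E : Type} [Fintype Ω] [NormedAddCommGroup E] [NormedSpace ℝ E]
    [CompleteSpace E] {w : Ω → ℝ} (hw : ∀ ω, 0 ≤ w ω) (X : Ω → ℝ) (f : ℝ → E) :
    ∫ x, f x ∂(dm w X) = ∑ ω, w ω • f (X ω) := by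
  unfold dm
  rw [integral_finsetSum_measure]
  · refine sum_congr rfl (fun ω _ => ?_)
    rw [integral_smul_measure, integral_dirac, ENNReal.toReal_ofReal (hw ω)]
  · intro ω _
    exact (integrable_dirac (by simp)).smul_measure (by simp)

lemma dm_prob {Ω : Type} [Fintype Ω] {w : Ω → ℝ} (hw : ∀ ω, 0 ≤ w ω) (h1 : ∑ ω, w ω = 1)
    (X : Ω → ℝ) : IsProbabilityMeasure (dm w X) := by
  constructor
  simp only [dm, Measure.coe_finsetSum, Finset.sum_apply, Measure.smul_apply, measure_univ,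
    smul_eq_mul, mul_one]
  rw [← ENNReal.ofReal_sum_of_nonneg (fun ω _ => hw ω), h1, ENNReal.ofReal_one]

lemma clt {A : Type} [Fintype A] (p y : A → ℝ) (hp0 : ∀ a, 0 ≤ p a)
    (hp1 : ∑ a, p a = 1) (hy : ∑ a, p a * y a = 0) (V : ℝ) (hV : V = ∑ a, p a * y a ^ 2)
    (hV0 : 0 < V) (f : ℝ → ℝ) (hf : Continuous f) (C : ℝ) (hC : ∀ x, |f x| ≤ C)
    (ε : ℝ) (hε : 0 < ε) :
    ∃ n1 : ℕ, ∀ (N : Type) [Fintype N] [DecidableEq N], n1 ≤ Fintype.card N →
      (∫ s, gaussianPDFReal 0 1 s * f s) - ε ≤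
        Ex p (fun a : N → A => f ((∑ i, y (a i)) / Real.sqrt (Fintype.card N * V))) := by
  have hw0 : ∀ n (a : Fin n → A), 0 ≤ ∏ i, p (a i) := fun n a => prod_nonneg (fun _ _ => hp0 _)
  have hw1 : ∀ n, ∑ a : Fin n → A, ∏ i, p (a i) = 1 := by
    intro n
    have := Ex_const (N := Fin n) hp1 1
    simpa [Ex] using this
  let μ : ℕ → ProbabilityMeasure ℝ := fun n =>
    ⟨dm (fun a : Fin n → A => ∏ i, p (a i)) (fun a => (∑ i, y (a i)) / Real.sqrt (n * V)),
      dm_prob (hw0 n) (hw1 n) _⟩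
  have hsV : 0 < Real.sqrt V := Real.sqrt_pos.2 hV0
  have := dm_prob hp0 hp1 (fun a => y a / Real.sqrt V)
  have hlim : Tendsto μ atTop (𝓝 ⟨gaussianReal 0 1, inferInstance⟩) := by
    refine ProbabilityMeasure.tendsto_iff_tendsto_charFun.2 (fun t => ?_)
    have h := tendsto_charFun_inv_sqrt_mul_pow (P := dm p (fun a => y a / Real.sqrt V))
      (X := id) aemeasurable_id (by
        rw [integral_dm hp0]
        simp only [id, smul_eq_mul, ← mul_div_assoc, ← sum_div, hy, zero_div]) (by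
        rw [integral_dm hp0]
        simp only [Pi.pow_apply, id, smul_eq_mul, div_pow, ← mul_div_assoc, ← sum_div, ← hV,
          Real.sq_sqrt hV0.le]
        exact div_self hV0.ne') t
    simp only [ProbabilityMeasure.coe_mk, charFun_gaussianReal]
    convert h using 2 with n
    · simp only [μ, ProbabilityMeasure.coe_mk, Measure.map_id, charFun_apply_real]
      rw [integral_dm (hw0 n), integral_dm hp0, ← Fin.prod_const, prod_univ_sum,
        Fintype.piFinset_univ]
      refine sum_congr rfl (fun a _ => ?_)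
      simp only [Complex.real_smul, prod_mul_distrib, ← Complex.exp_sum]
      push_cast
      congr 2
      rw [sum_div, mul_sum, sum_mul]
      refine sum_congr rfl (fun i _ => ?_)
      rw [Real.sqrt_mul (Nat.cast_nonneg n)]
      push_cast
      ring
    · simp [neg_div]
  have h2 := (ProbabilityMeasure.tendsto_iff_forall_integral_tendsto.1 hlim)
    (BoundedContinuousFunction.ofNormedAddCommGroup f hf C hC)
  simp only [μ, ProbabilityMeasure.coe_mk, BoundedContinuousFunction.coe_ofNormedAddCommGroup,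
    integral_gaussianReal_eq_integral_smul (one_ne_zero), smul_eq_mul] at h2
  obtain ⟨n1, hn1⟩ := eventually_atTop.1 (h2.eventually (lt_mem_nhds (sub_lt_self _ hε)))
  refine ⟨n1, fun N _ _ hN => (hn1 _ hN).le.trans (le_of_eq ?_)⟩
  rw [integral_dm (hw0 _), ← Ex_reindex (Fintype.equivFin N)]
  refine sum_congr rfl (fun a _ => ?_)
  rw [smul_eq_mul, ← Equiv.sum_comp (Fintype.equivFin N) (fun i => y (a i))]

end Crest.Agent.H2BF
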