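import Crest.Agent.H2.BF6

set_option autoImplicit false

namespace Crest.Agent.H2BF

open Finset Filter Topology MeasureTheory ProbabilityTheory

lemma exists_net (ω : ℝ → ℝ) (θ z : ℝ) (hθ : 0 < θ) (hz : 0 ≤ z) (hω : ∀ s, θ ≤ ω s) :
    ∃ Q : Finset ℝ, 0 ∈ Q ∧ (∀ x ∈ Q, |x| ≤ z) ∧
      (∀ x ∈ Q, ∀ x' ∈ Q, x ≠ x' → min (ω x) (ω x') ≤ |x - x'|) ∧
      ∀ s, |s| ≤ z → ∃ x ∈ Q, |s - x| ≤ ω s := by
  classical
  let S : Set ℕ := {n | ∃ Q : Finset ℝ, (0 ∈ Q ∧ (∀ x ∈ Q, |x| ≤ z) ∧
      (∀ x ∈ Q, ∀ x' ∈ Q, x ≠ x' → min (ω x) (ω x') ≤ |x - x'|)) ∧ Q.card = n}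
  have hne : S.Nonempty := ⟨1, {0}, ⟨by simp, by simpa using hz, by simp⟩, by simp⟩
  have hbdd : BddAbove S := by
    refine ⟨(Icc ⌊-z / θ⌋ ⌊z / θ⌋).card, ?_⟩
    rintro n ⟨Q, ⟨-, h1, h2⟩, rfl⟩
    refine card_le_card_of_injOn (fun x => ⌊x / θ⌋) (fun x hx => ?_) (fun x hx x' hx' h => ?_)
    · have := abs_le.1 (h1 x hx)
      simp only [coe_Icc, Set.mem_Icc]
      constructor <;> apply Int.floor_le_floor <;> gcongr
      · exact this.1
      · exact this.2
    · by_contra hne
      have a1 := h2 x hx x' hx' hne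
      have a2 := Int.abs_sub_lt_one_of_floor_eq_floor h
      rw [← sub_div, abs_div, abs_of_pos hθ, div_lt_one hθ] at a2
      have a3 := le_min (hω x) (hω x')
      linarith
  obtain ⟨Q, ⟨h0, h1, h2⟩, hQ⟩ := Nat.sSup_mem hne hbdd
  refine ⟨Q, h0, h1, h2, fun s hs => ?_⟩
  by_contra hcon
  push Not at hcon
  have hsQ : s ∉ Q := fun h => by
    have := hcon s h
    have := hω s
    simp at *
    linarith
  have : (insert s Q).card ∈ S := by
    refine ⟨insert s Q, ⟨mem_insert_of_mem h0, ?_, ?_⟩, rfl⟩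
    · intro x hx
      rcases mem_insert.1 hx with rfl | hx
      · exact hs
      · exact h1 x hx
    · intro x hx x' hx' hne
      rcases mem_insert.1 hx with rfl | hy <;> rcases mem_insert.1 hx' with rfl | hy'
      · exact absurd rfl hne
      · exact (min_le_left _ _).trans (hcon x' hy').le
      · rw [abs_sub_comm]
        exact (min_le_right _ _).trans (hcon x hy).le
      · exact h2 x hy x' hy' hne
  have := le_csSup hbdd this
  rw [card_insert_of_notMem hsQ] at this
  omega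

/-- tent function -/
noncomputable def tent (x r s : ℝ) : ℝ := max 0 (1 - |s - x| / r)

lemma tent_nonneg (x r s : ℝ) : 0 ≤ tent x r s := le_max_left _ _

lemma tent_le_one (x : ℝ) {r : ℝ} (hr : 0 < r) (s : ℝ) : tent x r s ≤ 1 :=
  max_le zero_le_one (by have : 0 ≤ |s - x| / r := by positivity
                         linarith)

lemma tent_cont (x r : ℝ) : Continuous (tent x r) := by
  unfold tent
  fun_prop

lemma tent_lip (x : ℝ) {r : ℝ} (hr : 0 < r) (s s' : ℝ) :
    tent x r s ≤ tent x r s' + |s - s'| / r := by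
  have h0 : 0 ≤ |s - s'| / r := by positivity
  refine max_le (add_nonneg (tent_nonneg _ _ _) h0) ?_
  have h1 : 1 - |s' - x| / r ≤ tent x r s' := le_max_right _ _
  have h2 : |s' - x| / r ≤ (|s - s'| + |s - x|) / r := by
    gcongr
    rw [abs_sub_comm s s']
    exact abs_sub_le _ _ _
  rw [add_div] at h2
  linarith

lemma pdf_bdd_integrable (f : ℝ → ℝ) (hf : Continuous f) (C : ℝ) (hC : ∀ x, |f x| ≤ C) :
    Integrable (fun s => gaussianPDFReal 0 1 s * f s) :=
  (integrable_gaussianPDFReal 0 1).mul_bdd hf.aestronglyMeasurable (Eventually.of_forall hC)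

lemma exists_quantizer : ∃ (Q : Finset ℝ) (π0 z θ : ℝ) (rad G : ℝ → ℝ), 0 ∈ Q ∧ 0 < π0 ∧
    π0 ≤ 1 / 2 ∧ 0 < θ ∧ 0 < z ∧ (∀ x ∈ Q, |x| ≤ z) ∧ (∀ x, θ ≤ rad x) ∧
    (∀ x ∈ Q, ∀ x' ∈ Q, x ≠ x' → 2 * rad x ≤ |x - x'|) ∧
    (∀ x ∈ Q, 2 * π0 ≤ ∫ s, gaussianPDFReal 0 1 s * tent x (rad x) s) ∧
    Integrable G ∧ ∫ s, G s ≤ π0 / 512 ∧
    ∀ s, ∃ x ∈ Q, gaussianPDFReal 0 1 s * (s - x) ^ 2 ≤ G s := by
  obtain ⟨z, hz⟩ : ∃ z : ℝ, 10 ^ 8 ≤ z := ⟨_, le_rfl⟩
  have hz0 : 0 < z := lt_of_lt_of_le (by norm_num) hz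
  have hz2 : 2 ≤ z := le_trans (by norm_num) hz
  set θ := Real.exp (-z ^ 2 / 2) / z with hθ
  have hθ0 : 0 < θ := by positivity
  set c := (Real.sqrt (2 * Real.pi))⁻¹ with hc
  have hc0 : 0 < c := by have := Real.pi_pos; positivity
  have hc1 : c ≤ 1 := inv_le_one_of_one_le₀ (Real.one_le_sqrt.2 (by linarith [Real.pi_gt_three]))
  have hpdf : ∀ s, gaussianPDFReal 0 1 s = c * Real.exp (-s ^ 2 / 2) := by
    intro s
    simp [gaussianPDFReal, hc]
  let ω : ℝ → ℝ := fun s => θ * Real.exp (s ^ 2 / 2)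
  have hω : ∀ s, θ ≤ ω s := fun s =>
    le_mul_of_one_le_right hθ0.le (Real.one_le_exp (by positivity))
  have hωe : ∀ s, ω s = Real.exp ((s ^ 2 - z ^ 2) / 2) / z := by
    intro s
    simp only [ω, hθ]
    rw [div_mul_eq_mul_div, ← Real.exp_add]
    congr 2
    ring
  have hωz : ∀ s, |s| ≤ z → ω s ≤ 1 / z := by
    intro s hs
    rw [hωe]
    gcongr
    have : s ^ 2 ≤ z ^ 2 := by rw [← sq_abs s]; gcongr
    exact Real.exp_le_one_iff.2 (by linarith)
  have h1z : 1 / z ≤ 1 := by rw [div_le_one hz0]; linarith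
  have he3 : ∀ a b : ℝ, a ≤ b + 1 → Real.exp a ≤ 3 * Real.exp b := by
    intro a b h
    refine (Real.exp_le_exp.2 h).trans ?_
    rw [Real.exp_add, mul_comm]
    gcongr
    linarith [Real.exp_one_lt_d9]
  obtain ⟨Q, h0, h1, h2, h3⟩ := exists_net ω θ z hθ0 hz0.le hω
  have i1 := integrable_inv_one_add_sq.comp_sub_right z
  have i2 := integrable_inv_one_add_sq.comp_add_right z
  refine ⟨Q, c * θ / 72, z, θ / 6, fun x => ω x / 6,
    fun s => 36 * c * θ / z * ((1 + (s - z) ^ 2)⁻¹ + (1 + (s + z) ^ 2)⁻¹), h0, by positivity, ?_,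
    by positivity, hz0, h1, fun x => by linarith [hω x], ?_, ?_, (i1.add i2).const_mul _, ?_, ?_⟩
  · have := (hω 0).trans ((hωz 0 (by simpa using hz0.le)).trans h1z)
    nlinarith
  · intro x hx x' hx' hne
    have a1 := h2 x hx x' hx' hne
    have a0 := hθ0.trans_le (hω x)
    by_cases h : ω x ≤ |x - x'|
    · linarith
    · have a2 : ω x' ≤ |x - x'| := (min_le_iff.1 a1).resolve_left h
      have a3 : |x - x'| ≤ 1 / z := (not_le.1 h).le.trans (hωz x (h1 x hx))
      have a4 : |x + x'| ≤ 2 * z := (abs_add_le _ _).trans (by linarith [h1 x hx, h1 x' hx'])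
      have a5 : |(x - x') * (x + x')| ≤ 1 / z * (2 * z) := by
        rw [abs_mul]
        gcongr
      have a6 : 1 / z * (2 * z) = 2 := by field_simp
      have a7 := he3 (x ^ 2 / 2) (x' ^ 2 / 2) (by nlinarith [le_abs_self ((x - x') * (x + x'))])
      have a8 : ω x ≤ 3 * ω x' := by
        simp only [ω]
        nlinarith
      linarith
  · intro x hx
    have a0 := hθ0.trans_le (hω x)
    set r := ω x / 6 with hr
    have hr0 : 0 < r := by positivity
    have hr1 : r ≤ 1 / z := by linarith [hωz x (h1 x hx)]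
    have hle : ∀ s, (Set.Icc (x - r / 2) (x + r / 2)).indicator
        (fun _ => c * Real.exp (-x ^ 2 / 2) / 6) s ≤ gaussianPDFReal 0 1 s * tent x r s := by
      intro s
      by_cases hs : s ∈ Set.Icc (x - r / 2) (x + r / 2)
      · rw [Set.indicator_of_mem hs, hpdf]
        have b1 : |s - x| ≤ r / 2 := abs_le.2 ⟨by linarith [hs.1], by linarith [hs.2]⟩
        have b2 : 1 / 2 ≤ tent x r s := by
          refine le_trans ?_ (le_max_right _ _)
          have : |s - x| / r ≤ 1 / 2 := by rw [div_le_iff₀ hr0]; linarith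
          linarith
        have b3 : |s + x| ≤ 3 * z := by
          have : s + x = (s - x) + 2 * x := by ring
          rw [this]
          refine (abs_add_le _ _).trans ?_
          rw [abs_mul, abs_two]
          linarith [h1 x hx]
        have b4 : |(s - x) * (s + x)| ≤ (1 / z / 2) * (3 * z) := by
          rw [abs_mul]
          gcongr
          linarith
        have b5 : (1 / z / 2) * (3 * z) = 3 / 2 := by field_simp
        have b6 := he3 (-x ^ 2 / 2) (-s ^ 2 / 2) (by nlinarith [le_abs_self ((s - x) * (s + x))])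
        have b7 : c * Real.exp (-x ^ 2 / 2) / 3 ≤ c * Real.exp (-s ^ 2 / 2) := by nlinarith
        have b8 := mul_le_mul b7 b2 (by norm_num) (by positivity)
        linarith
      · rw [Set.indicator_of_notMem hs]
        exact mul_nonneg (gaussianPDFReal_nonneg _ _ _) (tent_nonneg _ _ _)
    refine le_trans (le_of_eq ?_) (integral_mono ?_ (pdf_bdd_integrable _ (tent_cont x r) 1
      (fun s => by rw [abs_of_nonneg (tent_nonneg _ _ _)]; exact tent_le_one x hr0 s)) hle)
    · rw [integral_indicator_const _ measurableSet_Icc, Real.volume_real_Icc_of_le (by linarith),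
        smul_eq_mul]
      have : Real.exp (x ^ 2 / 2) * Real.exp (-x ^ 2 / 2) = 1 := by
        rw [← Real.exp_add, ← Real.exp_zero]
        congr 1
        ring
      simp only [hr, ω]
      linear_combination (-(c * θ) / 36) * this
    · exact (integrable_indicator_iff measurableSet_Icc).2 (integrableOn_const (by simp))
  · rw [integral_const_mul, integral_add i1 i2,
      integral_sub_right_eq_self (fun s : ℝ => (1 + s ^ 2)⁻¹) z,
      integral_add_right_eq_self (fun s : ℝ => (1 + s ^ 2)⁻¹) z, integral_univ_inv_one_add_sq,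
      div_mul_eq_mul_div, div_le_iff₀ hz0]
    have := Real.pi_le_four
    have hcθ := mul_pos hc0 hθ0
    nlinarith
  · intro s
    set d := |(|s| - z)| with hd
    have hd0 : 0 ≤ d := abs_nonneg _
    have key : ∃ x ∈ Q, Real.exp (-s ^ 2 / 2) * (s - x) ^ 2 ≤ 18 * θ / z * Real.exp (-d) := by
      by_cases hs : |s| ≤ z
      · obtain ⟨x, hx, hsx⟩ := h3 s hs
        refine ⟨x, hx, ?_⟩
        have b1 : (s - x) ^ 2 ≤ ω s * ω s := by
          rw [← sq_abs, sq]
          exact mul_self_le_mul_self (abs_nonneg _) hsx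
        have b2 : Real.exp (-s ^ 2 / 2) * ω s = θ := by
          simp only [ω]
          rw [mul_left_comm, ← Real.exp_add, show -s ^ 2 / 2 + s ^ 2 / 2 = 0 by ring,
            Real.exp_zero, mul_one]
        have b3 : ω s ≤ Real.exp (-d) / z := by
          rw [hωe]
          gcongr
          rw [hd, abs_of_nonpos (by linarith), ← sq_abs s]
          nlinarith [abs_nonneg s]
        calc _ ≤ Real.exp (-s ^ 2 / 2) * (ω s * ω s) := by gcongr
          _ = θ * ω s := by rw [← mul_assoc, b2]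
          _ ≤ θ * (Real.exp (-d) / z) := by gcongr
          _ = 1 * θ / z * Real.exp (-d) := by ring
          _ ≤ _ := by gcongr; norm_num
      · push Not at hs
        have hdz : d = |s| - z := abs_of_pos (by linarith)
        obtain ⟨s0, hs0, hs0'⟩ : ∃ s0, |s0| ≤ z ∧ |s - s0| ≤ d := by
          rcases abs_cases s with h | h
          · exact ⟨z, (abs_of_pos hz0).le, by rw [hd, h.1]⟩
          · refine ⟨-z, by rw [abs_neg, abs_of_pos hz0], ?_⟩
            rw [hd, h.1, ← abs_neg]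
            exact le_of_eq (by congr 1; ring)
        obtain ⟨x, hx, hsx⟩ := h3 s0 hs0
        refine ⟨x, hx, ?_⟩
        have b1 : |s - x| ≤ d + 1 / z :=
          (abs_sub_le s s0 x).trans (add_le_add hs0' (hsx.trans (hωz s0 hs0)))
        have b2 : (s - x) ^ 2 ≤ 2 * d ^ 2 + 2 * (1 / z) ^ 2 := by
          have : |s - x| ^ 2 ≤ (d + 1 / z) ^ 2 := by gcongr
          rw [sq_abs] at this
          nlinarith [sq_nonneg (d - 1 / z)]
        have b3 := Real.quadratic_le_exp_of_nonneg (show 0 ≤ z * d / 2 by positivity)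
        have b4 : (s - x) ^ 2 ≤ 18 * Real.exp (z * d / 2) / z ^ 2 := by
          refine b2.trans ?_
          rw [le_div_iff₀ (by positivity)]
          have : (2 * d ^ 2 + 2 * (1 / z) ^ 2) * z ^ 2 = 16 * ((z * d / 2) ^ 2 / 2) + 2 := by
            field_simp
            ring
          rw [this]
          have : 0 ≤ z * d / 2 := by positivity
          nlinarith [sq_nonneg (z * d / 2)]
        have b5 : Real.exp (-s ^ 2 / 2) * Real.exp (z * d / 2) ≤
            Real.exp (-z ^ 2 / 2) * Real.exp (-d) := by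
          rw [← Real.exp_add, ← Real.exp_add, Real.exp_le_exp, ← sq_abs s,
            show |s| = d + z by linarith]
          nlinarith
        calc _ ≤ Real.exp (-s ^ 2 / 2) * (18 * Real.exp (z * d / 2) / z ^ 2) := by gcongr
          _ = 18 / z ^ 2 * (Real.exp (-s ^ 2 / 2) * Real.exp (z * d / 2)) := by ring
          _ ≤ 18 / z ^ 2 * (Real.exp (-z ^ 2 / 2) * Real.exp (-d)) := by gcongr
          _ = _ := by rw [hθ]; field_simp
    obtain ⟨x, hx, hk⟩ := key
    refine ⟨x, hx, ?_⟩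
    have b1 : Real.exp (-d) ≤ 2 * (1 + d ^ 2)⁻¹ := by
      have := Real.quadratic_le_exp_of_nonneg hd0
      rw [Real.exp_neg, ← div_eq_mul_inv, le_div_iff₀ (by positivity),
        inv_mul_le_iff₀ (Real.exp_pos _)]
      linarith
    have b2 : (1 + d ^ 2)⁻¹ ≤ (1 + (s - z) ^ 2)⁻¹ + (1 + (s + z) ^ 2)⁻¹ := by
      rw [hd, sq_abs]
      rcases abs_cases s with h | h
      · rw [h.1]
        exact le_add_of_nonneg_right (by positivity)
      · rw [h.1, show (-s - z) ^ 2 = (s + z) ^ 2 by ring]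
        exact le_add_of_nonneg_left (by positivity)
    rw [hpdf, mul_assoc]
    calc _ ≤ c * (18 * θ / z * Real.exp (-d)) := by gcongr
      _ ≤ c * (18 * θ / z * (2 * ((1 + (s - z) ^ 2)⁻¹ + (1 + (s + z) ^ 2)⁻¹))) := by
          gcongr
          linarith
      _ = _ := by ring

end Crest.Agent.H2BF
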