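import Crest.Agent.H2.BF7

set_option autoImplicit false

namespace Crest.Agent.H2BF

open Finset Filter Topology MeasureTheory ProbabilityTheory

lemma exists_trunc (ε : ℝ) (hε : 0 < ε) :
    ∃ K : ℝ, 0 ≤ K ∧ 1 - ε ≤ ∫ s, gaussianPDFReal 0 1 s * min (s ^ 2) K := by
  have hint : Integrable (fun s : ℝ => s ^ 2) (gaussianReal 0 1) :=
    (memLp_id_gaussianReal (μ := 0) (v := 1) 2).integrable_sq
  have h1 : ∫ s, s ^ 2 ∂(gaussianReal 0 1) = 1 := by
    have := variance_fun_id_gaussianReal (μ := 0) (v := 1)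
    rw [variance_eq_integral measurable_id'.aemeasurable] at this
    simpa using this
  have h := tendsto_integral_of_dominated_convergence (μ := gaussianReal 0 1)
    (F := fun (n : ℕ) (s : ℝ) => min (s ^ 2) n) (f := fun s => s ^ 2) (fun s => s ^ 2)
    (fun n => (by fun_prop : Continuous fun s : ℝ => min (s ^ 2) (n : ℝ)).aestronglyMeasurable)
    hint (fun n => Eventually.of_forall (fun s => by
      rw [Real.norm_eq_abs, abs_of_nonneg (le_min (sq_nonneg _) (Nat.cast_nonneg _))]
      exact min_le_left _ _))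
    (Eventually.of_forall (fun s => by
      refine tendsto_const_nhds.congr' ?_
      filter_upwards [eventually_ge_atTop ⌈s ^ 2⌉₊] with n hn
      exact (min_eq_left (Nat.ceil_le.1 hn)).symm))
  rw [h1] at h
  obtain ⟨n, hn⟩ := (h.eventually (lt_mem_nhds (sub_lt_self _ hε))).exists
  refine ⟨n, Nat.cast_nonneg _, ?_⟩
  rw [integral_gaussianReal_eq_integral_smul one_ne_zero] at hn
  exact hn.le

lemma quantize : ∃ (Q : Finset ℝ) (q : ℝ → Q) (π0 η : ℝ), 0 < π0 ∧ π0 ≤ 1 / 2 ∧ 0 < η ∧
    η ≤ π0 / 256 ∧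
    ∀ (A : Type) [Fintype A] (p y : A → ℝ) (V : ℝ), (∀ a, 0 ≤ p a) → ∑ a, p a = 1 →
      ∑ a, p a * y a = 0 → V = ∑ a, p a * y a ^ 2 → 0 < V →
      ∃ n1 : ℕ, ∀ (N : Type) [Fintype N] [DecidableEq N] (Zh : (N → A) → ℝ),
        n1 ≤ Fintype.card N →
        Ex p (fun a => |(∑ i, y (a i)) / Real.sqrt (Fintype.card N * V) - Zh a|) ≤ η →
        (∀ x : Q, π0 ≤ Ex p (fun a => if q (Zh a) = x then (1 : ℝ) else 0)) ∧
        1 - π0 / 256 ≤ Ex p (fun a => 2 * ((∑ i, y (a i)) / Real.sqrt (Fintype.card N * V)) *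
          q (Zh a) - (q (Zh a) : ℝ) ^ 2) := by
  obtain ⟨Q, π0, z, θ, rad, G, h0, hπ, hπ', hθ, hz, hQz, hrad, hsep, hmass, hG, hG', hloss⟩ :=
    exists_quantizer
  have hq : ∀ s : ℝ, ∃ x : Q, ∀ x' ∈ Q, (s - x) ^ 2 ≤ (s - x') ^ 2 := by
    intro s
    obtain ⟨x, hx, h⟩ := exists_min_image Q (fun x => (s - x) ^ 2) ⟨0, h0⟩
    exact ⟨⟨x, hx⟩, h⟩
  choose q hq using hq
  let H : ℝ → ℝ := fun s => 2 * s * q s - (q s : ℝ) ^ 2
  have hH : ∀ s s', H s - 2 * z * |s - s'| ≤ 2 * s' * q s - (q s : ℝ) ^ 2 := by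
    intro s s'
    have : |(s - s') * q s| ≤ |s - s'| * z := by
      rw [abs_mul]
      gcongr
      exact hQz _ (q s).2
    simp only [H]
    nlinarith [le_abs_self ((s - s') * q s)]
  have hH1 : ∀ s s', H s ≤ H s' + 2 * z * |s - s'| := by
    intro s s'
    have a1 := hH s s'
    have a2 := hq s' (q s) (q s).2
    simp only [H] at a1 ⊢
    nlinarith
  have hHc : Continuous H :=
    (LipschitzWith.of_le_add_mul' (2 * z) (fun s s' => hH1 s s')).continuous
  have hH0 : ∀ s, 0 ≤ H s := by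
    intro s
    have a2 := hq s 0 h0
    simp only [H]
    nlinarith
  obtain ⟨K, hK0, hK⟩ := exists_trunc (π0 / 2048) (by positivity)
  have hb1 : ∀ s, |min (H s) K| ≤ K := fun s => by
    rw [abs_of_nonneg (le_min (hH0 s) hK0)]; exact min_le_right _ _
  have hI : 1 - π0 / 2048 - π0 / 512 ≤ ∫ s, gaussianPDFReal 0 1 s * min (H s) K := by
    have i1 := pdf_bdd_integrable (fun s => min (s ^ 2) K) (by fun_prop) K (fun s => by
      rw [abs_of_nonneg (le_min (sq_nonneg s) hK0)]; exact min_le_right _ _)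
    refine le_trans ?_ (integral_mono (i1.sub hG)
      (pdf_bdd_integrable (fun s => min (H s) K) (by fun_prop) K hb1) (fun s => ?_))
    · simp only [Pi.sub_apply]
      rw [integral_sub i1 hG]
      linarith
    · obtain ⟨x, hx, h⟩ := hloss s
      have a1 := hq s x hx
      have a2 : min (s ^ 2) K - (s - x) ^ 2 ≤ min (H s) K := by
        refine le_min ?_ ?_
        · have := min_le_left (s ^ 2) K
          simp only [H]
          nlinarith
        · have := min_le_right (s ^ 2) K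
          nlinarith [sq_nonneg (s - x)]
      have a3 := mul_le_mul_of_nonneg_left a2 (gaussianPDFReal_nonneg 0 1 s)
      simp only [Pi.sub_apply]
      nlinarith
  refine ⟨Q, q, π0, min (π0 / 256) (min (π0 * θ / 2) (π0 / (4096 * z))), hπ, hπ', by positivity,
    min_le_left _ _, ?_⟩
  intro A _ p y V hp0 hp1 hy hV hV0
  have hr0 : ∀ x, 0 < rad x := fun x => hθ.trans_le (hrad x)
  have c1 := fun x : Q => clt p y hp0 hp1 hy V hV hV0 (tent x (rad x)) (tent_cont _ _) 1
    (fun s => by rw [abs_of_nonneg (tent_nonneg _ _ _)]; exact tent_le_one _ (hr0 x) s)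
    (π0 / 2) (by positivity)
  choose n1 hn1 using c1
  obtain ⟨n2, hn2⟩ := clt p y hp0 hp1 hy V hV hV0 (fun s => min (H s) K) (by fun_prop) K hb1
    (π0 / 2048) (by positivity)
  refine ⟨max n2 (univ.sup n1), fun N _ _ Zh hN hE => ⟨fun x => ?_, ?_⟩⟩
  · have a1 := hn1 x N ((le_sup (f := n1) (mem_univ x)).trans ((le_max_right _ _).trans hN))
    have a2 := hmass x x.2
    have a3 := hE.trans ((min_le_right _ _).trans (min_le_left _ _))
    have a4 : Ex p (fun a : N → A =>
        tent x (rad x) ((∑ i, y (a i)) / Real.sqrt (Fintype.card N * V))) ≤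
        Ex p (fun a => (if q (Zh a) = x then (1 : ℝ) else 0) +
          1 / θ * |(∑ i, y (a i)) / Real.sqrt (Fintype.card N * V) - Zh a|) := by
      refine Ex_mono hp0 (fun a => (tent_lip _ (hr0 x) _ (Zh a)).trans (add_le_add ?_ ?_))
      · split_ifs with h
        · exact tent_le_one _ (hr0 x) _
        · refine max_le le_rfl ?_
          have b1 := hsep x x.2 _ (q (Zh a)).2 (fun h' => h (Subtype.ext h'.symm))
          have b2 := sq_le_sq.1 (hq (Zh a) x x.2)
          have b3 : |(x : ℝ) - q (Zh a)| ≤ |Zh a - x| + |Zh a - q (Zh a)| := by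
            rw [abs_sub_comm (Zh a) x]
            exact abs_sub_le _ _ _
          rw [sub_nonpos, le_div_iff₀ (hr0 x)]
          linarith
      · rw [one_div, ← div_eq_inv_mul]
        gcongr
        exact hrad x
    rw [Ex_add, Ex_smul] at a4
    have a5 := mul_le_mul_of_nonneg_left a3 (by positivity : 0 ≤ 1 / θ)
    have a6 : 1 / θ * (π0 * θ / 2) = π0 / 2 := by field_simp
    linarith
  · have a1 := hn2 N ((le_max_left _ _).trans hN)
    have a3 := hE.trans ((min_le_right _ _).trans (min_le_right _ _))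
    have a4 : Ex p (fun a : N → A =>
        min (H ((∑ i, y (a i)) / Real.sqrt (Fintype.card N * V))) K) ≤
        Ex p (fun a => (2 * ((∑ i, y (a i)) / Real.sqrt (Fintype.card N * V)) *
          q (Zh a) - (q (Zh a) : ℝ) ^ 2) +
          4 * z * |(∑ i, y (a i)) / Real.sqrt (Fintype.card N * V) - Zh a|) := by
      refine Ex_mono hp0 (fun a => (min_le_left _ _).trans ?_)
      have b1 := hH1 ((∑ i, y (a i)) / Real.sqrt (Fintype.card N * V)) (Zh a)
      have b2 := hH (Zh a) ((∑ i, y (a i)) / Real.sqrt (Fintype.card N * V))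
      rw [abs_sub_comm] at b2
      linarith
    rw [Ex_add, Ex_smul] at a4
    have a5 := mul_le_mul_of_nonneg_left a3 (by positivity : 0 ≤ 4 * z)
    have a6 : 4 * z * (π0 / (4096 * z)) = π0 / 1024 := by field_simp; norm_num
    linarith

end Crest.Agent.H2BF
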