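import Crest.Agent.H2.BF5
import Crest.Agent.H2.BF8

set_option autoImplicit false

namespace Crest.Agent.H2BF

open Finset

lemma Ex_curry {N ι α : Type} [Fintype N] [DecidableEq N] [Fintype ι] [DecidableEq ι] [Fintype α]
    (p : α → ℝ) (F : N → (ι → α) → ℝ) :
    Ex p (fun x : N × ι → α => ∏ i, F i (fun j => x (i, j))) = ∏ i, Ex p (F i) := by
  unfold Ex
  rw [prod_univ_sum, Fintype.piFinset_univ]
  refine Fintype.sum_equiv (Equiv.curry N ι α) _ _ (fun a => ?_)
  rw [Fintype.prod_prod_type, prod_mul_distrib]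
  rfl

/-- uniform law of a bit -/
noncomputable def hb : Bool → ℝ := fun _ => 1 / 2

lemma hb0 (x : Bool) : 0 ≤ hb x := by unfold hb; norm_num

lemma hb1 : ∑ x, hb x = 1 := by simp [hb]

section
variable {ι A : Type} [Fintype ι] [DecidableEq ι] [Fintype A] [DecidableEq A]

/-- probability of a label -/
noncomputable def pr (lab : (ι → Bool) → A) (a : A) : ℝ :=
  Ex hb (fun x => if lab x = a then (1 : ℝ) else 0)

/-- first moment of a label -/
noncomputable def mo (lab : (ι → Bool) → A) (a : A) : ℝ :=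
  Ex hb (fun x => (∑ i, sg (x i)) * if lab x = a then (1 : ℝ) else 0)

lemma sum_pr (lab : (ι → Bool) → A) (g : A → ℝ) :
    ∑ a, pr lab a * g a = Ex hb (fun x => g (lab x)) := by
  simp only [pr, mul_comm _ (g _), ← Ex_smul, ← Ex_sum]
  exact Ex_congr (fun x => by simp)

lemma sum_mo (lab : (ι → Bool) → A) (g : A → ℝ) :
    ∑ a, mo lab a * g a = Ex hb (fun x => (∑ i, sg (x i)) * g (lab x)) := by
  simp only [mo, mul_comm _ (g _), ← Ex_smul, ← Ex_sum]
  exact Ex_congr (fun x => by simp)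

lemma Ex_sg : Ex hb (fun x : ι → Bool => ∑ i, sg (x i)) = 0 := by
  rw [Ex_sum]
  refine sum_eq_zero (fun i _ => ?_)
  rw [Ex_coord hb1]
  simp [hb, sg]

lemma push1 {N : Type} [Fintype N] [DecidableEq N] (lab : (ι → Bool) → A) (G : (N → A) → ℝ) :
    Ex hb (fun x : N × ι → Bool => G (fun i => lab (fun j => x (i, j)))) = Ex (pr lab) G := by
  have e : ∀ x : N × ι → Bool, G (fun i => lab (fun j => x (i, j))) =
      ∑ a : N → A, G a * ∏ i, (if lab (fun j => x (i, j)) = a i then (1 : ℝ) else 0) := by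
    intro x
    simp [prod_boole, ← funext_iff]
  rw [Ex_congr e, Ex_sum]
  refine sum_congr rfl (fun a _ => ?_)
  rw [Ex_smul, Ex_curry hb (fun i x => if lab x = a i then (1 : ℝ) else 0), mul_comm]
  rfl

lemma push2 {N : Type} [Fintype N] [DecidableEq N] (lab : (ι → Bool) → A) (y : A → ℝ)
    (hy : ∀ a, mo lab a = pr lab a * y a) (G : (N → A) → ℝ) :
    Ex hb (fun x : N × ι → Bool => (∑ i, sg (x i)) * G (fun i => lab (fun j => x (i, j)))) =
      Ex (pr lab) (fun a => (∑ i, y (a i)) * G a) := by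
  have e : ∀ x : N × ι → Bool, (∑ i, sg (x i)) * G (fun i => lab (fun j => x (i, j))) =
      ∑ a : N → A, ∑ i0 : N, G a * ∏ i, ((if i = i0 then ∑ j, sg (x (i, j)) else 1) *
        (if lab (fun j => x (i, j)) = a i then (1 : ℝ) else 0)) := by
    intro x
    simp only [prod_mul_distrib, prod_ite_eq', mem_univ, if_true, ← mul_sum, ← sum_mul,
      Fintype.sum_prod_type]
    simp [prod_boole, ← funext_iff, mul_comm]
  rw [Ex_congr e, Ex_sum]
  refine sum_congr rfl (fun a _ => ?_)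
  beta_reduce
  rw [Ex_sum, sum_mul, mul_sum]
  refine sum_congr rfl (fun i0 _ => ?_)
  rw [Ex_smul, Ex_curry hb (fun i x => (if i = i0 then ∑ j, sg (x j) else 1) *
        (if lab x = a i then (1 : ℝ) else 0)),
    prod_congr rfl (g := fun i => pr lab (a i) * (if i = i0 then y (a i) else 1)) (fun i _ => by
      split_ifs with h
      · exact hy _
      · simp [pr]), prod_mul_distrib]
  simp only [prod_ite_eq', mem_univ, if_true]
  ring

lemma Ex_rat (F : (ι → Bool) → ℝ) (hF : ∀ x, F x ∈ (Rat.castHom ℝ).fieldRange) :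
    Ex hb F ∈ (Rat.castHom ℝ).fieldRange :=
  sum_mem (fun x _ => mul_mem (prod_mem (fun _ _ => ⟨1 / 2, by simp [hb]⟩)) (hF x))

lemma exists_den (lab : (ι → Bool) → A) :
    ∃ (K : ℕ) (yi : A → ℤ), 0 < K ∧ ∀ a, (K : ℝ) * (mo lab a / pr lab a) = yi a := by
  have h : ∀ a, ∃ r : ℚ, (r : ℝ) = mo lab a / pr lab a := by
    intro a
    have i1 : ∀ x, (if lab x = a then (1 : ℝ) else 0) ∈ (Rat.castHom ℝ).fieldRange := by
      intro x
      split_ifs
      · exact one_mem _
      · exact zero_mem _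
    refine div_mem (Ex_rat _ (fun x => mul_mem (sum_mem (fun i _ => ?_)) (i1 x))) (Ex_rat _ i1)
    unfold sg
    split_ifs
    · exact one_mem _
    · exact neg_mem (one_mem _)
  choose r hr using h
  refine ⟨∏ a, (r a).den, fun a => (∏ a' ∈ univ.erase a, (r a').den : ℕ) * (r a).num,
    prod_pos (fun a _ => (r a).den_pos), fun a => ?_⟩
  rw [← hr, ← prod_erase_mul _ _ (mem_univ a), Nat.cast_mul, mul_assoc, Int.cast_mul,
    Int.cast_natCast]
  congr 1
  exact_mod_cast Rat.den_mul_eq_num (r a)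

end

/-- a labelling of a cube whose label indicators have low degree, and which explains a lot of
variance of the sum of the coordinates -/
def Good (π0 ρ : ℝ) : Prop :=
  ∃ (ι A : Type) (_ : Fintype ι) (_ : DecidableEq ι) (_ : Fintype A) (_ : DecidableEq A)
    (lab : (ι → Bool) → A) (c : ℕ), (∀ a, Deg c (fun x => if lab x = a then (1 : ℝ) else 0)) ∧
    (∀ a, π0 ≤ pr lab a) ∧ 0 < ∑ a, mo lab a ^ 2 / pr lab a ∧
    ρ * c ≤ ∑ a, mo lab a ^ 2 / pr lab a

lemma good_base {π0 : ℝ} (h : π0 ≤ 1 / 2) : Good π0 1 := by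
  have h1 : ∀ a, pr (fun x : Unit → Bool => x ()) a = 1 / 2 := by
    intro a
    rw [pr, Ex_coord hb1 () (fun b => if b = a then (1 : ℝ) else 0)]
    simp [hb]
  have h2 : ∀ a, mo (fun x : Unit → Bool => x ()) a = sg a / 2 := by
    intro a
    rw [mo]
    simp only [univ_unique, PUnit.default_eq_unit, sum_singleton]
    rw [Ex_coord hb1 () (fun b => sg b * if b = a then (1 : ℝ) else 0)]
    simp [hb]
    ring
  have h3 : ∑ a, mo (fun x : Unit → Bool => x ()) a ^ 2 / pr (fun x : Unit → Bool => x ()) a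
      = 1 := by
    simp only [h1, h2]
    simp [sg]
    norm_num
  refine ⟨Unit, Bool, inferInstance, inferInstance, inferInstance, inferInstance,
    fun x => x (), 1, fun a => Deg.coord (fun b => if b = a then (1 : ℝ) else 0) (),
    fun a => by rw [h1]; exact h, by rw [h3]; norm_num, by rw [h3]; norm_num⟩

lemma good_step : ∃ π0 : ℝ, 0 < π0 ∧ π0 ≤ 1 / 2 ∧
    ∀ ρ, 0 ≤ ρ → Good π0 ρ → Good π0 ((1 + π0 / 256) * ρ) := by
  classical
  obtain ⟨Q, q, π0, η, hπ, hπ', hη, hη', hQ⟩ := quantize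
  refine ⟨π0, hπ, hπ', ?_⟩
  rintro ρ hρ ⟨ι, A, _, _, _, _, lab, c, hdeg, hmin, hV0, hV1⟩
  set V := ∑ a, mo lab a ^ 2 / pr lab a with hV
  have hp : ∀ a, 0 < pr lab a := fun a => hπ.trans_le (hmin a)
  set y : A → ℝ := fun a => mo lab a / pr lab a with hy
  have hy1 : ∀ a, mo lab a = pr lab a * y a := fun a => by
    rw [hy, mul_div_cancel₀ _ (hp a).ne']
  have hp1 : ∑ a, pr lab a = 1 := by
    have := sum_pr lab (fun _ => 1)
    rw [Ex_const hb1] at this
    simpa using this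
  have hy0 : ∑ a, pr lab a * y a = 0 := by
    have := sum_mo lab (fun _ => 1)
    simp only [mul_one, Ex_sg] at this
    simp only [← hy1, this]
  have hV2 : V = ∑ a, pr lab a * y a ^ 2 := sum_congr rfl (fun a _ => by
    have := (hp a).ne'
    rw [hy1]
    field_simp)
  obtain ⟨n1, hn1⟩ := hQ A (pr lab) y V (fun a => (hp a).le) hp1 hy0 hV2 hV0
  obtain ⟨K, yi, hK, hyi⟩ := exists_den lab
  obtain ⟨N, _, _, Zh, D', h1, h2, h3, h4⟩ := estimator (pr lab) y hp1 hy0 V hV2 hV0 K hK yi hyi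
    π0 hπ hmin η hη (max n1 1)
  obtain ⟨h5, h6⟩ := hn1 N Zh ((le_max_left _ _).trans h1) h4
  have hN : (1 : ℝ) ≤ Fintype.card N := by exact_mod_cast (le_max_right _ _).trans h1
  have : Nonempty A := ⟨lab (fun _ => true)⟩
  let lab' : (N × ι → Bool) → Q := fun x => q (Zh (fun i => lab (fun j => x (i, j))))
  have hp' : ∀ s, π0 ≤ pr lab' s := by
    intro s
    refine (h5 s).trans (le_of_eq ?_)
    exact (push1 lab (fun a => if q (Zh a) = s then (1 : ℝ) else 0)).symm
  set w := Real.sqrt (Fintype.card N * V) with hw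
  have hw0 : 0 < w := Real.sqrt_pos.2 (by positivity)
  have hw2 : w ^ 2 = Fintype.card N * V := Real.sq_sqrt (by positivity)
  have key : Fintype.card N * V * (1 - π0 / 256) ≤ ∑ s, mo lab' s ^ 2 / pr lab' s := by
    have a1 : ∑ s, (2 * w * (mo lab' s * s) - w ^ 2 * (pr lab' s * (s : ℝ) ^ 2)) ≤
        ∑ s, mo lab' s ^ 2 / pr lab' s := by
      refine sum_le_sum (fun s _ => ?_)
      have := hπ.trans_le (hp' s)
      rw [le_div_iff₀ this]
      nlinarith [sq_nonneg (mo lab' s - w * s * pr lab' s)]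
    refine le_trans ?_ a1
    rw [sum_sub_distrib, ← mul_sum, ← mul_sum, sum_mo lab' (fun s => (s : ℝ)),
      sum_pr lab' (fun s => (s : ℝ) ^ 2), push1 lab (fun a => (q (Zh a) : ℝ) ^ 2),
      push2 lab y hy1 (fun a => (q (Zh a) : ℝ)), ← Ex_smul, ← Ex_smul, ← Ex_sub, ← hw2]
    refine (mul_le_mul_of_nonneg_left h6 (sq_nonneg w)).trans (le_of_eq ?_)
    rw [← Ex_smul]
    refine Ex_congr (fun a => ?_)
    field_simp
  refine ⟨N × ι, Q, inferInstance, inferInstance, inferInstance, inferInstance, lab', D' * c,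
    fun s => Deg.lift lab hdeg (h2 (fun z => if q z = s then (1 : ℝ) else 0)), hp',
    lt_of_lt_of_le (mul_pos (by positivity) (by linarith)) key, le_trans ?_ key⟩
  have b1 : (1 + π0 / 256) * D' ≤ Fintype.card N * (1 - π0 / 256) := by
    have c1 : (D' : ℝ) * (1 + π0 / 64) ≤ (1 + π0 / 256) * Fintype.card N :=
      h3.trans (by gcongr)
    refine le_of_mul_le_mul_right ?_ (show 0 < 1 + π0 / 64 by positivity)
    have c2 : (1 + π0 / 256) * (1 + π0 / 256) ≤ (1 - π0 / 256) * (1 + π0 / 64) := by nlinarith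
    have c3 := mul_le_mul_of_nonneg_left c1 (show 0 ≤ 1 + π0 / 256 by positivity)
    have c4 := mul_le_mul_of_nonneg_left c2 (show (0 : ℝ) ≤ Fintype.card N by positivity)
    nlinarith
  push_cast
  calc (1 + π0 / 256) * ρ * (D' * c) = ((1 + π0 / 256) * D') * (ρ * c) := by ring
    _ ≤ (Fintype.card N * (1 - π0 / 256)) * V :=
        mul_le_mul b1 hV1 (by positivity) (mul_nonneg (by positivity) (by linarith))
    _ = _ := by ring

lemma good_all : ∃ π0 : ℝ, 0 < π0 ∧ ∀ M : ℝ, ∃ ρ, M < ρ ∧ Good π0 ρ := by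
  obtain ⟨π0, hπ, hπ', h⟩ := good_step
  refine ⟨π0, hπ, fun M => ?_⟩
  obtain ⟨n, hn⟩ := pow_unbounded_of_one_lt M (show 1 < 1 + π0 / 256 by linarith)
  refine ⟨_, hn, ?_⟩
  clear hn
  induction n with
  | zero => simpa using good_base hπ'
  | succ n ih =>
    rw [pow_succ']
    exact h _ (by positivity) ih

lemma final (C : ℝ) :
    ∃ (ι : Type) (_ : Fintype ι) (_ : DecidableEq ι) (f : (ι → Bool) → Bool) (d : ℕ),
      Deg d (fun x => sg (f x)) ∧ 0 < Ex hb (fun x => (∑ i, sg (x i)) * sg (f x)) ∧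
      C * Real.sqrt d < Ex hb (fun x => (∑ i, sg (x i)) * sg (f x)) := by
  obtain ⟨π0, hπ, h⟩ := good_all
  obtain ⟨ρ, hρ, ι, A, _, _, _, _, lab, c, hdeg, hmin, hV0, hV1⟩ := h ((C / π0) ^ 2)
  set V := ∑ a, mo lab a ^ 2 / pr lab a with hV
  have hp : ∀ a, 0 < pr lab a := fun a => hπ.trans_le (hmin a)
  have hp1 : ∑ a, pr lab a = 1 := by
    have := sum_pr lab (fun _ => 1)
    rw [Ex_const hb1] at this
    simpa using this
  have e1 : Ex hb (fun x => (∑ i, sg (x i)) * sg (decide (0 ≤ mo lab (lab x)))) =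
      ∑ a, |mo lab a| := by
    rw [← sum_mo lab (fun a => sg (decide (0 ≤ mo lab a)))]
    refine sum_congr rfl (fun a _ => ?_)
    by_cases h : 0 ≤ mo lab a
    · simp [sg, h, abs_of_nonneg h]
    · simp [sg, h, abs_of_neg (not_le.1 h)]
  have e2 : π0 ^ 2 * V ≤ (∑ a, |mo lab a|) ^ 2 := by
    refine le_trans ?_ (sum_sq_le_sq_sum_of_nonneg (fun a _ => abs_nonneg _))
    rw [hV, mul_sum]
    refine sum_le_sum (fun a _ => ?_)
    have a1 : pr lab a ≤ 1 := hp1 ▸ single_le_sum (fun a _ => (hp a).le) (mem_univ a)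
    have a2 := hmin a
    rw [sq_abs, ← mul_div_assoc, div_le_iff₀ (hp a), mul_comm]
    gcongr
    nlinarith
  have e3 : 0 ≤ ∑ a, |mo lab a| := sum_nonneg (fun a _ => abs_nonneg _)
  have e4 : 0 < π0 ^ 2 * V := by positivity
  refine ⟨ι, inferInstance, inferInstance, fun x => decide (0 ≤ mo lab (lab x)), c, ?_, ?_, ?_⟩
  · refine Deg.congr (Deg.sum univ (fun a _ => (hdeg a).smul (sg (decide (0 ≤ mo lab a)))))
      (fun x => by simp)
  · rw [e1]
    exact lt_of_pow_lt_pow_left₀ 2 e3 (by linarith)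
  · rw [e1]
    refine lt_of_pow_lt_pow_left₀ 2 e3 (lt_of_lt_of_le ?_ e2)
    rw [mul_pow, Real.sq_sqrt (Nat.cast_nonneg c)]
    rcases Nat.eq_zero_or_pos c with rfl | hc
    · simpa using e4
    · rw [div_pow, div_lt_iff₀ (by positivity)] at hρ
      have : (0 : ℝ) < c := by exact_mod_cast hc
      have h2 := mul_le_mul_of_nonneg_left hV1 (sq_nonneg π0)
      nlinarith

end Crest.Agent.H2BF
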