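import Mathlib

/-! Kadison similarity, part 1: phases, counting permutations, invariant functions. -/

set_option autoImplicit false
set_option maxHeartbeats 400000
open Finset

namespace Crest.Agent.H2.KS

/-- The standard character of `ZMod N`. -/
noncomputable def chi (N : ℕ) [NeZero N] (z : ZMod N) : ℂ := (ZMod.stdAddChar z : ℂ)

section chi
variable {N : ℕ} [NeZero N]

lemma chi_add (a b : ZMod N) : chi N (a + b) = chi N a * chi N b := by
  simp [chi, AddChar.map_add_eq_mul]

lemma chi_zero : chi N 0 = 1 := by simp [chi]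

lemma norm_chi (a : ZMod N) : ‖chi N a‖ = 1 := by
  simp [chi, ZMod.stdAddChar_apply]

lemma chi_mul_conj (a : ZMod N) : chi N a * (starRingEnd ℂ) (chi N a) = 1 := by
  rw [Complex.mul_conj, Complex.normSq_eq_norm_sq, norm_chi]; simp

lemma conj_chi (a : ZMod N) : (starRingEnd ℂ) (chi N a) = chi N (-a) := by
  have h1 := chi_mul_conj a
  have h2 : chi N a * chi N (-a) = 1 := by rw [← chi_add]; simp [chi_zero]
  have h3 : chi N a ≠ 0 := by
    intro h; rw [h] at h2; simp at h2
  exact mul_left_cancel₀ h3 (h1.trans h2.symm)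

lemma chi_sum {ι : Type*} (s : Finset ι) (f : ι → ZMod N) :
    chi N (∑ i ∈ s, f i) = ∏ i ∈ s, chi N (f i) := by
  classical
  induction s using Finset.induction_on with
  | empty => simp [chi_zero]
  | insert a s ha ih => rw [sum_insert ha, prod_insert ha, chi_add, ih]

lemma chi_eq_one_iff (a : ZMod N) : chi N a = 1 ↔ a = 0 := by
  constructor
  · intro h
    have := ZMod.injective_stdAddChar (N := N)
    apply this
    simpa [chi] using h
  · rintro rfl; exact chi_zero

lemma sum_chi_mul (c : ZMod N) : ∑ z : ZMod N, chi N (c * z) = if c = 0 then (N : ℂ) else 0 := by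
  split_ifs with h
  · simp [h, chi_zero]
  · have := AddChar.sum_mulShift (R := ZMod N) (R' := ℂ) c (ZMod.isPrimitive_stdAddChar N)
    simp only [h, if_false, Nat.cast_zero] at this
    simpa [chi, mul_comm] using this

lemma sum_chi_lin {J : Type*} [Fintype J] [DecidableEq J] (c : J → ZMod N) :
    ∑ ε : J → ZMod N, chi N (∑ j, c j * ε j) =
      if c = 0 then (N : ℂ) ^ Fintype.card J else 0 := by
  simp_rw [chi_sum]
  rw [← Fintype.piFinset_univ, ← Finset.prod_univ_sum (fun _ => univ) (fun j z => chi N (c j * z))]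
  simp_rw [sum_chi_mul]
  split_ifs with h
  · simp [h]
  · obtain ⟨j, hj⟩ := Function.ne_iff.1 h
    exact prod_eq_zero (mem_univ j) (by simp at hj; simp [hj])

end chi

/-- Number of indices mapped to `j`. -/
def cnt {ι J : Type*} [Fintype ι] [DecidableEq J] (a : ι → J) (j : J) : ℕ :=
  (univ.filter fun l => a l = j).card

lemma sum_comp_eq_cnt {ι J M : Type*} [Fintype ι] [Fintype J] [DecidableEq J] [CommRing M]
    (a : ι → J) (f : J → M) : ∑ l, f (a l) = ∑ j, (cnt a j : M) * f j := by
  rw [← Finset.sum_fiberwise (s := univ) (g := a) (f := fun l => f (a l))]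
  refine sum_congr rfl fun j _ => ?_
  rw [sum_congr rfl (g := fun _ => f j) (fun l hl => by rw [(mem_filter.1 hl).2])]
  simp [cnt]

lemma cnt_le {ι J : Type*} [Fintype ι] [DecidableEq J] (a : ι → J) (j : J) :
    cnt a j ≤ Fintype.card ι := card_filter_le _ _

lemma phase_avg {N : ℕ} [NeZero N] {ι ι' J : Type*} [Fintype ι] [Fintype ι'] [Fintype J]
    [DecidableEq J] (a : ι → J) (a' : ι' → J) (h : Fintype.card ι < N) (h' : Fintype.card ι' < N) :
    ∑ ε : J → ZMod N, (starRingEnd ℂ) (∏ l, chi N (ε (a l))) * ∏ l, chi N (ε (a' l)) =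
      if ∀ j, cnt a j = cnt a' j then (N : ℂ) ^ Fintype.card J else 0 := by
  have key : ∀ ε : J → ZMod N, (starRingEnd ℂ) (∏ l, chi N (ε (a l))) * ∏ l, chi N (ε (a' l)) =
      chi N (∑ j, ((cnt a' j : ZMod N) - (cnt a j : ZMod N)) * ε j) := by
    intro ε
    rw [← chi_sum, ← chi_sum, conj_chi, ← chi_add, sum_comp_eq_cnt, sum_comp_eq_cnt]
    congr 1
    simp_rw [sub_mul]; rw [sum_sub_distrib]; ring
  simp_rw [key]
  rw [sum_chi_lin]
  congr 1
  apply propext
  constructor
  · intro hc j
    have := congrFun hc j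
    simp only [Pi.zero_apply, sub_eq_zero] at this
    have h1 := (cnt_le a j).trans_lt h
    have h2 := (cnt_le a' j).trans_lt h'
    rw [ZMod.natCast_eq_natCast_iff'] at this
    rw [Nat.mod_eq_of_lt h1, Nat.mod_eq_of_lt h2] at this
    exact this.symm
  · intro hc; funext j; simp [hc j]

lemma cnt_comp_perm {ι J : Type*} [Fintype ι] [DecidableEq J] (a : ι → J) (σ : Equiv.Perm ι) (j : J) :
    cnt (a ∘ σ) j = cnt a j := by
  unfold cnt
  refine card_bij (fun l _ => σ l) (by simp) (by simp) ?_
  intro l hl
  exact ⟨σ.symm l, by simpa using hl, by simp⟩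

lemma exists_perm_of_cnt {ι J : Type*} [Fintype ι] [DecidableEq J] (a a' : ι → J)
    (ha : Function.Injective a) (h : ∀ j, cnt a j = cnt a' j) :
    ∃ σ : Equiv.Perm ι, a' = a ∘ σ := by
  classical
  have h1 : ∀ l, ∃ l', a l' = a' l := by
    intro l
    have : 0 < cnt a' (a' l) := card_pos.2 ⟨l, by simp⟩
    rw [← h] at this
    obtain ⟨l', hl'⟩ := card_pos.1 this
    exact ⟨l', (mem_filter.1 hl').2⟩
  have h2 : Function.Injective a' := by
    intro l l' hll
    have h3 : cnt a (a' l) ≤ 1 := by
      unfold cnt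
      refine card_le_one.2 fun x hx y hy => ha ?_
      rw [(mem_filter.1 hx).2, (mem_filter.1 hy).2]
    rw [h] at h3
    exact card_le_one.1 h3 l (by simp) l' (by simp [hll])
  choose s hs using h1
  have h4 : Function.Injective s := fun l l' hl => h2 (by rw [← hs, ← hs, hl])
  exact ⟨Equiv.ofBijective s (Finite.injective_iff_bijective.1 h4), by funext l; simp [hs]⟩

lemma card_perm_ext {ι I : Type*} [Fintype ι] [Fintype I] [DecidableEq I] (a b : ι → I)
    (ha : Function.Injective a) (hb : Function.Injective b) :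
    (univ.filter fun π : Equiv.Perm I => ∀ l, π (a l) = b l).card =
      (Fintype.card I - Fintype.card ι).factorial := by
  classical
  let e₀ : Set.range a ≃ Set.range b := (Equiv.ofInjective a ha).symm.trans (Equiv.ofInjective b hb)
  have e1 := Equiv.Set.compl e₀
  have e2 : {π : Equiv.Perm I // ∀ l, π (a l) = b l} ≃
      {e : I ≃ I // ∀ x : Set.range a, e x = e₀ x} := by
    refine Equiv.subtypeEquivRight fun π => ⟨fun h x => ?_, fun h l => ?_⟩
    · obtain ⟨x, l, rfl⟩ := x
      have : (Equiv.ofInjective a ha).symm ⟨a l, l, rfl⟩ = l := by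
        rw [Equiv.symm_apply_eq]; rfl
      simp [e₀, this, h]
    · have := h ⟨a l, l, rfl⟩
      have h2 : (Equiv.ofInjective a ha).symm ⟨a l, l, rfl⟩ = l := by
        rw [Equiv.symm_apply_eq]; rfl
      simpa [e₀, h2] using this
  rw [← Fintype.card_subtype, Fintype.card_congr (e2.trans e1)]
  have c1 : Fintype.card (↥(Set.range a)ᶜ) = Fintype.card I - Fintype.card ι := by
    rw [Fintype.card_compl_set, Set.card_range_of_injective ha]
  have c2 : Fintype.card (↥(Set.range b)ᶜ) = Fintype.card I - Fintype.card ι := by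
    rw [Fintype.card_compl_set, Set.card_range_of_injective hb]
  rw [Fintype.card_equiv (Fintype.equivOfCardEq (c1.trans c2.symm)), c1]

/-! ### Functions invariant under a permutation -/

/-- Number of functions invariant under `τ`. -/
def inv (U : Type*) [Fintype U] [DecidableEq U] {n : ℕ} (τ : Equiv.Perm (Fin n)) : ℕ :=
  (univ.filter fun S : Fin n → U => S ∘ τ = S).card

lemma inv_decomp (U : Type*) [Fintype U] [DecidableEq U] {n : ℕ} (p : Fin (n + 1))
    (τ : Equiv.Perm (Fin n)) :
    inv U (Equiv.Perm.decomposeFin.symm (p, τ)) =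
      if p = 0 then Fintype.card U * inv U τ else inv U τ := by
  have key : ∀ S : Fin (n + 1) → U, (S ∘ Equiv.Perm.decomposeFin.symm (p, τ) = S) ↔
      (S p = S 0 ∧ Fin.tail S ∘ τ = Fin.tail S) := by
    intro S
    have hsw : S p = S 0 → ∀ i, S (Equiv.swap 0 p i) = S i := by
      intro h i
      rw [Equiv.swap_apply_def]
      split_ifs with h1 h2
      · rw [h1, h]
      · rw [h2, h]
      · rfl
    constructor
    · intro h
      have h0 : S p = S 0 := by simpa using congrFun h 0
      refine ⟨h0, funext fun i => ?_⟩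
      have := congrFun h i.succ
      simp only [Function.comp_apply, Equiv.Perm.decomposeFin_symm_apply_succ] at this
      rw [hsw h0] at this
      exact this
    · rintro ⟨h0, h⟩
      funext i
      refine Fin.cases ?_ (fun i => ?_) i
      · simpa using h0
      · simp only [Function.comp_apply, Equiv.Perm.decomposeFin_symm_apply_succ]
        rw [hsw h0]
        exact congrFun h i
  unfold inv
  simp_rw [key]
  split_ifs with hp
  · subst hp
    rw [← card_univ, ← card_product]
    refine card_bij (fun S _ => (S 0, Fin.tail S)) (by simp) ?_ ?_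
    · intro S _ S' _ h
      simp only [Prod.mk.injEq] at h
      rw [← Fin.cons_self_tail S, ← Fin.cons_self_tail S', h.1, h.2]
    · rintro ⟨u, S⟩ hS
      refine ⟨Fin.cons u S, ?_, by simp⟩
      simpa using hS
  · obtain ⟨p, rfl⟩ := Fin.exists_succ_eq.2 hp
    refine card_bij (fun S _ => Fin.tail S) (fun S hS => by simpa using (mem_filter.1 hS).2.2) ?_ ?_
    · intro S hS S' hS' h
      have h1 := (mem_filter.1 hS).2.1
      have h2 := (mem_filter.1 hS').2.1
      have h3 : S 0 = S' 0 := by rw [← h1, ← h2]; exact congrFun h p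
      rw [← Fin.cons_self_tail S, ← Fin.cons_self_tail S', h3, h]
    · intro S hS
      refine ⟨Fin.cons (S p) S, ?_, by simp⟩
      simpa using hS

lemma sum_inv_succ (U : Type*) [Fintype U] [DecidableEq U] (n : ℕ) :
    ∑ τ : Equiv.Perm (Fin (n + 1)), inv U τ =
      (Fintype.card U + n) * ∑ τ : Equiv.Perm (Fin n), inv U τ := by
  rw [← Equiv.sum_comp Equiv.Perm.decomposeFin.symm, Fintype.sum_prod_type, Fin.sum_univ_succ]
  simp_rw [inv_decomp]
  simp [Fin.succ_ne_zero, ← mul_sum, add_mul]

lemma sum_inv_le (U : Type*) [Fintype U] [DecidableEq U] (n : ℕ) :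
    ∑ τ : Equiv.Perm (Fin n), inv U τ ≤ (Fintype.card U + n) ^ n := by
  induction n with
  | zero => simp [inv]
  | succ n ih =>
    rw [sum_inv_succ, pow_succ, mul_comm]
    exact Nat.mul_le_mul (ih.trans (Nat.pow_le_pow_left (by omega) _)) (by omega)

lemma sum_inv_moved (U : Type*) [Fintype U] [DecidableEq U] (n : ℕ) :
    ∑ τ : Equiv.Perm (Fin (n + 1)), (if τ 0 = 0 then 0 else inv U τ) ≤
      n * (Fintype.card U + n) ^ n := by
  rw [← Equiv.sum_comp Equiv.Perm.decomposeFin.symm, Fintype.sum_prod_type, Fin.sum_univ_succ]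
  simp_rw [inv_decomp]
  simp only [Equiv.Perm.decomposeFin_symm_apply_zero, if_true, sum_const_zero, zero_add,
    Fin.succ_ne_zero, if_false, sum_const, card_univ, Fintype.card_fin, smul_eq_mul]
  exact Nat.mul_le_mul_left _ (sum_inv_le U n)

/-- Invariant functions with a prescribed value `0` at `0`. -/
lemma card_mul_inv_zero (U : Type*) [Fintype U] [DecidableEq U] [AddCommGroup U] {n : ℕ}
    (τ : Equiv.Perm (Fin (n + 1))) :
    Fintype.card U * (univ.filter fun S : Fin (n + 1) → U => S 0 = 0 ∧ S ∘ τ = S).card =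
      inv U τ := by
  unfold inv
  rw [← card_univ, ← card_product]
  refine card_bij (fun p _ => fun i => p.2 i + p.1) ?_ ?_ ?_
  · rintro ⟨u, S⟩ h
    simp only [mem_product, mem_univ, mem_filter, true_and] at h ⊢
    funext i
    have := congrFun h.2 i
    simp only [Function.comp_apply] at this ⊢
    rw [this]
  · rintro ⟨u, S⟩ h ⟨u', S'⟩ h' he
    simp only [mem_product, mem_univ, mem_filter, true_and] at h h'
    have h0 := congrFun he 0
    simp only [h.1, h'.1, zero_add] at h0
    subst h0
    simp only [Prod.mk.injEq, true_and]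
    funext i
    simpa using congrFun he i
  · intro S hS
    refine ⟨(S 0, fun i => S i - S 0), ?_, by funext i; simp⟩
    simp only [mem_product, mem_univ, mem_filter, true_and, sub_self] at hS ⊢
    funext i
    have := congrFun hS i
    simp only [Function.comp_apply] at this ⊢
    rw [this]

end Crest.Agent.H2.KS
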