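import Mathlib

set_option autoImplicit false

namespace H2PD

open Function Finset

section basic
variable {A : Type} {W : Type} [AddCommGroup W] [Module ℝ W]

lemma fin_comp {f : A → ℝ} (hf : HasFiniteSupport f) (T : Equiv.Perm A) :
    HasFiniteSupport (fun a => f (T a)) := by
  have : support (fun a => f (T a)) = T ⁻¹' support f := rfl
  unfold HasFiniteSupport
  rw [this]
  exact Set.Finite.preimage T.injective.injOn hf

omit [Module ℝ W] in
lemma fin_of1 {F : A → W} {g : A → ℝ} (h1 : HasFiniteSupport g)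
    (h : ∀ a, g a = 0 → F a = 0) : HasFiniteSupport F := by
  refine Set.Finite.subset h1 ?_
  intro a ha
  by_contra hc
  exact ha (h a (by simpa using hc))

omit [Module ℝ W] in
lemma fin_of2 {F : A → W} {g g' : A → ℝ} (h1 : HasFiniteSupport g) (h2 : HasFiniteSupport g')
    (h : ∀ a, g a = 0 → g' a = 0 → F a = 0) : HasFiniteSupport F := by
  refine Set.Finite.subset (Set.Finite.union h1 h2) ?_
  intro a ha
  by_contra hc
  simp only [Set.mem_union, mem_support, not_or, not_not] at hc
  exact ha (h a hc.1 hc.2)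

omit [Module ℝ W] in
lemma fin_bool {F : A × Bool → W} (h0 : HasFiniteSupport (fun a => F (a, false)))
    (h1 : HasFiniteSupport (fun a => F (a, true))) : HasFiniteSupport F := by
  refine Set.Finite.subset (Set.Finite.union (Set.Finite.image (fun a => (a, false)) h0)
    (Set.Finite.image (fun a => (a, true)) h1)) ?_
  rintro ⟨a, b⟩ ha
  cases b
  · left; exact ⟨a, ha, rfl⟩
  · right; exact ⟨a, ha, rfl⟩

omit [Module ℝ W] in
lemma finsum_bool {F : A × Bool → W} (h0 : HasFiniteSupport (fun a => F (a, false)))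
    (h1 : HasFiniteSupport (fun a => F (a, true))) :
    ∑ᶠ ab, F ab = ∑ᶠ a, (F (a, false) + F (a, true)) := by
  rw [finsum_curry F (fin_bool h0 h1)]
  congr 1
  ext a
  rw [finsum_eq_sum_of_fintype]
  simp [add_comm]

/-- symmetric averaging preserves means of shift-additive functionals -/
lemma mean_avg {f : A → ℝ} (hf : HasFiniteSupport f) (T : Equiv.Perm A) (φ : A → W) (p : W)
    (hφ : ∀ a, φ (T a) = φ a + p) :
    ∑ᶠ a, ((f (T a) ^ 2 + f (T.symm a) ^ 2) / 2) • φ a = ∑ᶠ a, f a ^ 2 • φ a := by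
  have hφ' : ∀ a, φ (T.symm a) = φ a - p := by
    intro a
    have := hφ (T.symm a)
    rw [Equiv.apply_symm_apply] at this
    rw [this]; abel
  have e1 : ∑ᶠ a, (f (T a) ^ 2 / 2) • φ a = ∑ᶠ a, (f a ^ 2 / 2) • (φ a - p) := by
    rw [← finsum_comp_equiv T.symm]
    simp only [Equiv.apply_symm_apply, hφ']
  have e2 : ∑ᶠ a, (f (T.symm a) ^ 2 / 2) • φ a = ∑ᶠ a, (f a ^ 2 / 2) • (φ a + p) := by
    rw [← finsum_comp_equiv T]
    simp only [Equiv.symm_apply_apply, hφ]
  have : ∀ a, ((f (T a) ^ 2 + f (T.symm a) ^ 2) / 2) • φ a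
      = (f (T a) ^ 2 / 2) • φ a + (f (T.symm a) ^ 2 / 2) • φ a := by
    intro a; rw [← add_smul]; congr 1; ring
  simp_rw [this]
  rw [finsum_add_distrib (fin_of1 (fin_comp hf T) (by intro a h; simp [h]))
    (fin_of1 (fin_comp hf T.symm) (by intro a h; simp [h])), e1, e2,
    ← finsum_add_distrib (fin_of1 hf (by intro a h; simp [h]))
    (fin_of1 hf (by intro a h; simp [h]))]
  congr 1
  ext a
  rw [← smul_add]
  have : φ a - p + (φ a + p) = (2 : ℝ) • φ a := by rw [two_smul]; abel
  rw [this, smul_smul]; congr 1; ring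

lemma maxmin_sq (a b : ℝ) : max a b ^ 2 + min a b ^ 2 = a ^ 2 + b ^ 2 := by
  rcases le_total a b with h | h
  · rw [max_eq_right h, min_eq_left h]; ring
  · rw [max_eq_left h, min_eq_right h]

lemma maxmin_contr (a b c d : ℝ) :
    (max a b - max c d) ^ 2 + (min a b - min c d) ^ 2 ≤ (a - c) ^ 2 + (b - d) ^ 2 := by
  rcases le_total a b with h | h <;> rcases le_total c d with h' | h'
  · rw [max_eq_right h, min_eq_left h, max_eq_right h', min_eq_left h']; linarith
  · rw [max_eq_right h, min_eq_left h, max_eq_left h', min_eq_right h']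
    nlinarith [mul_nonneg (sub_nonneg.2 h) (sub_nonneg.2 h')]
  · rw [max_eq_left h, min_eq_right h, max_eq_right h', min_eq_left h']
    nlinarith [mul_nonneg (sub_nonneg.2 h) (sub_nonneg.2 h')]
  · rw [max_eq_left h, min_eq_right h, max_eq_left h', min_eq_right h']

lemma min_sq_ge (a b : ℝ) :
    (a ^ 2 + b ^ 2) * (11 / 24) - 3 * (a - b) ^ 2 ≤ min a b ^ 2 := by
  rcases le_total a b with h | h
  · rw [min_eq_left h]; nlinarith [sq_nonneg (a - b), sq_nonneg (12 * (b - a) - (a + b))]
  · rw [min_eq_right h]; nlinarith [sq_nonneg (a - b), sq_nonneg (12 * (a - b) - (a + b))]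

/-- the lifted convex set -/
def liftK (K : Set W) (e : W) : Set (W × ℝ) :=
  {x | ∃ a : ℝ, |a| ≤ 3 * (1 - x.2) + 1 / 2 ∧ x.1 + (a + 3 * x.2) • e ∈ K ∧
    x.1 + (a - 3 * x.2) • e ∈ K}

lemma convex_liftK {K : Set W} (hK : Convex ℝ K) (e : W) : Convex ℝ (liftK K e) := by
  rintro ⟨x, β⟩ ⟨a, ha, h1, h2⟩ ⟨x', β'⟩ ⟨a', ha', h1', h2'⟩ s t hs ht hst
  refine ⟨s * a + t * a', ?_, ?_, ?_⟩
  · simp only [Prod.smul_mk, Prod.mk_add_mk, smul_eq_mul] at *
    calc |s * a + t * a'| ≤ |s * a| + |t * a'| := abs_add_le _ _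
      _ = s * |a| + t * |a'| := by rw [abs_mul, abs_mul, abs_of_nonneg hs, abs_of_nonneg ht]
      _ ≤ s * (3 * (1 - β) + 1 / 2) + t * (3 * (1 - β') + 1 / 2) := by gcongr
      _ = _ := by have : t = 1 - s := by linarith
                  subst this; ring
  · have := hK h1 h1' hs ht hst
    convert this using 1
    simp only [Prod.smul_mk, Prod.mk_add_mk, smul_eq_mul, smul_add, smul_smul]
    module
  · have := hK h2 h2' hs ht hst
    convert this using 1
    simp only [Prod.smul_mk, Prod.mk_add_mk, smul_eq_mul, smul_add, smul_smul]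
    module

lemma liftK_pick {K : Set W} (hK : Convex ℝ K) (e : W) (x : W) (β : ℝ) (hβ : 5 / 12 ≤ β)
    (h : (x, β) ∈ liftK K e) : ∃ ε : ℝ, (ε = 1 ∨ ε = -1) ∧ x + ε • e ∈ K := by
  obtain ⟨a, ha, h1, h2⟩ := h
  simp only at ha h1 h2
  have key : ∀ ε : ℝ, a - 3 * β ≤ ε → ε ≤ a + 3 * β → x + ε • e ∈ K := by
    intro ε hl hr
    have hb : 0 < 6 * β := by linarith
    have := hK h1 h2 (show 0 ≤ (ε - (a - 3 * β)) / (6 * β) from div_nonneg (by linarith) hb.le)
      (show 0 ≤ ((a + 3 * β) - ε) / (6 * β) from div_nonneg (by linarith) hb.le)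
      (by field_simp; ring)
    convert this using 1
    have hs : (ε - (a - 3 * β)) / (6 * β) + ((a + 3 * β) - ε) / (6 * β) = 1 := by
      field_simp; ring
    have hs2 : (ε - (a - 3 * β)) / (6 * β) * (a + 3 * β)
        + ((a + 3 * β) - ε) / (6 * β) * (a - 3 * β) = ε := by
      field_simp; ring
    rw [smul_add, smul_add, smul_smul, smul_smul]
    calc x + ε • e = ((ε - (a - 3 * β)) / (6 * β) + ((a + 3 * β) - ε) / (6 * β)) • x
        + ((ε - (a - 3 * β)) / (6 * β) * (a + 3 * β)
        + ((a + 3 * β) - ε) / (6 * β) * (a - 3 * β)) • e := by rw [hs, hs2, one_smul]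
      _ = _ := by rw [add_smul, add_smul]; abel
  rcases le_total 0 a with h0 | h0
  · rw [abs_of_nonneg h0] at ha
    exact ⟨1, Or.inl rfl, key 1 (by linarith) (by linarith)⟩
  · rw [abs_of_nonpos h0] at ha
    exact ⟨-1, Or.inr rfl, key (-1) (by linarith) (by linarith)⟩

/-- the lifted amplitude -/
noncomputable def lf (f : A → ℝ) (T : Equiv.Perm A) (x : A × Bool) : ℝ :=
  (if x.2 then min (f (T x.1)) (f (T.symm x.1)) else max (f (T x.1)) (f (T.symm x.1))) / √2

lemma lf_sq (f : A → ℝ) (T : Equiv.Perm A) (a : A) :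
    lf f T (a, false) ^ 2 + lf f T (a, true) ^ 2 = (f (T a) ^ 2 + f (T.symm a) ^ 2) / 2 := by
  simp only [lf, Bool.false_eq_true, if_false, if_true, div_pow]
  rw [Real.sq_sqrt (by norm_num), ← add_div, maxmin_sq]

lemma lf_zero {f : A → ℝ} {T : Equiv.Perm A} {a : A} (b : Bool) (h1 : f (T a) = 0)
    (h2 : f (T.symm a) = 0) : lf f T (a, b) = 0 := by
  simp [lf, h1, h2]

lemma lf_fin {f : A → ℝ} (hf : HasFiniteSupport f) (T : Equiv.Perm A) :
    HasFiniteSupport (lf f T) :=
  fin_bool (fin_of2 (fin_comp hf T) (fin_comp hf T.symm) (fun _ h1 h2 => lf_zero _ h1 h2))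
    (fin_of2 (fin_comp hf T) (fin_comp hf T.symm) (fun _ h1 h2 => lf_zero _ h1 h2))

lemma lf_mean {f : A → ℝ} (hf : HasFiniteSupport f) (T : Equiv.Perm A) (φ : A → W) (p : W)
    (hφ : ∀ a, φ (T a) = φ a + p) :
    ∑ᶠ x : A × Bool, lf f T x ^ 2 • φ x.1 = ∑ᶠ a, f a ^ 2 • φ a := by
  rw [finsum_bool, ← mean_avg hf T φ p hφ]
  · congr 1; ext a; rw [← lf_sq, add_smul]
  · exact fin_of2 (fin_comp hf T) (fin_comp hf T.symm)
      (fun _ h1 h2 => by simp [lf_zero _ h1 h2])
  · exact fin_of2 (fin_comp hf T) (fin_comp hf T.symm)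
      (fun _ h1 h2 => by simp [lf_zero _ h1 h2])

lemma lf_mass {f : A → ℝ} (hf : HasFiniteSupport f) (h1 : ∑ᶠ a, f a ^ 2 = 1) (T : Equiv.Perm A)
    (hT : ∑ᶠ a, (f (T (T a)) - f a) ^ 2 ≤ 1 / 36) :
    5 / 12 ≤ ∑ᶠ x : A × Bool, lf f T x ^ 2 * (if x.2 then 1 else 0) := by
  have hA := fin_comp hf T
  have hB := fin_comp hf T.symm
  rw [finsum_bool (fin_of2 hA hB (fun _ h1 h2 => by simp [lf_zero _ h1 h2]))
    (fin_of2 hA hB (fun _ h1 h2 => by simp [lf_zero _ h1 h2]))]
  have e1 : ∑ᶠ a, f (T a) ^ 2 = 1 := by rw [← h1]; exact finsum_comp_equiv T (f := fun a => f a ^ 2)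
  have e2 : ∑ᶠ a, f (T.symm a) ^ 2 = 1 := by
    rw [← h1]; exact finsum_comp_equiv T.symm (f := fun a => f a ^ 2)
  have e3 : ∑ᶠ a, (f (T a) - f (T.symm a)) ^ 2 ≤ 1 / 36 := by
    rw [← finsum_comp_equiv T]; simpa using hT
  have key : ∑ᶠ a, ((11 / 48) * f (T a) ^ 2 + (11 / 48) * f (T.symm a) ^ 2
      + (-3 / 2) * (f (T a) - f (T.symm a)) ^ 2) ≤
      ∑ᶠ a, (lf f T (a, false) ^ 2 * (if (a, false).2 = true then 1 else 0)
        + lf f T (a, true) ^ 2 * (if (a, true).2 = true then 1 else 0)) := by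
    apply finsum_le_finsum'
    · exact fin_of2 hA hB (fun _ h1 h2 => by simp [h1, h2])
    · exact fin_of2 hA hB (fun _ h1 h2 => by simp [lf_zero _ h1 h2])
    · intro a
      have := min_sq_ge (f (T a)) (f (T.symm a))
      simp only [lf, Bool.false_eq_true, if_false, if_true, div_pow]
      rw [Real.sq_sqrt (by norm_num)]
      linarith
  refine le_trans ?_ key
  rw [finsum_add_distrib (fin_of2 hA hB (fun _ h1 h2 => by simp [h1, h2]))
    (fin_of2 hA hB (fun _ h1 h2 => by simp [h1, h2])),
    finsum_add_distrib (fin_of1 hA (fun _ h1 => by simp [h1]))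
    (fin_of1 hB (fun _ h1 => by simp [h1])), ← mul_finsum, ← mul_finsum, ← mul_finsum, e1, e2]
  linarith

lemma lf_shift {f : A → ℝ} (hf : HasFiniteSupport f) (T S : Equiv.Perm A)
    (hc : ∀ a, T (S a) = S (T a)) (δ : ℝ)
    (hS : ∑ᶠ a, (f (S a) - f a) ^ 2 ≤ δ) :
    ∑ᶠ x : A × Bool, (lf f T (S x.1, x.2) - lf f T x) ^ 2 ≤ δ := by
  have hc' : ∀ a, T.symm (S a) = S (T.symm a) := by
    intro a
    apply T.injective
    rw [Equiv.apply_symm_apply, hc, Equiv.apply_symm_apply]
  have hD : HasFiniteSupport (fun a => f (S a) - f a) :=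
    fin_of2 (fin_comp hf S) hf (fun _ h1 h2 => by simp [h1, h2])
  have hl := lf_fin hf T
  have hl0 : ∀ b, HasFiniteSupport (fun a => lf f T (a, b)) := fun b =>
    fin_of2 (fin_comp hf T) (fin_comp hf T.symm) (fun _ h1 h2 => lf_zero _ h1 h2)
  rw [finsum_bool (fin_of2 (fin_comp (hl0 false) S) (hl0 false) (fun _ h1 h2 => by simp [h1, h2]))
    (fin_of2 (fin_comp (hl0 true) S) (hl0 true) (fun _ h1 h2 => by simp [h1, h2]))]
  have e1 : ∑ᶠ a, (f (S (T a)) - f (T a)) ^ 2 = ∑ᶠ a, (f (S a) - f a) ^ 2 :=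
    finsum_comp_equiv T (f := fun a => (f (S a) - f a) ^ 2)
  have e2 : ∑ᶠ a, (f (S (T.symm a)) - f (T.symm a)) ^ 2 = ∑ᶠ a, (f (S a) - f a) ^ 2 :=
    finsum_comp_equiv T.symm (f := fun a => (f (S a) - f a) ^ 2)
  have hA := fin_comp hD T
  have hB := fin_comp hD T.symm
  have key : ∑ᶠ a, ((lf f T (S a, false) - lf f T (a, false)) ^ 2
      + (lf f T (S a, true) - lf f T (a, true)) ^ 2) ≤
      ∑ᶠ a, ((1 / 2) * (f (S (T a)) - f (T a)) ^ 2
        + (1 / 2) * (f (S (T.symm a)) - f (T.symm a)) ^ 2) := by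
    apply finsum_le_finsum'
    · exact fin_of2 (fin_of2 (fin_comp (hl0 false) S) (hl0 false)
        (F := fun a => (lf f T (S a, false) - lf f T (a, false)) ^ 2)
        (fun _ h1 h2 => by simp [h1, h2]))
        (fin_of2 (fin_comp (hl0 true) S) (hl0 true)
        (F := fun a => (lf f T (S a, true) - lf f T (a, true)) ^ 2)
        (fun _ h1 h2 => by simp [h1, h2])) (fun _ h1 h2 => by rw [h1, h2, add_zero])
    · exact fin_of2 hA hB (fun _ h1 h2 => by simp [h1, h2])
    · intro a
      have := maxmin_contr (f (S (T a))) (f (S (T.symm a))) (f (T a)) (f (T.symm a))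
      simp only [lf, Bool.false_eq_true, if_false, if_true, hc, hc']
      rw [← sub_div, ← sub_div, div_pow, div_pow, Real.sq_sqrt (by norm_num)]
      linarith
  refine le_trans key ?_
  rw [finsum_add_distrib (fin_of1 hA (fun _ h1 => by simp [h1]))
    (fin_of1 hB (fun _ h1 => by simp [h1])), ← mul_finsum, ← mul_finsum, e1, e2]
  linarith

end basic

/-- Karingula–Lovett type lifting theorem with spare room used as hidden controls. -/
theorem KL (m : ℕ) : ∀ (A : Type) (W : Type) [AddCommGroup W] [Module ℝ W] (K : Set W)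
    (_ : Convex ℝ K) (f : A → ℝ) (_ : HasFiniteSupport f) (_ : ∀ a, 0 ≤ f a)
    (_ : ∑ᶠ a, f a ^ 2 = 1) (T : ℕ → Equiv.Perm A) (_ : ∀ i j a, T i (T j a) = T j (T i a))
    (P : A → W) (X : ℕ → A → ℝ) (e p : ℕ → W) (s : ℕ → ℕ → ℝ)
    (_ : ∀ i < m, ∀ a, P (T i a) = P a + p i)
    (_ : ∀ i < m, ∀ j < m, ∀ a, X j (T i a) = X j a + s i j)
    (_ : ∀ i < m, ∀ j ≤ i, s i j = 0)
    (_ : ∀ i < m, p i + ∑ j ∈ range m, s i j • e j = (3 : ℝ) • e i)
    (_ : ∀ a, f a ≠ 0 → P a ∈ K ∧ ∀ j < m, |X j a| ≤ 1 / 2)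
    (_ : ∀ j < m, ∑ᶠ a, f a ^ 2 * X j a = 0)
    (_ : ∀ i < m, ∑ᶠ a, (f (T i (T i a)) - f a) ^ 2 ≤ 1 / 36),
    ∃ ε : ℕ → ℝ, (∀ i, ε i = 1 ∨ ε i = -1) ∧
      ∑ᶠ a, f a ^ 2 • P a + ∑ i ∈ range m, ε i • e i ∈ K := by
  induction m with
  | zero =>
    intro A W _ _ K hK f hf h0 h1 T hT P X e p s hP hX hs hp hsupp hmean hsh
    refine ⟨fun _ => 1, fun _ => Or.inl rfl, ?_⟩
    simp only [range_zero, sum_empty, add_zero]
    exact hK.finsum_mem (fun a => sq_nonneg _) h1
      (fun a ha => (hsupp a (by intro h; exact ha (by simp [h]))).1)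
  | succ m ih =>
    intro A W _ _ K hK f hf h0 h1 T hT P X e p s hP hX hs hp hsupp hmean hsh
    have hm : m < m + 1 := Nat.lt_succ_self m
    have hpm : p m = (3 : ℝ) • e m := by
      have := hp m hm
      rw [Finset.sum_eq_zero, add_zero] at this
      · exact this
      · intro j hj
        rw [hs m hm j (Nat.lt_succ_iff.1 (mem_range.1 hj)), zero_smul]
    have hXm : ∀ j < m + 1, ∀ a, X j (T m a) = X j a := by
      intro j hj a
      rw [hX m hm j hj a, hs m hm j (Nat.lt_succ_iff.1 hj), add_zero]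
    have hXm' : ∀ j < m + 1, ∀ a, X j ((T m).symm a) = X j a := by
      intro j hj a
      rw [← hXm j hj ((T m).symm a), Equiv.apply_symm_apply]
    have hPm' : ∀ a, P ((T m).symm a) = P a - (3 : ℝ) • e m := by
      intro a
      have := hP m hm ((T m).symm a)
      rw [Equiv.apply_symm_apply, hpm] at this
      rw [this]; abel
    let T' : ℕ → Equiv.Perm (A × Bool) := fun i => Equiv.prodCongr (T i) (Equiv.refl Bool)
    let P' : A × Bool → W × ℝ := fun x => (P x.1 + X m x.1 • e m, if x.2 then 1 else 0)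
    have hnorm : ∑ᶠ x, lf f (T m) x ^ 2 = 1 := by
      have := lf_mean hf (T m) (fun _ => (1 : ℝ)) 0 (by simp)
      simpa [h1] using this
    obtain ⟨ε, hε, hmem⟩ := ih (A × Bool) (W × ℝ) (liftK K (e m)) (convex_liftK hK _)
      (lf f (T m)) (lf_fin hf _)
      (by
        rintro ⟨a, b⟩
        unfold lf
        apply div_nonneg _ (Real.sqrt_nonneg _)
        split_ifs
        · exact le_min (h0 _) (h0 _)
        · exact le_max_of_le_left (h0 _))
      hnorm T' (by rintro i j ⟨a, b⟩; simp [T', hT i j a])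
      P' (fun j x => X j x.1) (fun j => (e j, 0)) (fun i => (p i + s i m • e m, 0)) s
      (by
        rintro i hi ⟨a, b⟩
        simp only [P', T', Equiv.prodCongr_apply, Prod.map, Equiv.refl_apply, Prod.mk_add_mk,
          add_zero, hP i (by omega) a, hX i (by omega) m hm a, add_smul]
        congr 1; abel)
      (by
        rintro i hi j hj ⟨a, b⟩
        simp only [T', Equiv.prodCongr_apply, Prod.map]
        exact hX i (by omega) j (by omega) a)
      (fun i hi j hj => hs i (by omega) j hj)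
      (by
        intro i hi
        have := hp i (by omega)
        rw [sum_range_succ] at this
        ext
        · simp only [Prod.fst_add, Prod.fst_sum, Prod.smul_mk]
          rw [← this]; abel
        · simp [Prod.snd_sum])
      (by
        rintro ⟨a, b⟩ hne
        have hXa : ∀ j < m + 1, |X j a| ≤ 1 / 2 := by
          intro j hj
          by_cases h1 : f (T m a) = 0
          · by_cases h2 : f ((T m).symm a) = 0
            · exact absurd (lf_zero b h1 h2) hne
            · rw [← hXm' j hj a]; exact (hsupp _ h2).2 j hj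
          · rw [← hXm j hj a]; exact (hsupp _ h1).2 j hj
        refine ⟨?_, fun j hj => hXa j (by omega)⟩
        have hx := hXa m hm
        cases b
        · by_cases h1 : f (T m a) = 0
          · have h2 : f ((T m).symm a) ≠ 0 := fun h2 => hne (lf_zero _ h1 h2)
            have hK2 := (hsupp _ h2).1
            rw [hPm'] at hK2
            refine ⟨-3 - X m a, ?_, ?_, ?_⟩
            · simp only [P', Bool.false_eq_true, if_false]
              rw [abs_le] at hx ⊢; constructor <;> linarith [hx.1, hx.2]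
            · convert hK2 using 1; simp only [P', Bool.false_eq_true, if_false]; module
            · convert hK2 using 1; simp only [P', Bool.false_eq_true, if_false]; module
          · have hK1 := (hsupp _ h1).1
            rw [hP m hm, hpm] at hK1
            refine ⟨3 - X m a, ?_, ?_, ?_⟩
            · simp only [P', Bool.false_eq_true, if_false]
              rw [abs_le] at hx ⊢; constructor <;> linarith [hx.1, hx.2]
            · convert hK1 using 1; simp only [P', Bool.false_eq_true, if_false]; module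
            · convert hK1 using 1; simp only [P', Bool.false_eq_true, if_false]; module
        · have hmin : min (f (T m a)) (f ((T m).symm a)) ≠ 0 := by
            intro h; apply hne; simp [lf, h]
          have h1 : f (T m a) ≠ 0 := by
            intro h; apply hmin; rw [h]; exact min_eq_left (h0 _)
          have h2 : f ((T m).symm a) ≠ 0 := by
            intro h; apply hmin; rw [h]; exact min_eq_right (h0 _)
          have hK1 := (hsupp _ h1).1
          rw [hP m hm, hpm] at hK1
          have hK2 := (hsupp _ h2).1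
          rw [hPm'] at hK2
          refine ⟨- X m a, ?_, ?_, ?_⟩
          · simp only [P', if_true]
            rw [abs_neg]; linarith
          · convert hK1 using 1; simp only [P', if_true]; module
          · convert hK2 using 1; simp only [P', if_true]; module)
      (by
        intro j hj
        have := lf_mean hf (T m) (X j) 0 (by intro a; rw [hXm j (by omega), add_zero])
        simp only [smul_eq_mul] at this
        rw [this, hmean j (by omega)])
      (by
        intro i hi
        have := lf_shift hf (T m) ((T i).trans (T i))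
          (by intro a; simp only [Equiv.trans_apply]; rw [hT m i, hT m i]) (1 / 36)
          (by simpa using hsh i (by omega))
        exact this)
    -- decode
    set β : ℝ := ∑ᶠ x : A × Bool, lf f (T m) x ^ 2 * (if x.2 then 1 else 0) with hβ
    have hβ' : 5 / 12 ≤ β := lf_mass hf h1 (T m) (hsh m hm)
    have hlf := lf_fin hf (T m)
    have hmeanP : ∑ᶠ x, lf f (T m) x ^ 2 • P' x = (∑ᶠ a, f a ^ 2 • P a, β) := by
      have hfs : HasFiniteSupport (fun x => lf f (T m) x ^ 2 • P' x) :=
        fin_of1 hlf (fun _ h => by simp [h])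
      ext
      · have := map_finsum (AddMonoidHom.fst W ℝ) hfs
        simp only [AddMonoidHom.coe_fst] at this
        rw [this]
        simp only [P', Prod.smul_mk]
        rw [lf_mean hf (T m) (fun a => P a + X m a • e m) (p m)
          (by intro a; rw [hP m hm, hXm m hm]; abel)]
        simp only [smul_add, smul_smul]
        rw [finsum_add_distrib (fin_of1 hf (fun _ h => by simp [h]))
          (fin_of1 hf (fun _ h => by simp [h])),
          ← finsum_smul' (fin_of1 hf (fun _ h => by simp [h])), hmean m hm, zero_smul, add_zero]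
      · have := map_finsum (AddMonoidHom.snd W ℝ) hfs
        simp only [AddMonoidHom.coe_snd] at this
        rw [this]
        simp only [P', Prod.smul_mk, smul_eq_mul, hβ]
    rw [hmeanP] at hmem
    have hsum : ((∑ᶠ a, f a ^ 2 • P a, β) : W × ℝ) + ∑ i ∈ range m, ε i • ((e i, 0) : W × ℝ)
        = (∑ᶠ a, f a ^ 2 • P a + ∑ i ∈ range m, ε i • e i, β) := by
      ext
      · simp [Prod.fst_sum]
      · simp [Prod.snd_sum]
    rw [hsum] at hmem
    obtain ⟨ε0, hε0, hfin⟩ := liftK_pick hK (e m) _ β hβ' hmem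
    refine ⟨fun i => if i = m then ε0 else ε i, ?_, ?_⟩
    · intro i
      by_cases h : i = m
      · simp [h, hε0]
      · simp [h, hε i]
    · rw [sum_range_succ]
      simp only [if_true]
      rw [← add_assoc]
      convert hfin using 3
      apply Finset.sum_congr rfl
      intro i hi
      rw [if_neg (by have := mem_range.1 hi; omega)]

end H2PD
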