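import Mathlib

set_option autoImplicit false

namespace H2PD

open Finset

section good
variable {C I κ : Type} [DecidableEq C]

/-- an observation kernel certifying the bounds `Q k ≤ r k` with average budget `ρ` -/
def Good (B : Finset C) (sh : I → C → C) (Q : κ → C → ℝ) (δ : ℝ) (ρ : κ → ℝ) : Prop :=
  ∃ (Ω : Type) (_ : Fintype Ω) (a : C → Ω → ℝ) (r : Ω → κ → ℝ),
    (∀ c ω, 0 ≤ a c ω) ∧ (∀ c ∈ B, ∑ ω, a c ω ^ 2 = 1) ∧
    (∀ i, ∑ c ∈ B.filter (fun c => sh i c ∈ B), (1 - ∑ ω, a (sh i c) ω * a c ω) ≤ δ * B.card) ∧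
    (∀ c ∈ B, ∀ ω, a c ω ≠ 0 → ∀ k, Q k c ≤ r ω k) ∧
    (∀ k, ∑ c ∈ B, ∑ ω, a c ω ^ 2 * r ω k ≤ ρ k * B.card)

lemma convex_good (B : Finset C) (sh : I → C → C) (Q : κ → C → ℝ) (δ : ℝ) :
    Convex ℝ {ρ | Good B sh Q δ ρ} := by
  rintro ρ₁ ⟨Ω₁, _, a₁, r₁, h10, h11, h12, h13, h14⟩ ρ₂ ⟨Ω₂, _, a₂, r₂, h20, h21, h22, h23, h24⟩
    s t hs ht hst
  have hss : √s ^ 2 = s := Real.sq_sqrt hs
  have htt : √t ^ 2 = t := Real.sq_sqrt ht
  refine ⟨Ω₁ ⊕ Ω₂, inferInstance,
    fun c ω => Sum.elim (fun ω => √s * a₁ c ω) (fun ω => √t * a₂ c ω) ω,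
    fun ω => Sum.elim r₁ r₂ ω, ?_, ?_, ?_, ?_, ?_⟩
  · rintro c (ω | ω)
    · exact mul_nonneg (Real.sqrt_nonneg _) (h10 _ _)
    · exact mul_nonneg (Real.sqrt_nonneg _) (h20 _ _)
  · intro c hc
    simp only [Fintype.sum_sum_type, Sum.elim_inl, Sum.elim_inr, mul_pow, hss, htt,
      ← Finset.mul_sum, h11 c hc, h21 c hc]
    linarith
  · intro i
    have e : ∀ c, (1 - ∑ ω : Ω₁ ⊕ Ω₂,
        Sum.elim (fun ω => √s * a₁ (sh i c) ω) (fun ω => √t * a₂ (sh i c) ω) ω *
        Sum.elim (fun ω => √s * a₁ c ω) (fun ω => √t * a₂ c ω) ω)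
        = s * (1 - ∑ ω, a₁ (sh i c) ω * a₁ c ω) + t * (1 - ∑ ω, a₂ (sh i c) ω * a₂ c ω) := by
      intro c
      simp only [Fintype.sum_sum_type, Sum.elim_inl, Sum.elim_inr]
      have e1 : ∑ ω, √s * a₁ (sh i c) ω * (√s * a₁ c ω) = s * ∑ ω, a₁ (sh i c) ω * a₁ c ω := by
        rw [Finset.mul_sum]; apply Finset.sum_congr rfl; intro ω _
        calc _ = √s ^ 2 * (a₁ (sh i c) ω * a₁ c ω) := by ring
          _ = _ := by rw [hss]
      have e2 : ∑ ω, √t * a₂ (sh i c) ω * (√t * a₂ c ω) = t * ∑ ω, a₂ (sh i c) ω * a₂ c ω := by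
        rw [Finset.mul_sum]; apply Finset.sum_congr rfl; intro ω _
        calc _ = √t ^ 2 * (a₂ (sh i c) ω * a₂ c ω) := by ring
          _ = _ := by rw [htt]
      rw [e1, e2]
      have : t = 1 - s := by linarith
      subst this; ring
    simp only [e, Finset.sum_add_distrib, ← Finset.mul_sum]
    calc _ ≤ s * (δ * B.card) + t * (δ * B.card) := by
          gcongr
          · exact h12 i
          · exact h22 i
      _ = _ := by rw [← add_mul, hst, one_mul]
  · rintro c hc (ω | ω) hne k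
    · exact h13 c hc ω (right_ne_zero_of_mul hne) k
    · exact h23 c hc ω (right_ne_zero_of_mul hne) k
  · intro k
    simp only [Fintype.sum_sum_type, Sum.elim_inl, Sum.elim_inr, mul_pow, hss, htt, mul_assoc,
      ← Finset.mul_sum, Finset.sum_add_distrib, Pi.add_apply, Pi.smul_apply, smul_eq_mul]
    calc _ ≤ s * (ρ₁ k * B.card) + t * (ρ₂ k * B.card) := by
          gcongr
          · exact h14 k
          · exact h24 k
      _ = _ := by ring

lemma Good.mono {B : Finset C} {sh : I → C → C} {Q : κ → C → ℝ} {δ : ℝ} {ρ ρ' : κ → ℝ}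
    (h : Good B sh Q δ ρ) (hρ : ∀ k, ρ k ≤ ρ' k) : Good B sh Q δ ρ' := by
  obtain ⟨Ω, _, a, r, h0, h1, h2, h3, h4⟩ := h
  exact ⟨Ω, inferInstance, a, r, h0, h1, h2, h3, fun k => (h4 k).trans
    (mul_le_mul_of_nonneg_right (hρ k) (Nat.cast_nonneg _))⟩

end good

/-- minimax by separation -/
lemma sep_box {κ : Type} [Fintype κ] [Nonempty κ] (G : Set (κ → ℝ)) (hG : Convex ℝ G) (M : ℝ)
    (h : ∀ b : κ → ℝ, (∀ k, 0 ≤ b k) → ∑ k, b k = 1 → ∃ ρ ∈ G, ∑ k, b k * ρ k ≤ M) :
    ∃ ρ ∈ G, ∀ k, ρ k ≤ M + 1 := by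
  classical
  by_contra hcon
  push Not at hcon
  let O : Set (κ → ℝ) := {x | ∀ k, x k < M + 1}
  have hO : IsOpen O := by
    have : O = ⋂ k, {x : κ → ℝ | x k < M + 1} := by ext x; simp [O]
    rw [this]
    exact isOpen_iInter_of_finite fun k => isOpen_lt (continuous_apply k) continuous_const
  have hOc : Convex ℝ O := by
    intro x hx y hy s t hs ht hst k
    simp only [Pi.add_apply, Pi.smul_apply, smul_eq_mul]
    have h1 := hx k
    have h2 := hy k
    rcases hs.eq_or_lt with rfl | hs'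
    · have : t = 1 := by linarith
      subst this; linarith
    · have e1 := mul_le_mul_of_nonneg_left h2.le ht
      have e2 := mul_lt_mul_of_pos_left h1 hs'
      have e3 : s * (M + 1) + t * (M + 1) = M + 1 := by rw [← add_mul, hst, one_mul]
      linarith
  have hd : Disjoint O G := by
    rw [Set.disjoint_left]
    intro x hx hxG
    obtain ⟨k, hk⟩ := hcon x hxG
    exact absurd (hx k) (not_lt.2 hk.le)
  obtain ⟨f, u, hf1, hf2⟩ := geometric_hahn_banach_open hOc hO hG hd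
  set b : κ → ℝ := fun k => f (Pi.single k 1) with hb
  have hfx : ∀ x : κ → ℝ, f x = ∑ k, b k * x k := by
    intro x
    conv_lhs => rw [pi_eq_sum_univ' x]
    rw [map_sum]
    apply Finset.sum_congr rfl
    intro k _
    rw [map_smul, smul_eq_mul, mul_comm]
  have hb0 : ∀ k, 0 ≤ b k := by
    intro k
    by_contra hneg
    push Not at hneg
    -- go to -∞ in coordinate k
    set S := ∑ j, b j * M
    let τ : ℝ := (|u - S| + 1) / (-b k)
    have hτ : 0 < τ := div_pos (by positivity) (by linarith)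
    have hx : (fun j => M - (if j = k then τ else 0)) ∈ O := by
      intro j; dsimp only; split_ifs <;> linarith
    have := hf1 _ hx
    rw [hfx] at this
    simp only [mul_sub, Finset.sum_sub_distrib, mul_ite, mul_zero, Finset.sum_ite_eq',
      Finset.mem_univ, if_true] at this
    have h2 : b k * τ = -(|u - S| + 1) := by
      simp only [τ]; field_simp [hneg.ne]
    rw [h2] at this
    have := le_abs_self (u - S)
    linarith
  set σ := ∑ k, b k with hσ
  have hσ0 : 0 ≤ σ := Finset.sum_nonneg fun k _ => hb0 k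
  have hhalf : (fun _ : κ => M + 1 / 2) ∈ O := by intro j; dsimp only; linarith
  have h1 := hf1 _ hhalf
  rw [hfx, ← Finset.sum_mul, ← hσ] at h1
  rcases hσ0.eq_or_lt with hz | hpos
  · obtain ⟨ρ, hρ, -⟩ := h (fun _ => 1 / (Fintype.card κ : ℝ)) (fun _ => by positivity)
      (by simp)
    have h2 := hf2 ρ hρ
    have hb' : ∀ k, b k = 0 := by
      intro k
      exact (Finset.sum_eq_zero_iff_of_nonneg (fun k _ => hb0 k)).1 hz.symm k (mem_univ _)
    rw [hfx] at h2
    simp only [hb', zero_mul, Finset.sum_const_zero] at h2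
    rw [← hz] at h1
    linarith
  · obtain ⟨ρ, hρ, hle⟩ := h (fun k => b k / σ) (fun k => div_nonneg (hb0 k) hσ0)
      (by rw [← Finset.sum_div, ← hσ, div_self hpos.ne'])
    have h2 := hf2 ρ hρ
    rw [hfx] at h2
    have h3 : ∑ k, b k * ρ k = σ * ∑ k, b k / σ * ρ k := by
      rw [Finset.mul_sum]; apply Finset.sum_congr rfl; intro k _; field_simp
    have h4 : σ * ∑ k, b k / σ * ρ k ≤ σ * M := mul_le_mul_of_nonneg_left hle hσ0
    nlinarith

/-! ### the cosine partition of unity -/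

noncomputable def chi (s : ℝ) : ℝ := Real.cos (Real.pi / 2 * max (-1) (min s 1))

lemma chi_nonneg (s : ℝ) : 0 ≤ chi s := by
  unfold chi
  apply Real.cos_nonneg_of_mem_Icc
  have h1 : -1 ≤ max (-1 : ℝ) (min s 1) := le_max_left _ _
  have h2 : max (-1 : ℝ) (min s 1) ≤ 1 := max_le (by norm_num) (min_le_right _ _)
  constructor <;> nlinarith [Real.pi_pos]

lemma chi_eq_zero {s : ℝ} (h : 1 ≤ |s|) : chi s = 0 := by
  unfold chi
  rcases le_abs'.1 h with h | h
  · rw [max_eq_left (le_trans (min_le_left _ _) h)]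
    simp
  · rw [min_eq_right h, max_eq_right (by norm_num)]
    simp

lemma chi_lip (s t : ℝ) : |chi s - chi t| ≤ Real.pi / 2 * |s - t| := by
  unfold chi
  refine (Real.abs_cos_sub_cos_le _ _).trans ?_
  rw [← mul_sub, abs_mul, abs_of_pos (by positivity : 0 < Real.pi / 2)]
  apply mul_le_mul_of_nonneg_left _ (by positivity)
  refine (abs_max_sub_max_le_max (-1 : ℝ) (min s 1) (-1) (min t 1)).trans ?_
  simp only [sub_self, abs_zero]
  refine max_le (abs_nonneg _) ?_
  refine (abs_min_sub_min_le_max s 1 t 1).trans ?_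
  simp

lemma chi_sum {t : ℝ} (h0 : 0 ≤ t) {L : ℕ} (hL : t + 2 ≤ L) :
    ∑ k : Fin L, chi ((k : ℕ) - t) ^ 2 = 1 := by
  rw [Fin.sum_univ_eq_sum_range (fun k : ℕ => chi ((k : ℝ) - t) ^ 2) L]
  set m := ⌊t⌋₊ with hm
  have hm1 : (m : ℝ) ≤ t := Nat.floor_le h0
  have hm2 : t < m + 1 := Nat.lt_floor_add_one t
  have hmL : m + 1 < L := by
    have : (m : ℝ) + 1 < L := by linarith
    exact_mod_cast this
  have hsub : ({m, m + 1} : Finset ℕ) ⊆ range L := by
    intro k hk
    simp only [mem_insert, mem_singleton] at hk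
    rcases hk with rfl | rfl <;> simp <;> omega
  rw [← Finset.sum_subset hsub, Finset.sum_pair (by omega)]
  · unfold chi
    push_cast
    rw [min_eq_left (by linarith), max_eq_right (by linarith), min_eq_left (by linarith),
      max_eq_right (by linarith)]
    have : Real.pi / 2 * (m + 1 - t) = Real.pi / 2 - (-(Real.pi / 2 * (m - t))) := by ring
    rw [this, Real.cos_pi_div_two_sub, Real.sin_neg, neg_sq]
    exact Real.cos_sq_add_sin_sq _
  · intro k _ hk
    simp only [mem_insert, mem_singleton, not_or] at hk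
    rw [chi_eq_zero, zero_pow (by norm_num)]
    rcases lt_or_gt_of_ne hk.1 with h | h
    · have : (k : ℝ) + 1 ≤ m := by exact_mod_cast h
      rw [abs_of_nonpos (by linarith)]; linarith
    · have : (m : ℝ) + 2 ≤ k := by
        have : m + 2 ≤ k := by omega
        exact_mod_cast this
      rw [abs_of_nonneg (by linarith)]; linarith

lemma card_near (t : ℝ) (L : ℕ) :
    ∑ k : Fin L, (if |((k : ℕ) : ℝ) - t| < 1 then (1 : ℝ) else 0) ≤ 2 := by
  rw [Fin.sum_univ_eq_sum_range (fun k : ℕ => if |(k : ℝ) - t| < 1 then (1 : ℝ) else 0) L]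
  rw [Finset.sum_boole]
  have : ((range L).filter (fun k : ℕ => |(k : ℝ) - t| < 1)) ⊆ {⌊t⌋₊, ⌊t⌋₊ + 1} := by
    intro k hk
    rw [mem_filter, abs_lt] at hk
    obtain ⟨-, h1, h2⟩ := hk
    simp only [mem_insert, mem_singleton]
    have hA : ⌊t⌋₊ ≤ k := by
      rcases le_or_gt 0 t with h0 | h0
      · have : ⌊t⌋₊ < k + 1 := by
          rw [Nat.floor_lt h0]; push_cast; linarith
        omega
      · rw [Nat.floor_of_nonpos h0.le]; omega
    have hB : k < ⌊t⌋₊ + 2 := by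
      have := Nat.lt_floor_add_one t
      have : (k : ℝ) < ⌊t⌋₊ + 2 := by linarith
      exact_mod_cast this
    omega
  have h2 := Finset.card_le_card this
  have h3 : ({⌊t⌋₊, ⌊t⌋₊ + 1} : Finset ℕ).card ≤ 2 := Finset.card_le_two
  exact_mod_cast h2.trans h3

lemma chi_aff {t t' : ℝ} (h0 : 0 ≤ t) (h0' : 0 ≤ t') {L : ℕ} (hL : t + 2 ≤ L) (hL' : t' + 2 ≤ L) :
    1 - ∑ k : Fin L, chi ((k : ℕ) - t) * chi ((k : ℕ) - t') ≤ 5 * (t - t') ^ 2 := by
  have e : ∑ k : Fin L, (chi ((k : ℕ) - t) - chi ((k : ℕ) - t')) ^ 2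
      = 2 * (1 - ∑ k : Fin L, chi ((k : ℕ) - t) * chi ((k : ℕ) - t')) := by
    have : ∀ k : Fin L, (chi ((k : ℕ) - t) - chi ((k : ℕ) - t')) ^ 2
        = chi ((k : ℕ) - t) ^ 2 + chi ((k : ℕ) - t') ^ 2
          - 2 * (chi ((k : ℕ) - t) * chi ((k : ℕ) - t')) := fun k => by ring
    simp only [this, Finset.sum_sub_distrib, Finset.sum_add_distrib, ← Finset.mul_sum,
      chi_sum h0 hL, chi_sum h0' hL']
    ring
  have hpt : ∀ k : Fin L, (chi ((k : ℕ) - t) - chi ((k : ℕ) - t')) ^ 2 ≤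
      (5 / 2 * (t - t') ^ 2) * ((if |((k : ℕ) : ℝ) - t| < 1 then (1 : ℝ) else 0)
        + (if |((k : ℕ) : ℝ) - t'| < 1 then (1 : ℝ) else 0)) := by
    intro k
    have hl : (chi ((k : ℕ) - t) - chi ((k : ℕ) - t')) ^ 2 ≤ 5 / 2 * (t - t') ^ 2 := by
      have h1 := chi_lip ((k : ℕ) - t) ((k : ℕ) - t')
      have h2 : |((k : ℕ) - t) - (((k : ℕ) : ℝ) - t')| = |t - t'| := by
        rw [← abs_neg]; congr 1; ring
      rw [h2] at h1
      have h3 := mul_self_le_mul_self (abs_nonneg _) h1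
      rw [abs_mul_abs_self] at h3
      have h4 : Real.pi * Real.pi ≤ 10 := by nlinarith [Real.pi_lt_d2, Real.pi_pos]
      have h5 : |t - t'| * |t - t'| = (t - t') ^ 2 := by rw [abs_mul_abs_self]; ring
      nlinarith [sq_nonneg (t - t')]
    have hq : 0 ≤ 5 / 2 * (t - t') ^ 2 := by positivity
    split_ifs with h1 h2 h2
    · linarith
    · linarith
    · linarith
    · rw [chi_eq_zero (not_lt.1 h1), chi_eq_zero (not_lt.1 h2)]; simp
  have hs := Finset.sum_le_sum (fun k (_ : k ∈ (univ : Finset (Fin L))) => hpt k)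
  rw [← Finset.mul_sum, Finset.sum_add_distrib, e] at hs
  have h1 := card_near t L
  have h2 := card_near t' L
  nlinarith [sq_nonneg (t - t')]

lemma one_sub_prod_le {E : Type} (s : Finset E) (x : E → ℝ) (h0 : ∀ e ∈ s, 0 ≤ x e)
    (h1 : ∀ e ∈ s, x e ≤ 1) : 1 - ∏ e ∈ s, x e ≤ ∑ e ∈ s, (1 - x e) := by
  classical
  induction s using Finset.induction_on with
  | empty => simp
  | insert a s ha ih =>
    rw [Finset.prod_insert ha, Finset.sum_insert ha]
    have h2 := ih (fun e he => h0 e (mem_insert_of_mem he)) (fun e he => h1 e (mem_insert_of_mem he))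
    have h3 : ∏ e ∈ s, x e ≤ 1 := Finset.prod_le_one (fun e he => h0 e (mem_insert_of_mem he))
      (fun e he => h1 e (mem_insert_of_mem he))
    have h4 := h0 a (mem_insert_self _ _)
    have h5 := h1 a (mem_insert_self _ _)
    nlinarith

lemma aff_le_one {Ω : Type} [Fintype Ω] (x y : Ω → ℝ) (hx : ∑ ω, x ω ^ 2 = 1)
    (hy : ∑ ω, y ω ^ 2 = 1) : ∑ ω, x ω * y ω ≤ 1 := by
  have : ∑ ω, x ω * y ω ≤ ∑ ω, (x ω ^ 2 + y ω ^ 2) / 2 :=
    Finset.sum_le_sum fun ω _ => by nlinarith [sq_nonneg (x ω - y ω)]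
  rw [← Finset.sum_div, Finset.sum_add_distrib, hx, hy] at this
  linarith

/-- observing finitely many nonnegative functions at prescribed precisions -/
theorem good_of_forms {C I κ E F : Type} [DecidableEq C] [Fintype E] [Fintype F]
    (B : Finset C) (sh : I → C → C) (Q : κ → C → ℝ) (δ : ℝ) (ρ : κ → ℝ)
    (q : E → C → ℝ) (η : E → ℝ) (hq : ∀ e c, 0 ≤ q e c) (hη : ∀ e, 0 ≤ η e)
    (hη0 : ∀ e, η e = 0 → ∀ c, q e c = 0)
    (hcost : ∀ i, 5 * ∑ e, ∑ c ∈ B, ((q e (sh i c) - q e c) / η e) ^ 2 ≤ δ * B.card)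
    (φ : κ → F → E) (μ : κ → F → ℝ) (hμ : ∀ k f, 0 ≤ μ k f)
    (hdom : ∀ k, ∀ c ∈ B, Q k c ≤ ∑ f, μ k f * q (φ k f) c)
    (hρ : ∀ k, ∑ f, μ k f * (∑ c ∈ B, q (φ k f) c + 2 * η (φ k f) * B.card) ≤ ρ k * B.card) :
    Good B sh Q δ ρ := by
  classical
  let t : E → C → ℝ := fun e c => q e c / η e
  have ht0 : ∀ e c, 0 ≤ t e c := fun e c => div_nonneg (hq e c) (hη e)
  obtain ⟨L, hL⟩ : ∃ L : ℕ, ∀ e, ∀ c ∈ B, t e c + 2 ≤ L := by
    obtain ⟨L, hL⟩ := exists_nat_ge (∑ e, ∑ c ∈ B, t e c + 2)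
    refine ⟨L, fun e c hc => le_trans ?_ hL⟩
    have h1 : t e c ≤ ∑ c ∈ B, t e c :=
      Finset.single_le_sum (f := fun c => t e c) (fun c _ => ht0 e c) hc
    have h2 : ∑ c ∈ B, t e c ≤ ∑ e, ∑ c ∈ B, t e c :=
      Finset.single_le_sum (f := fun e => ∑ c ∈ B, t e c)
        (fun e _ => Finset.sum_nonneg fun c _ => ht0 e c) (mem_univ e)
    linarith
  have hqt : ∀ e c, q e c = η e * t e c := by
    intro e c
    by_cases h : η e = 0
    · rw [hη0 e h c, h, zero_mul]
    · simp only [t]; field_simp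
  let a : C → (E → Fin L) → ℝ := fun c ω => ∏ e, chi ((ω e : ℕ) - t e c)
  have hnorm : ∀ c ∈ B, ∑ ω, a c ω ^ 2 = 1 := by
    intro c hc
    simp only [a, ← Finset.prod_pow]
    rw [← Fintype.piFinset_univ, ← Finset.prod_univ_sum (fun _ => (univ : Finset (Fin L)))
      (fun e k => chi ((k : ℕ) - t e c) ^ 2)]
    exact Finset.prod_eq_one fun e _ => chi_sum (ht0 e c) (hL e c hc)
  have hsupp : ∀ c ω, a c ω ≠ 0 → ∀ e, |((ω e : ℕ) : ℝ) - t e c| < 1 := by
    intro c ω h e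
    by_contra hc
    exact h (Finset.prod_eq_zero (mem_univ e) (chi_eq_zero (not_lt.1 hc)))
  refine ⟨E → Fin L, inferInstance, a,
    fun ω k => ∑ f, μ k f * (η (φ k f) * ((ω (φ k f) : ℕ) + 1)), ?_, hnorm, ?_, ?_, ?_⟩
  · intro c ω; exact Finset.prod_nonneg fun e _ => chi_nonneg _
  · intro i
    refine le_trans ?_ (hcost i)
    rw [Finset.sum_comm, Finset.mul_sum]
    refine le_trans (Finset.sum_le_sum (g := fun c => 5 * ∑ e, ((q e (sh i c) - q e c) / η e) ^ 2)
      ?_) (Finset.sum_le_sum_of_subset_of_nonneg (Finset.filter_subset _ _)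
        (fun c _ _ => by positivity))
    intro c hc
    rw [mem_filter] at hc
    simp only [a, ← Finset.prod_mul_distrib]
    rw [← Fintype.piFinset_univ, ← Finset.prod_univ_sum (fun _ => (univ : Finset (Fin L)))
      (fun e k => chi ((k : ℕ) - t e (sh i c)) * chi ((k : ℕ) - t e c))]
    refine le_trans (one_sub_prod_le _ _ ?_ ?_) ?_
    · intro e _
      exact Finset.sum_nonneg fun k _ => mul_nonneg (chi_nonneg _) (chi_nonneg _)
    · intro e _
      exact aff_le_one _ _ (chi_sum (ht0 e _) (hL e _ hc.2)) (chi_sum (ht0 e _) (hL e _ hc.1))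
    · rw [Finset.mul_sum]
      apply Finset.sum_le_sum
      intro e _
      rw [sub_div]
      exact chi_aff (ht0 e _) (ht0 e _) (hL e _ hc.2) (hL e _ hc.1)
  · intro c hc ω hne k
    refine (hdom k c hc).trans (Finset.sum_le_sum fun f _ => ?_)
    apply mul_le_mul_of_nonneg_left _ (hμ k f)
    rw [hqt]
    apply mul_le_mul_of_nonneg_left _ (hη _)
    have := (abs_lt.1 (hsupp c ω hne (φ k f))).1
    linarith
  · intro k
    refine le_trans ?_ (hρ k)
    have : ∀ c ∈ B, ∑ ω, a c ω ^ 2 * ∑ f, μ k f * (η (φ k f) * ((ω (φ k f) : ℕ) + 1))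
        ≤ ∑ f, μ k f * (q (φ k f) c + 2 * η (φ k f)) := by
      intro c hc
      calc _ ≤ ∑ ω, a c ω ^ 2 * ∑ f, μ k f * (q (φ k f) c + 2 * η (φ k f)) := by
            apply Finset.sum_le_sum
            intro ω _
            by_cases h : a c ω = 0
            · simp [h]
            · apply mul_le_mul_of_nonneg_left _ (sq_nonneg _)
              apply Finset.sum_le_sum
              intro f _
              apply mul_le_mul_of_nonneg_left _ (hμ k f)
              rw [hqt]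
              have := (abs_lt.1 (hsupp c ω h (φ k f))).2
              nlinarith [hη (φ k f)]
        _ = _ := by rw [← Finset.sum_mul, hnorm c hc, one_mul]
    refine (Finset.sum_le_sum this).trans (le_of_eq ?_)
    rw [Finset.sum_comm]
    apply Finset.sum_congr rfl
    intro f _
    rw [← Finset.mul_sum, Finset.sum_add_distrib, Finset.sum_const, nsmul_eq_mul]
    ring

end H2PD
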