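import Mathlib

set_option autoImplicit false

namespace H2PD

open Finset

/-- `v` is at dyadic distance level `r` to the right of `u` -/
def band (r u v : ℕ) : Prop := u / 2 ^ r + 2 < v / 2 ^ r ∧ v / 2 ^ (r + 1) ≤ u / 2 ^ (r + 1) + 2

instance (r u v : ℕ) : Decidable (band r u v) := by unfold band; infer_instance

lemma band_lb {r u v : ℕ} (h : band r u v) : u + 2 * 2 ^ r < v := by
  have hp : 0 < 2 ^ r := by positivity
  have h1 := Nat.lt_div_mul_add (a := u) hp
  have h2 := Nat.div_mul_le_self v (2 ^ r)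
  have h3 : (u / 2 ^ r + 3) * 2 ^ r ≤ v / 2 ^ r * 2 ^ r := Nat.mul_le_mul_right _ h.1
  nlinarith

lemma band_ub {r u v : ℕ} (h : band r u v) : v < u + 6 * 2 ^ r := by
  have hp : 0 < 2 ^ (r + 1) := by positivity
  have h1 := Nat.lt_div_mul_add (a := v) hp
  have h2 := Nat.div_mul_le_self u (2 ^ (r + 1))
  have h3 : v / 2 ^ (r + 1) * 2 ^ (r + 1) ≤ (u / 2 ^ (r + 1) + 2) * 2 ^ (r + 1) :=
    Nat.mul_le_mul_right _ h.2
  have h4 : 2 ^ (r + 1) = 2 * 2 ^ r := by ring
  nlinarith

lemma near_succ {l u v : ℕ} (h : v / 2 ^ l ≤ u / 2 ^ l + 2) :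
    v / 2 ^ (l + 1) ≤ u / 2 ^ (l + 1) + 2 := by
  rw [pow_succ, ← Nat.div_div_eq_div_mul, ← Nat.div_div_eq_div_mul]
  omega

lemma near_mono {l l' u v : ℕ} (hl : l ≤ l') (h : v / 2 ^ l ≤ u / 2 ^ l + 2) :
    v / 2 ^ l' ≤ u / 2 ^ l' + 2 := by
  induction l', hl using Nat.le_induction with
  | base => exact h
  | succ n _ ih => exact near_succ ih

lemma band_unique {r r' u v : ℕ} (h : band r u v) (h' : band r' u v) : r = r' := by
  rcases lt_trichotomy r r' with hl | hl | hl
  · have := near_mono (show r + 1 ≤ r' from hl) h.2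
    have := h'.1; omega
  · exact hl
  · have := near_mono (show r' + 1 ≤ r from hl) h'.2
    have := h.1; omega

lemma band_exists {u v L : ℕ} (h : u + 3 ≤ v) (hL : v < 2 ^ L) : ∃ r < L, band r u v := by
  have key : ∀ l, v / 2 ^ l ≤ u / 2 ^ l + 2 → ∃ r < l, band r u v := by
    intro l
    induction l with
    | zero => intro h0; simp at h0; omega
    | succ l ih =>
      intro h1
      by_cases h2 : v / 2 ^ l ≤ u / 2 ^ l + 2
      · obtain ⟨r, hr, hb⟩ := ih h2
        exact ⟨r, by omega, hb⟩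
      · exact ⟨l, by omega, by omega, h1⟩
  apply key
  rw [Nat.div_eq_of_lt hL]; exact Nat.zero_le _

lemma sum_band {u v L : ℕ} (h : u + 3 ≤ v) (hL : v < 2 ^ L) (z : ℝ) :
    ∑ r ∈ range L, (if band r u v then z else 0) = z := by
  obtain ⟨r, hr, hb⟩ := band_exists h hL
  rw [Finset.sum_eq_single r]
  · rw [if_pos hb]
  · intro r' _ hne
    rw [if_neg (fun h' => hne (band_unique h' hb))]
  · intro h'; exact absurd (mem_range.2 hr) h'

lemma rep_div {m r : ℕ} (h : m ≤ r) (t : ℕ) : t / 2 ^ m * 2 ^ m / 2 ^ r = t / 2 ^ r := by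
  obtain ⟨k, rfl⟩ := Nat.exists_eq_add_of_le h
  rw [pow_add, ← Nat.div_div_eq_div_mul, ← Nat.div_div_eq_div_mul,
    Nat.mul_div_cancel _ (by positivity)]

lemma band_rep_right {m r : ℕ} (h : m ≤ r) (u t : ℕ) :
    band r u (t / 2 ^ m * 2 ^ m) ↔ band r u t := by
  unfold band; rw [rep_div h, rep_div (by omega)]

lemma band_rep_left {m r : ℕ} (h : m ≤ r) (t v : ℕ) :
    band r (t / 2 ^ m * 2 ^ m) v ↔ band r t v := by
  unfold band; rw [rep_div h, rep_div (by omega)]

lemma count_a (r q u v N : ℕ) :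
    ∑ a ∈ range N, (if band r u (a * 2 ^ min r q) ∧ band q (a * 2 ^ min r q) v then (1 : ℝ) else 0)
      ≤ 3 := by
  rw [Finset.sum_boole]
  rcases le_total r q with h | h
  · have : (range N).filter (fun a => band r u (a * 2 ^ min r q) ∧ band q (a * 2 ^ min r q) v)
        ⊆ Icc (u / 2 ^ r + 3) (u / 2 ^ r + 5) := by
      intro a ha
      rw [mem_filter, min_eq_left h] at ha
      obtain ⟨h1, h2⟩ := ha.2.1
      rw [pow_succ, ← Nat.div_div_eq_div_mul, ← Nat.div_div_eq_div_mul] at h2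
      rw [Nat.mul_div_cancel _ (by positivity)] at h1 h2
      rw [mem_Icc]; omega
    have h2 := Finset.card_le_card this
    rw [Nat.card_Icc] at h2
    have : ((range N).filter (fun a => band r u (a * 2 ^ min r q) ∧
      band q (a * 2 ^ min r q) v)).card ≤ 3 := by omega
    exact_mod_cast this
  · have : (range N).filter (fun a => band r u (a * 2 ^ min r q) ∧ band q (a * 2 ^ min r q) v)
        ⊆ Icc (v / 2 ^ q - 5) (v / 2 ^ q - 3) := by
      intro a ha
      rw [mem_filter, min_eq_right h] at ha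
      obtain ⟨h1, h2⟩ := ha.2.2
      rw [pow_succ, ← Nat.div_div_eq_div_mul, ← Nat.div_div_eq_div_mul] at h2
      rw [Nat.mul_div_cancel _ (by positivity)] at h1 h2
      rw [mem_Icc]; omega
    have h2 := Finset.card_le_card this
    rw [Nat.card_Icc] at h2
    have : ((range N).filter (fun a => band r u (a * 2 ^ min r q) ∧
      band q (a * 2 ^ min r q) v)).card ≤ 3 := by omega
    exact_mod_cast this

lemma count_M (u v L : ℕ) :
    ∑ M ∈ range L, (if u + 2 * 2 ^ M < v ∧ v < u + 12 * 2 ^ M then (1 : ℝ) else 0) ≤ 3 := by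
  rw [Finset.sum_boole]
  set s := (range L).filter (fun M => u + 2 * 2 ^ M < v ∧ v < u + 12 * 2 ^ M) with hs
  rcases s.eq_empty_or_nonempty with h | h
  · rw [h]; simp
  · have : s ⊆ Icc (s.min' h) (s.min' h + 2) := by
      intro M hM
      rw [mem_Icc]
      refine ⟨s.min'_le M hM, ?_⟩
      have h0 := mem_filter.1 (s.min'_mem h)
      rw [hs, mem_filter] at hM
      by_contra hc
      have : 2 ^ (s.min' h + 3) ≤ 2 ^ M := Nat.pow_le_pow_right (by norm_num) (by omega)
      rw [pow_add] at this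
      have h3 := hM.2.1
      have h4 := h0.2.2
      omega
    have h2 := Finset.card_le_card this
    rw [Nat.card_Icc] at h2
    have : s.card ≤ 3 := by omega
    exact_mod_cast this

lemma count_t_right (r u H : ℕ) :
    ∑ t ∈ range H, (if band r u t then (1 : ℝ) else 0) ≤ 4 * 2 ^ r := by
  rw [Finset.sum_boole]
  have : (range H).filter (fun t => band r u t) ⊆ Ioo (u + 2 * 2 ^ r) (u + 6 * 2 ^ r) := by
    intro t ht
    rw [mem_filter] at ht
    exact mem_Ioo.2 ⟨band_lb ht.2, band_ub ht.2⟩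
  have h2 := Finset.card_le_card this
  rw [Nat.card_Ioo] at h2
  have : ((range H).filter (fun t => band r u t)).card ≤ 4 * 2 ^ r := by omega
  exact_mod_cast this

lemma count_t_left (r v H : ℕ) :
    ∑ t ∈ range H, (if band r t v then (1 : ℝ) else 0) ≤ 4 * 2 ^ r := by
  rw [Finset.sum_boole]
  have : (range H).filter (fun t => band r t v) ⊆ Ico (v + 1 - 6 * 2 ^ r) (v - 2 * 2 ^ r) := by
    intro t ht
    rw [mem_filter] at ht
    have h1 := band_lb ht.2
    have h2 := band_ub ht.2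
    rw [mem_Ico]; omega
  have h2 := Finset.card_le_card this
  rw [Nat.card_Ico] at h2
  have : ((range H).filter (fun t => band r t v)).card ≤ 4 * 2 ^ r := by omega
  exact_mod_cast this

lemma geo_inj (s : Finset ℕ) (g : ℕ → ℕ) (hg : Set.InjOn g s) :
    ∑ r ∈ s, (9 / 10 : ℝ) ^ g r ≤ 10 := by
  rw [← Finset.sum_image (f := fun m => (9 / 10 : ℝ) ^ m) hg]
  have hs : Summable (fun m : ℕ => (9 / 10 : ℝ) ^ m) :=
    summable_geometric_of_lt_one (by norm_num) (by norm_num)
  refine (hs.sum_le_tsum _ (fun _ _ => by positivity)).trans ?_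
  rw [tsum_geometric_of_lt_one (by norm_num) (by norm_num)]
  norm_num

lemma geo_dist (L q : ℕ) : ∑ r ∈ range L, (9 / 10 : ℝ) ^ Nat.dist r q ≤ 20 := by
  rw [← Finset.sum_filter_add_sum_filter_not (range L) (fun r => r ≤ q)]
  have h1 := geo_inj ((range L).filter (fun r => r ≤ q)) (fun r => Nat.dist r q) (by
    intro a ha b hb hab
    simp only [coe_filter, Set.mem_ofPred_eq] at ha hb
    simp only [Nat.dist] at hab
    omega)
  have h2 := geo_inj ((range L).filter (fun r => ¬ r ≤ q)) (fun r => Nat.dist r q) (by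
    intro a ha b hb hab
    simp only [coe_filter, Set.mem_ofPred_eq] at ha hb
    simp only [Nat.dist] at hab
    omega)
  linarith

lemma maxsum (L : ℕ) (F : ℕ → ℝ) (hF : ∀ M, 0 ≤ F M) :
    ∑ r ∈ range L, ∑ q ∈ range L, (9 / 10 : ℝ) ^ Nat.dist r q * F (max r q)
      ≤ 40 * ∑ M ∈ range L, F M := by
  have h1 : ∑ r ∈ range L, ∑ q ∈ range L, (9 / 10 : ℝ) ^ Nat.dist r q * F r
      ≤ 20 * ∑ M ∈ range L, F M := by
    rw [Finset.mul_sum]
    apply Finset.sum_le_sum
    intro r _
    rw [← Finset.sum_mul]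
    apply mul_le_mul_of_nonneg_right _ (hF r)
    simp_rw [Nat.dist_comm r]
    exact geo_dist L r
  have h2 : ∑ r ∈ range L, ∑ q ∈ range L, (9 / 10 : ℝ) ^ Nat.dist r q * F q
      ≤ 20 * ∑ M ∈ range L, F M := by
    rw [Finset.sum_comm, Finset.mul_sum]
    apply Finset.sum_le_sum
    intro q _
    rw [← Finset.sum_mul]
    exact mul_le_mul_of_nonneg_right (geo_dist L q) (hF q)
  have h3 : ∑ r ∈ range L, ∑ q ∈ range L, (9 / 10 : ℝ) ^ Nat.dist r q * F (max r q)
      ≤ ∑ r ∈ range L, ∑ q ∈ range L, ((9 / 10 : ℝ) ^ Nat.dist r q * F r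
        + (9 / 10 : ℝ) ^ Nat.dist r q * F q) := by
    apply Finset.sum_le_sum; intro r _
    apply Finset.sum_le_sum; intro q _
    rw [← mul_add]
    apply mul_le_mul_of_nonneg_left _ (by positivity)
    rcases le_total r q with h | h
    · rw [max_eq_right h]; linarith [hF r]
    · rw [max_eq_left h]; linarith [hF q]
  simp only [Finset.sum_add_distrib] at h3
  linarith

lemma sq_sum_le_weighted (L q : ℕ) (z : ℕ → ℝ) :
    (∑ r ∈ range L, z r) ^ 2 ≤ ∑ r ∈ range L, 20 * (10 / 9 : ℝ) ^ Nat.dist r q * z r ^ 2 := by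
  have h := Finset.sum_sq_le_sum_mul_sum_of_sq_le_mul (range L) (r := z)
    (f := fun r => (9 / 10 : ℝ) ^ Nat.dist r q)
    (g := fun r => (10 / 9 : ℝ) ^ Nat.dist r q * z r ^ 2)
    (fun _ _ => by positivity) (fun _ _ => by positivity) (fun r _ => by
      rw [← mul_assoc, ← mul_pow]; norm_num)
  refine h.trans ?_
  simp only [mul_assoc, ← Finset.mul_sum]
  exact mul_le_mul_of_nonneg_right (geo_dist L q) (Finset.sum_nonneg fun _ _ => by positivity)

end H2PD
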