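import Crest.Agent.H2.PD2
import Crest.Agent.H2.PD3

set_option autoImplicit false

namespace H2PD

open Finset

section box
variable {I : Type} [Fintype I] [DecidableEq I]

noncomputable def box (I : Type) [Fintype I] [DecidableEq I] (W : ℕ) : Finset (I → ℤ) :=
  Fintype.piFinset (fun _ : I => Finset.Icc (-(W : ℤ)) W)

lemma mem_box {W : ℕ} {c : I → ℤ} : c ∈ box I W ↔ ∀ i, -(W : ℤ) ≤ c i ∧ c i ≤ W := by
  simp [box, Fintype.mem_piFinset]

lemma box_odd (W : ℕ) (i : I) (F : (I → ℤ) → ℝ)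
    (hF : ∀ c, F (Function.update c i (-c i)) = -F c) : ∑ c ∈ box I W, F c = 0 := by
  have h : ∑ c ∈ box I W, F c = ∑ c ∈ box I W, F (Function.update c i (-c i)) := by
    have hm : ∀ c ∈ box I W, Function.update c i (-c i) ∈ box I W := by
      intro c hc
      rw [mem_box] at hc ⊢
      intro j
      by_cases h : j = i
      · subst h; simp only [Function.update_self]; have := hc j; omega
      · rw [Function.update_of_ne h]; exact hc j
    refine Finset.sum_nbij' (fun c => Function.update c i (-c i))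
      (fun c => Function.update c i (-c i)) hm hm ?_ ?_ ?_
    · intro c _; simp
    · intro c _; simp
    · intro c _; simp
  simp only [hF, Finset.sum_neg_distrib] at h
  linarith

lemma box_lin_sq (W : ℕ) (S : Finset I) (ρ : I → ℝ) :
    ∑ c ∈ box I W, (∑ i ∈ S, ρ i * c i) ^ 2 ≤ (W : ℝ) ^ 2 * (∑ i ∈ S, ρ i ^ 2) * (box I W).card := by
  have e : ∀ c : I → ℤ, (∑ i ∈ S, ρ i * c i) ^ 2
      = ∑ i ∈ S, ∑ j ∈ S, ρ i * ρ j * ((c i : ℝ) * c j) := by
    intro c
    rw [sq, Finset.sum_mul_sum]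
    apply Finset.sum_congr rfl; intro i _
    apply Finset.sum_congr rfl; intro j _
    ring
  simp only [e]
  rw [Finset.sum_comm, mul_comm ((W : ℝ) ^ 2), mul_assoc, Finset.sum_mul]
  apply Finset.sum_le_sum
  intro i hi
  rw [Finset.sum_comm, Finset.sum_eq_single i]
  · rw [← Finset.mul_sum, sq (ρ i)]
    apply mul_le_mul_of_nonneg_left _ (mul_self_nonneg _)
    rw [mul_comm, ← nsmul_eq_mul, ← Finset.sum_const]
    apply Finset.sum_le_sum
    intro c hc
    have := mem_box.1 hc i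
    have h1 : -(W : ℝ) ≤ c i := by exact_mod_cast this.1
    have h2 : (c i : ℝ) ≤ W := by exact_mod_cast this.2
    nlinarith
  · intro j _ hji
    rw [← Finset.mul_sum, box_odd W i, mul_zero]
    intro c
    rw [Function.update_self, Function.update_of_ne hji]
    push_cast; ring
  · intro h; exact absurd hi h

end box

section rect
variable {I J : Type} (U : J → I → ℝ)

def rect (S : Finset I) (T : Finset J) (c : I → ℤ) : ℝ := ∑ j ∈ T, (∑ i ∈ S, U j i * c i) ^ 2

def mass (S : Finset I) (T : Finset J) : ℝ := ∑ j ∈ T, ∑ i ∈ S, U j i ^ 2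

lemma rect_nonneg (S : Finset I) (T : Finset J) (c : I → ℤ) : 0 ≤ rect U S T c :=
  Finset.sum_nonneg fun _ _ => sq_nonneg _

lemma mass_nonneg (S : Finset I) (T : Finset J) : 0 ≤ mass U S T :=
  Finset.sum_nonneg fun _ _ => Finset.sum_nonneg fun _ _ => sq_nonneg _

lemma rect_eq_zero {S : Finset I} {T : Finset J} (h : mass U S T = 0) (c : I → ℤ) :
    rect U S T c = 0 := by
  apply Finset.sum_eq_zero
  intro j hj
  have h1 := (Finset.sum_eq_zero_iff_of_nonneg
    (fun _ _ => Finset.sum_nonneg fun _ _ => sq_nonneg _)).1 h j hj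
  rw [Finset.sum_eq_zero, zero_pow (by norm_num)]
  intro i hi
  have h2 := (Finset.sum_eq_zero_iff_of_nonneg (fun _ _ => sq_nonneg _)).1 h1 i hi
  rw [pow_eq_zero_iff (by norm_num)] at h2
  rw [h2, zero_mul]

variable [Fintype I] [DecidableEq I]

lemma box_rect (W : ℕ) (S : Finset I) (T : Finset J) :
    ∑ c ∈ box I W, rect U S T c ≤ (W : ℝ) ^ 2 * mass U S T * (box I W).card := by
  unfold rect mass
  rw [Finset.sum_comm, Finset.mul_sum, Finset.sum_mul]
  exact Finset.sum_le_sum fun j _ => box_lin_sq W S (U j)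

lemma box_rect_shift (W : ℕ) (S : Finset I) (T : Finset J) (i : I) :
    ∑ c ∈ box I W, (rect U S T (c + Pi.single i 6) - rect U S T c) ^ 2 ≤
      (288 * (W : ℝ) ^ 2 + 2592) * mass U S T * (if i ∈ S then ∑ j ∈ T, U j i ^ 2 else 0)
        * (box I W).card := by
  have hlin : ∀ (c : I → ℤ) (j : J), ∑ i' ∈ S, U j i' * ((c + Pi.single i 6 : I → ℤ) i' : ℝ)
      = ∑ i' ∈ S, U j i' * c i' + (if i ∈ S then 6 * U j i else 0) := by
    intro c j
    have : ∀ i', U j i' * ((c + Pi.single i 6 : I → ℤ) i' : ℝ)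
        = U j i' * c i' + (if i' = i then 6 * U j i else 0) := by
      intro i'
      by_cases h : i' = i
      · subst h; simp; ring
      · simp [h]
    simp only [this, Finset.sum_add_distrib, Finset.sum_ite_eq']
  by_cases hi : i ∈ S
  · set p := ∑ j ∈ T, U j i ^ 2 with hp
    have hp0 : 0 ≤ p := Finset.sum_nonneg fun _ _ => sq_nonneg _
    set R : I → ℝ := fun i' => ∑ j ∈ T, U j i * U j i' with hR
    have hdiff : ∀ c : I → ℤ, rect U S T (c + Pi.single i 6) - rect U S T c
        = 12 * (∑ i' ∈ S, R i' * c i') + 36 * p := by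
      intro c
      unfold rect
      simp only [hlin, if_pos hi, hR, hp, Finset.sum_mul]
      rw [← Finset.sum_sub_distrib, Finset.sum_comm, Finset.mul_sum, Finset.mul_sum,
        ← Finset.sum_add_distrib]
      apply Finset.sum_congr rfl
      intro j _
      have : ∑ i' ∈ S, U j i * U j i' * c i' = U j i * ∑ i' ∈ S, U j i' * c i' := by
        rw [Finset.mul_sum]; apply Finset.sum_congr rfl; intro _ _; ring
      rw [this]; ring
    have hRle : ∑ i' ∈ S, R i' ^ 2 ≤ mass U S T * p := by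
      unfold mass
      rw [Finset.sum_comm, Finset.sum_mul]
      apply Finset.sum_le_sum
      intro i' _
      rw [mul_comm]
      exact Finset.sum_mul_sq_le_sq_mul_sq T _ _
    have hple : p ≤ mass U S T := by
      unfold mass
      exact Finset.sum_le_sum fun j _ =>
        Finset.single_le_sum (f := fun i => U j i ^ 2) (fun _ _ => sq_nonneg _) hi
    simp only [hdiff, if_pos hi]
    calc _ ≤ ∑ c ∈ box I W, (288 * (∑ i' ∈ S, R i' * c i') ^ 2 + 2592 * p ^ 2) := by
          apply Finset.sum_le_sum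
          intro c _
          nlinarith [sq_nonneg (12 * (∑ i' ∈ S, R i' * c i') - 36 * p)]
      _ = 288 * ∑ c ∈ box I W, (∑ i' ∈ S, R i' * c i') ^ 2 + 2592 * p ^ 2 * (box I W).card := by
          rw [Finset.sum_add_distrib, ← Finset.mul_sum, Finset.sum_const, nsmul_eq_mul]; ring
      _ ≤ 288 * ((W : ℝ) ^ 2 * (mass U S T * p) * (box I W).card)
            + 2592 * (mass U S T * p) * (box I W).card := by
          gcongr
          · refine (box_lin_sq W S R).trans ?_
            gcongr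
          · rw [sq]; gcongr
      _ = _ := by ring
  · have : ∀ c : I → ℤ, rect U S T (c + Pi.single i 6) - rect U S T c = 0 := by
      intro c; unfold rect; simp only [hlin, if_neg hi, add_zero, sub_self]
    simp [this, hi]

end rect

section la
variable {I J : Type} [Fintype I] [Fintype J] (x : I → ℕ) (y : J → ℕ) (U : J → I → ℝ)

def Sset (r t : ℕ) : Finset I := univ.filter (fun i => band r (x i) t)
def Tset (q t : ℕ) : Finset J := univ.filter (fun j => band q t (y j))
def Qform (t : ℕ) (c : I → ℤ) : ℝ :=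
  rect U (univ.filter (fun i => x i ≤ t)) (univ.filter (fun j => t < y j)) c

lemma Sset_rep {m r : ℕ} (h : m ≤ r) (t : ℕ) : Sset x r (t / 2 ^ m * 2 ^ m) = Sset x r t := by
  unfold Sset; simp only [band_rep_right h]

lemma Tset_rep {m r : ℕ} (h : m ≤ r) (t : ℕ) : Tset y r (t / 2 ^ m * 2 ^ m) = Tset y r t := by
  unfold Tset; simp only [band_rep_left h]

lemma dom {t L : ℕ} (htL : t < 2 ^ L) (hyL : ∀ j, y j < 2 ^ L)
    (hx : ∀ i, x i ≤ t → x i + 3 ≤ t) (hy : ∀ j, t < y j → t + 3 ≤ y j) (c : I → ℤ) :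
    Qform x y U t c ≤ ∑ r ∈ range L, ∑ q ∈ range L,
      20 * (10 / 9 : ℝ) ^ Nat.dist r q * rect U (Sset x r t) (Tset y q t) c := by
  have hI : ∀ F : I → ℝ, ∑ i ∈ univ.filter (fun i => x i ≤ t), F i
      = ∑ r ∈ range L, ∑ i ∈ Sset x r t, F i := by
    intro F
    unfold Sset
    simp only [Finset.sum_filter]
    rw [Finset.sum_comm]
    apply Finset.sum_congr rfl
    intro i _
    split_ifs with h
    · rw [sum_band (hx i h) htL]
    · symm; apply Finset.sum_eq_zero
      intro r _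
      rw [if_neg]; intro hb; have := band_lb hb; omega
  have hJ : ∀ F : J → ℝ, ∑ j ∈ univ.filter (fun j => t < y j), F j
      = ∑ q ∈ range L, ∑ j ∈ Tset y q t, F j := by
    intro F
    unfold Tset
    simp only [Finset.sum_filter]
    rw [Finset.sum_comm]
    apply Finset.sum_congr rfl
    intro j _
    split_ifs with h
    · rw [sum_band (hy j h) (hyL j)]
    · symm; apply Finset.sum_eq_zero
      intro r _
      rw [if_neg]; intro hb; have := band_lb hb; omega
  unfold Qform rect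
  rw [hJ, Finset.sum_comm]
  apply Finset.sum_le_sum
  intro q _
  simp only [Finset.mul_sum]
  rw [Finset.sum_comm]
  apply Finset.sum_le_sum
  intro j _
  rw [hI]
  exact sq_sum_le_weighted L q _

lemma band_pair {r q u t v : ℕ} (h1 : band r u t) (h2 : band q t v) :
    u + 2 * 2 ^ max r q < v ∧ v < u + 12 * 2 ^ max r q := by
  have a1 := band_lb h1
  have a2 := band_ub h1
  have a3 := band_lb h2
  have a4 := band_ub h2
  rcases le_total r q with h | h
  · rw [max_eq_right h]
    have : 2 ^ r ≤ 2 ^ q := Nat.pow_le_pow_right (by norm_num) h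
    omega
  · rw [max_eq_left h]
    have : 2 ^ q ≤ 2 ^ r := Nat.pow_le_pow_right (by norm_num) h
    omega

lemma cost_bound [DecidableEq I] (L N : ℕ) (i : I) :
    ∑ r ∈ range L, ∑ q ∈ range L, ∑ a ∈ range N, (9 / 10 : ℝ) ^ Nat.dist r q *
      (if i ∈ Sset x r (a * 2 ^ min r q) then ∑ j ∈ Tset y q (a * 2 ^ min r q), U j i ^ 2 else 0)
      ≤ 360 * ∑ j, U j i ^ 2 := by
  have e : ∀ r q a, (if i ∈ Sset x r (a * 2 ^ min r q) then
      ∑ j ∈ Tset y q (a * 2 ^ min r q), U j i ^ 2 else 0) = ∑ j, U j i ^ 2 *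
        (if band r (x i) (a * 2 ^ min r q) ∧ band q (a * 2 ^ min r q) (y j) then (1 : ℝ) else 0) := by
    intro r q a
    unfold Sset Tset
    simp only [mem_filter, mem_univ, true_and, Finset.sum_filter]
    split_ifs with h
    · apply Finset.sum_congr rfl; intro j _; simp [h]
    · symm; apply Finset.sum_eq_zero; intro j _; simp [h]
  simp only [e, Finset.mul_sum]
  have e2 : ∑ r ∈ range L, ∑ q ∈ range L, ∑ a ∈ range N, ∑ j, (9 / 10 : ℝ) ^ Nat.dist r q *
      (U j i ^ 2 * (if band r (x i) (a * 2 ^ min r q) ∧ band q (a * 2 ^ min r q) (y j)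
        then (1 : ℝ) else 0)) = ∑ j, U j i ^ 2 * ∑ r ∈ range L, ∑ q ∈ range L,
        (9 / 10 : ℝ) ^ Nat.dist r q * ∑ a ∈ range N,
        (if band r (x i) (a * 2 ^ min r q) ∧ band q (a * 2 ^ min r q) (y j)
        then (1 : ℝ) else 0) := by
    simp only [Finset.mul_sum]
    symm
    rw [Finset.sum_comm]
    apply Finset.sum_congr rfl; intro r _
    rw [Finset.sum_comm]
    apply Finset.sum_congr rfl; intro q _
    rw [Finset.sum_comm]
    apply Finset.sum_congr rfl; intro a _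
    apply Finset.sum_congr rfl; intro j _
    ring
  rw [e2]
  apply Finset.sum_le_sum
  intro j _
  rw [mul_comm (360 : ℝ)]
  apply mul_le_mul_of_nonneg_left _ (sq_nonneg _)
  set F : ℕ → ℝ := fun M => if x i + 2 * 2 ^ M < y j ∧ y j < x i + 12 * 2 ^ M then (3 : ℝ) else 0
  have hF : ∀ M, 0 ≤ F M := by intro M; simp only [F]; split_ifs <;> norm_num
  calc _ ≤ ∑ r ∈ range L, ∑ q ∈ range L, (9 / 10 : ℝ) ^ Nat.dist r q * F (max r q) := by
        apply Finset.sum_le_sum; intro r _
        apply Finset.sum_le_sum; intro q _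
        apply mul_le_mul_of_nonneg_left _ (by positivity)
        simp only [F]
        split_ifs with h
        · exact count_a r q _ _ N
        · apply le_of_eq; apply Finset.sum_eq_zero
          intro a _
          rw [if_neg]; intro hb; exact h (band_pair hb.1 hb.2)
    _ ≤ 40 * ∑ M ∈ range L, F M := maxsum L F hF
    _ ≤ 360 := by
        have := count_M (x i) (y j) L
        have e : ∑ M ∈ range L, F M = 3 * ∑ M ∈ range L,
            (if x i + 2 * 2 ^ M < y j ∧ y j < x i + 12 * 2 ^ M then (1 : ℝ) else 0) := by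
          rw [Finset.mul_sum]; apply Finset.sum_congr rfl; intro M _
          simp only [F]; split_ifs <;> norm_num
        rw [e]; linarith

lemma amgm_sqrt {m m1 m2 c w1 w2 : ℝ} (h1 : 0 ≤ m1) (h2 : 0 ≤ m2) (hm0 : 0 ≤ m) (hm : m ≤ m1 * m2)
    (hw1 : 0 ≤ w1) (hw2 : 0 ≤ w2) (hw : c ^ 2 ≤ w1 * w2) : c * √m ≤ w1 * m1 + w2 * m2 := by
  apply le_of_sq_le_sq _ (by positivity) |>.trans' (le_refl _) |> fun h => h
  rw [mul_pow, Real.sq_sqrt hm0]
  calc c ^ 2 * m ≤ (w1 * w2) * (m1 * m2) := by gcongr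
    _ ≤ _ := by nlinarith [sq_nonneg (w1 * m1 - w2 * m2), mul_nonneg (mul_nonneg hw1 h1) (mul_nonneg hw2 h2)]

lemma budget_bound (A : ℕ → I → ℝ) (B : ℕ → J → ℝ) (C1 Z : ℝ) (hC1 : 1 ≤ C1)
    (hA0 : ∀ M i, 0 ≤ A M i) (hB0 : ∀ M j, 0 ≤ B M j)
    (hAB : ∀ M i j, x i + 2 * 2 ^ M < y j → U j i ^ 2 ≤ A M i * B M j)
    (hA : ∀ M i, ∑ j ∈ univ.filter (fun j => x i + 2 * 2 ^ M < y j), U j i ^ 2 ≤ A M i)
    (hB : ∀ M j, ∑ i ∈ univ.filter (fun i => x i + 2 * 2 ^ M < y j), U j i ^ 2 ≤ C1 * B M j)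
    (L H : ℕ) (hsA : ∑ M ∈ range L, 2 ^ M * ∑ i, A M i ≤ Z)
    (hsB : ∑ M ∈ range L, 2 ^ M * ∑ j, B M j ≤ Z) :
    ∑ t ∈ range H, ∑ r ∈ range L, ∑ q ∈ range L, (100 / 81 : ℝ) ^ Nat.dist r q *
      (mass U (Sset x r t) (Tset y q t) + √(mass U (Sset x r t) (Tset y q t)))
      ≤ 640 * C1 * Z := by
  set w1 : ℕ → ℕ → ℝ := fun r q => (9 / 10 : ℝ) ^ Nat.dist r q * 2 ^ max r q / 2 ^ r with hw1
  set w2 : ℕ → ℕ → ℝ := fun r q => (9 / 10 : ℝ) ^ Nat.dist r q * 2 ^ max r q / 2 ^ q with hw2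
  have hpt : ∀ t r q, (100 / 81 : ℝ) ^ Nat.dist r q *
      (mass U (Sset x r t) (Tset y q t) + √(mass U (Sset x r t) (Tset y q t)))
      ≤ 2 * C1 * (w1 r q * ∑ i ∈ Sset x r t, A (max r q) i
        + w2 r q * ∑ j ∈ Tset y q t, B (max r q) j) := by
    intro t r q
    set m1 := ∑ i ∈ Sset x r t, A (max r q) i with hm1
    set m2 := ∑ j ∈ Tset y q t, B (max r q) j with hm2
    set m := mass U (Sset x r t) (Tset y q t) with hm
    have h1 : 0 ≤ m1 := Finset.sum_nonneg fun _ _ => hA0 _ _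
    have h2 : 0 ≤ m2 := Finset.sum_nonneg fun _ _ => hB0 _ _
    have hm0 : 0 ≤ m := mass_nonneg _ _ _
    have hpair : ∀ i ∈ Sset x r t, ∀ j ∈ Tset y q t, x i + 2 * 2 ^ max r q < y j := by
      intro i hi j hj
      exact (band_pair (mem_filter.1 hi).2 (mem_filter.1 hj).2).1
    have hm12 : m ≤ m1 * m2 := by
      rw [hm, hm1, hm2, mul_comm, Finset.sum_mul_sum]
      apply Finset.sum_le_sum; intro j hj
      apply Finset.sum_le_sum; intro i hi
      rw [mul_comm]; exact hAB _ i j (hpair i hi j hj)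
    have hmA : m ≤ m1 := by
      rw [hm, hm1, mass, Finset.sum_comm]
      apply Finset.sum_le_sum; intro i hi
      refine le_trans ?_ (hA (max r q) i)
      apply Finset.sum_le_sum_of_subset_of_nonneg _ (fun _ _ _ => sq_nonneg _)
      intro j hj
      exact mem_filter.2 ⟨mem_univ _, hpair i hi j hj⟩
    have hmB : m ≤ C1 * m2 := by
      rw [hm, hm2, mass, Finset.mul_sum]
      apply Finset.sum_le_sum; intro j hj
      refine le_trans ?_ (hB (max r q) j)
      apply Finset.sum_le_sum_of_subset_of_nonneg _ (fun _ _ _ => sq_nonneg _)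
      intro i hi
      exact mem_filter.2 ⟨mem_univ _, hpair i hi j hj⟩
    have hw10 : 0 ≤ w1 r q := by simp only [hw1]; positivity
    have hw20 : 0 ≤ w2 r q := by simp only [hw2]; positivity
    have hcases : (w1 r q = (9 / 5 : ℝ) ^ Nat.dist r q ∧ w2 r q = (9 / 10 : ℝ) ^ Nat.dist r q) ∨
        (w2 r q = (9 / 5 : ℝ) ^ Nat.dist r q ∧ w1 r q = (9 / 10 : ℝ) ^ Nat.dist r q) := by
      rcases le_total r q with h | h
      · left
        obtain ⟨k, rfl⟩ := Nat.exists_eq_add_of_le h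
        simp only [hw1, hw2, max_eq_right h, Nat.dist_eq_sub_of_le h, Nat.add_sub_cancel_left]
        constructor
        · rw [pow_add, show (9 / 5 : ℝ) = 9 / 10 * 2 by norm_num, mul_pow]; field_simp
        · field_simp
      · right
        obtain ⟨k, rfl⟩ := Nat.exists_eq_add_of_le h
        simp only [hw1, hw2, max_eq_left h, Nat.dist_eq_sub_of_le_right h, Nat.add_sub_cancel_left]
        constructor
        · rw [pow_add, show (9 / 5 : ℝ) = 9 / 10 * 2 by norm_num, mul_pow]; field_simp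
        · field_simp
    have hc1 : (100 / 81 : ℝ) ^ Nat.dist r q ≤ (9 / 5 : ℝ) ^ Nat.dist r q :=
      pow_le_pow_left₀ (by norm_num) (by norm_num) _
    have hww : ((100 / 81 : ℝ) ^ Nat.dist r q) ^ 2 ≤ w1 r q * w2 r q := by
      have : ((100 / 81 : ℝ) ^ Nat.dist r q) ^ 2
          ≤ (9 / 5 : ℝ) ^ Nat.dist r q * (9 / 10 : ℝ) ^ Nat.dist r q := by
        rw [← pow_mul, mul_comm _ 2, pow_mul, ← mul_pow]
        exact pow_le_pow_left₀ (by norm_num) (by norm_num) _
      rcases hcases with ⟨e1, e2⟩ | ⟨e1, e2⟩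
      · rw [e1, e2]; exact this
      · rw [e1, e2, mul_comm]; exact this
    have hs := amgm_sqrt h1 h2 hm0 hm12 hw10 hw20 hww
    have hS : 0 ≤ w1 r q * m1 + w2 r q * m2 := by positivity
    have hm' : (100 / 81 : ℝ) ^ Nat.dist r q * m ≤ C1 * (w1 r q * m1 + w2 r q * m2) := by
      rcases hcases with ⟨e1, -⟩ | ⟨e1, -⟩
      · calc _ ≤ w1 r q * m1 := by rw [e1]; gcongr
          _ ≤ w1 r q * m1 + w2 r q * m2 := by linarith [mul_nonneg hw20 h2]
          _ ≤ _ := le_mul_of_one_le_left hS hC1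
      · calc _ ≤ w2 r q * (C1 * m2) := by rw [e1]; gcongr
          _ = C1 * (w2 r q * m2) := by ring
          _ ≤ _ := by
            apply mul_le_mul_of_nonneg_left _ (by linarith)
            linarith [mul_nonneg hw10 h1]
    have := le_mul_of_one_le_left hS hC1
    rw [mul_add]; linarith
  refine (Finset.sum_le_sum fun t _ => Finset.sum_le_sum fun r _ =>
    Finset.sum_le_sum fun q _ => hpt t r q).trans ?_
  rw [Finset.sum_comm]
  have hin : ∀ r ∈ range L, ∑ t ∈ range H, ∑ q ∈ range L, 2 * C1 *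
      (w1 r q * ∑ i ∈ Sset x r t, A (max r q) i + w2 r q * ∑ j ∈ Tset y q t, B (max r q) j)
      ≤ ∑ q ∈ range L, (9 / 10 : ℝ) ^ Nat.dist r q * (8 * C1 * (2 ^ max r q * ∑ i, A (max r q) i
        + 2 ^ max r q * ∑ j, B (max r q) j)) := by
    intro r _
    rw [Finset.sum_comm]
    apply Finset.sum_le_sum
    intro q _
    rw [← Finset.mul_sum, Finset.sum_add_distrib, ← Finset.mul_sum, ← Finset.mul_sum]
    have e1 : ∑ t ∈ range H, ∑ i ∈ Sset x r t, A (max r q) i ≤ 4 * 2 ^ r * ∑ i, A (max r q) i := by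
      unfold Sset
      simp only [Finset.sum_filter]
      rw [Finset.sum_comm, Finset.mul_sum]
      apply Finset.sum_le_sum; intro i _
      have := count_t_right r (x i) H
      calc _ = (∑ t ∈ range H, (if band r (x i) t then (1 : ℝ) else 0)) * A (max r q) i := by
            rw [Finset.sum_mul]; apply Finset.sum_congr rfl; intro t _; split_ifs <;> simp
        _ ≤ _ := mul_le_mul_of_nonneg_right this (hA0 _ _)
    have e2 : ∑ t ∈ range H, ∑ j ∈ Tset y q t, B (max r q) j ≤ 4 * 2 ^ q * ∑ j, B (max r q) j := by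
      unfold Tset
      simp only [Finset.sum_filter]
      rw [Finset.sum_comm, Finset.mul_sum]
      apply Finset.sum_le_sum; intro j _
      have := count_t_left q (y j) H
      calc _ = (∑ t ∈ range H, (if band q t (y j) then (1 : ℝ) else 0)) * B (max r q) j := by
            rw [Finset.sum_mul]; apply Finset.sum_congr rfl; intro t _; split_ifs <;> simp
        _ ≤ _ := mul_le_mul_of_nonneg_right this (hB0 _ _)
    have hw10 : 0 ≤ w1 r q := by simp only [hw1]; positivity
    have hw20 : 0 ≤ w2 r q := by simp only [hw2]; positivity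
    calc _ ≤ 2 * C1 * (w1 r q * (4 * 2 ^ r * ∑ i, A (max r q) i)
          + w2 r q * (4 * 2 ^ q * ∑ j, B (max r q) j)) := by
          have : 0 ≤ 2 * C1 := by linarith
          gcongr
      _ = _ := by simp only [hw1, hw2]; field_simp; ring
  refine (Finset.sum_le_sum hin).trans ?_
  refine (maxsum L (fun M => 8 * C1 * (2 ^ M * ∑ i, A M i + 2 ^ M * ∑ j, B M j)) ?_).trans ?_
  · intro M
    have h1 : 0 ≤ ∑ i, A M i := Finset.sum_nonneg fun _ _ => hA0 _ _
    have h2 : 0 ≤ ∑ j, B M j := Finset.sum_nonneg fun _ _ => hB0 _ _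
    have : 0 ≤ C1 := by linarith
    positivity
  · rw [← Finset.mul_sum, Finset.sum_add_distrib]
    have : 0 ≤ C1 := by linarith
    nlinarith

theorem LA [DecidableEq I] (A : ℕ → I → ℝ) (B : ℕ → J → ℝ) (C1 Z : ℝ) (hC1 : 1 ≤ C1)
    (hA0 : ∀ M i, 0 ≤ A M i) (hB0 : ∀ M j, 0 ≤ B M j)
    (hAB : ∀ M i j, x i + 2 * 2 ^ M < y j → U j i ^ 2 ≤ A M i * B M j)
    (hA : ∀ M i, ∑ j ∈ univ.filter (fun j => x i + 2 * 2 ^ M < y j), U j i ^ 2 ≤ A M i)
    (hB : ∀ M j, ∑ i ∈ univ.filter (fun i => x i + 2 * 2 ^ M < y j), U j i ^ 2 ≤ C1 * B M j)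
    (H : ℕ) (hsA : ∀ L, ∑ M ∈ range L, 2 ^ M * ∑ i, A M i ≤ Z)
    (hsB : ∀ L, ∑ M ∈ range L, 2 ^ M * ∑ j, B M j ≤ Z)
    (hy : ∀ j, y j ≤ H) (hU : ∀ i, ∑ j, U j i ^ 2 ≤ 1) :
    ∃ Bud : ℕ → ℝ, (∀ t, 0 ≤ Bud t) ∧ ∑ t ∈ range H, Bud t ≤ 10 ^ 13 * C1 * Z ∧
      ∀ (κ : Type) (tk : κ → ℕ), (∀ k, tk k < H) → (∀ k i, x i ≤ tk k → x i + 3 ≤ tk k) →
        (∀ k j, tk k < y j → tk k + 3 ≤ y j) →
        Good (box I 1000) (fun i c => c + Pi.single i 6) (fun k c => Qform x y U (tk k) c)
          (1 / 216) (fun k => Bud (tk k)) := by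
  set L := H with hL
  have hHL : H < 2 ^ L := Nat.lt_two_pow_self
  let mu : ℕ → ℕ → ℕ → ℝ := fun r q t => mass U (Sset x r t) (Tset y q t)
  have hmu : ∀ r q t, 0 ≤ mu r q t := fun r q t => mass_nonneg _ _ _
  refine ⟨fun t => ∑ r ∈ range L, ∑ q ∈ range L, 20 * (10 / 9 : ℝ) ^ Nat.dist r q *
    (1000 ^ 2 * mu r q t + 2 * (10 ^ 8 * (10 / 9 : ℝ) ^ Nat.dist r q * √(mu r q t))), ?_, ?_, ?_⟩
  · intro t
    refine Finset.sum_nonneg fun r _ => Finset.sum_nonneg fun q _ => ?_
    have := hmu r q t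
    positivity
  · have h := budget_bound x y U A B C1 Z hC1 hA0 hB0 hAB hA hB L H (hsA L) (hsB L)
    have hZ : 0 ≤ Z := by simpa using hsA 0
    calc _ ≤ ∑ t ∈ range H, ∑ r ∈ range L, ∑ q ∈ range L, (4 * 10 ^ 9) *
          ((100 / 81 : ℝ) ^ Nat.dist r q * (mu r q t + √(mu r q t))) := by
          refine Finset.sum_le_sum fun t _ => Finset.sum_le_sum fun r _ =>
            Finset.sum_le_sum fun q _ => ?_
          have e : (100 / 81 : ℝ) ^ Nat.dist r q
              = (10 / 9 : ℝ) ^ Nat.dist r q * (10 / 9 : ℝ) ^ Nat.dist r q := by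
            rw [← mul_pow]; norm_num
          have h1 : 1 ≤ (10 / 9 : ℝ) ^ Nat.dist r q := one_le_pow₀ (by norm_num)
          rw [e]
          have h2 := hmu r q t
          have h3 := Real.sqrt_nonneg (mu r q t)
          set u := (10 / 9 : ℝ) ^ Nat.dist r q
          have h4 : u * mu r q t ≤ u * u * mu r q t := by
            have : u ≤ u * u := by nlinarith
            exact mul_le_mul_of_nonneg_right this h2
          have h5 : 0 ≤ u * u * mu r q t := by positivity
          nlinarith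
      _ = (4 * 10 ^ 9) * ∑ t ∈ range H, ∑ r ∈ range L, ∑ q ∈ range L,
          ((100 / 81 : ℝ) ^ Nat.dist r q * (mu r q t + √(mu r q t))) := by
          simp only [Finset.mul_sum]
      _ ≤ (4 * 10 ^ 9) * (640 * C1 * Z) := by gcongr
      _ ≤ _ := by
          have : 0 ≤ C1 * Z := mul_nonneg (by linarith) hZ
          nlinarith
  · intro κ tk htk hx hy'
    let t0 : Fin L × Fin L × Fin (H + 1) → ℕ := fun e => (e.2.2 : ℕ) * 2 ^ min (e.1 : ℕ) e.2.1
    let φ : κ → Fin L × Fin L → Fin L × Fin L × Fin (H + 1) := fun k f =>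
      (f.1, f.2, ⟨tk k / 2 ^ min (f.1 : ℕ) f.2,
        Nat.lt_succ_of_le ((Nat.div_le_self _ _).trans (htk k).le)⟩)
    have hS : ∀ k f, Sset x (φ k f).1 (t0 (φ k f)) = Sset x f.1 (tk k) := fun k f =>
      Sset_rep x (min_le_left _ _) _
    have hT : ∀ k f, Tset y (φ k f).2.1 (t0 (φ k f)) = Tset y f.2 (tk k) := fun k f =>
      Tset_rep y (min_le_right _ _) _
    refine good_of_forms (box I 1000) _ _ _ _
      (fun e c => rect U (Sset x e.1 (t0 e)) (Tset y e.2.1 (t0 e)) c)
      (fun e => 10 ^ 8 * (10 / 9 : ℝ) ^ Nat.dist e.1 e.2.1 * √(mu e.1 e.2.1 (t0 e)))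
      (fun e c => rect_nonneg _ _ _ _) (fun e => by positivity) ?_ ?_ φ
      (fun _ f => 20 * (10 / 9 : ℝ) ^ Nat.dist f.1 f.2) (fun _ _ => by positivity) ?_ ?_
    · intro e he c
      apply rect_eq_zero
      have h1 : √(mu e.1 e.2.1 (t0 e)) = 0 := by
        rcases mul_eq_zero.1 he with h | h
        · exact absurd h (by positivity)
        · exact h
      exact (Real.sqrt_eq_zero (hmu _ _ _)).1 h1
    · intro i
      have hpt : ∀ e : Fin L × Fin L × Fin (H + 1), ∑ c ∈ box I 1000,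
          ((rect U (Sset x e.1 (t0 e)) (Tset y e.2.1 (t0 e)) (c + Pi.single i 6)
            - rect U (Sset x e.1 (t0 e)) (Tset y e.2.1 (t0 e)) c) /
            (10 ^ 8 * (10 / 9 : ℝ) ^ Nat.dist e.1 e.2.1 * √(mu e.1 e.2.1 (t0 e)))) ^ 2
          ≤ (3 / 10 ^ 8 * (box I 1000).card) * ((9 / 10 : ℝ) ^ Nat.dist e.1 e.2.1 *
            (if i ∈ Sset x e.1 (t0 e) then ∑ j ∈ Tset y e.2.1 (t0 e), U j i ^ 2 else 0)) := by
        intro e
        set p := (if i ∈ Sset x e.1 (t0 e) then ∑ j ∈ Tset y e.2.1 (t0 e), U j i ^ 2 else 0)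
          with hp
        have hp0 : 0 ≤ p := by
          rw [hp]; split_ifs
          · exact Finset.sum_nonneg fun _ _ => sq_nonneg _
          · exact le_rfl
        rcases (hmu e.1 e.2.1 (t0 e)).eq_or_lt with h0 | h0
        · rw [← h0]; simp only [Real.sqrt_zero, mul_zero, div_zero]
          simp only [ne_eq, OfNat.ofNat_ne_zero, not_false_eq_true, zero_pow, sum_const_zero]
          positivity
        · simp only [div_pow]
          rw [← Finset.sum_div, div_le_iff₀ (by positivity)]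
          refine (box_rect_shift U 1000 _ _ i).trans ?_
          rw [← hp, mul_pow, mul_pow, Real.sq_sqrt h0.le]
          have e1 : (9 / 10 : ℝ) ^ Nat.dist e.1 e.2.1 * (10 / 9 : ℝ) ^ Nat.dist e.1 e.2.1 = 1 := by
            rw [← mul_pow]; norm_num
          have h1 : 1 ≤ (10 / 9 : ℝ) ^ Nat.dist e.1 e.2.1 := one_le_pow₀ (by norm_num)
          have e2 : 3 / 10 ^ 8 * ((box I 1000).card : ℝ) * (9 ^ Nat.dist e.1 e.2.1 /
              10 ^ Nat.dist e.1 e.2.1 * p) * ((10 ^ 8) ^ 2 * (10 ^ Nat.dist e.1 e.2.1 /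
              9 ^ Nat.dist e.1 e.2.1) ^ 2 * mu e.1 e.2.1 (t0 e))
              = 3 * 10 ^ 8 * (10 / 9 : ℝ) ^ Nat.dist e.1 e.2.1 *
                (mu e.1 e.2.1 (t0 e) * p * (box I 1000).card) := by
            rw [div_pow (10 : ℝ) 9 (Nat.dist e.1 e.2.1)]; field_simp
          rw [e2]
          have h2 : 0 ≤ mu e.1 e.2.1 (t0 e) * p * (box I 1000).card := by positivity
          have h3 : mass U (Sset x e.1 (t0 e)) (Tset y e.2.1 (t0 e)) = mu e.1 e.2.1 (t0 e) := rfl
          rw [h3]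
          push_cast
          nlinarith
      have hsum := Finset.sum_le_sum (fun e (_ : e ∈ univ) => hpt e)
      rw [← Finset.mul_sum] at hsum
      have hc := cost_bound x y U L (H + 1) i
      have hconv : ∑ e : Fin L × Fin L × Fin (H + 1), ((9 / 10 : ℝ) ^ Nat.dist e.1 e.2.1 *
            (if i ∈ Sset x e.1 (t0 e) then ∑ j ∈ Tset y e.2.1 (t0 e), U j i ^ 2 else 0))
          = ∑ r ∈ range L, ∑ q ∈ range L, ∑ a ∈ range (H + 1), (9 / 10 : ℝ) ^ Nat.dist r q *
            (if i ∈ Sset x r (a * 2 ^ min r q) then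
              ∑ j ∈ Tset y q (a * 2 ^ min r q), U j i ^ 2 else 0) := by
        simp only [Fintype.sum_prod_type, t0, Finset.sum_range]
      rw [hconv] at hsum
      have hcard : (0 : ℝ) ≤ (box I 1000).card := Nat.cast_nonneg _
      have h1 := hU i
      have h2 : 3 / 10 ^ 8 * ((box I 1000).card : ℝ) * (∑ r ∈ range L, ∑ q ∈ range L,
          ∑ a ∈ range (H + 1), (9 / 10 : ℝ) ^ Nat.dist r q *
            (if i ∈ Sset x r (a * 2 ^ min r q) then
              ∑ j ∈ Tset y q (a * 2 ^ min r q), U j i ^ 2 else 0))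
          ≤ 3 / 10 ^ 8 * ((box I 1000).card : ℝ) * 360 := by
        apply mul_le_mul_of_nonneg_left _ (by positivity)
        linarith
      linarith
    · intro k c _
      simp only [hS, hT]
      refine (dom x y U ((htk k).trans hHL) (fun j => lt_of_le_of_lt (hy j) hHL) (hx k) (hy' k)
        c).trans (le_of_eq ?_)
      simp only [Fintype.sum_prod_type, Finset.sum_range]
    · intro k
      simp only [Finset.sum_range, Finset.sum_mul]
      rw [← Fintype.sum_prod_type']
      apply Finset.sum_le_sum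
      intro f _
      have h1 := box_rect U 1000 (Sset x f.1 (tk k)) (Tset y f.2 (tk k))
      have h3 : mu (φ k f).1 (φ k f).2.1 (t0 (φ k f)) = mu f.1 f.2 (tk k) := by
        simp only [mu, hS, hT]
      rw [h3]
      simp only [hS, hT]
      rw [mul_assoc (20 * (10 / 9 : ℝ) ^ Nat.dist f.1 f.2)]
      apply mul_le_mul_of_nonneg_left _ (by positivity)
      push_cast at h1
      simp only [φ, mu]
      linarith

end la

end H2PD
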