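import Crest.Agent.H2.PD4

set_option autoImplicit false

namespace H2PD

open Finset
open scoped RealInnerProductSpace

section dyn
variable {E : Type} [NormedAddCommGroup E] [InnerProductSpace ℝ E] (v : ℕ → E) (η : ℝ)

/-- damping step -/
noncomputable def Pj (j : ℕ) : E →L[ℝ] E :=
  ContinuousLinearMap.id ℝ E - η • (innerSL ℝ (v j)).smulRight (v j)

lemma Pj_apply (j : ℕ) (y : E) : Pj v η j y = y - (η * ⟪v j, y⟫) • v j := by
  simp [Pj, smul_smul]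

lemma Pj_symm (j : ℕ) (y z : E) : ⟪Pj v η j y, z⟫ = ⟪y, Pj v η j z⟫ := by
  rw [Pj_apply, Pj_apply, inner_sub_left, inner_sub_right, real_inner_smul_left,
    real_inner_smul_right, real_inner_comm (v j) y]
  ring

noncomputable def kap (j : ℕ) : ℝ := 2 * η - η ^ 2 * ‖v j‖ ^ 2

lemma Pj_norm_sq (j : ℕ) (y : E) : ‖Pj v η j y‖ ^ 2 = ‖y‖ ^ 2 - kap v η j * ⟪v j, y⟫ ^ 2 := by
  rw [Pj_apply, norm_sub_sq_real, real_inner_smul_right, norm_smul, mul_pow, Real.norm_eq_abs,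
    sq_abs, real_inner_comm (v j) y, kap]
  ring

variable {v η}

omit [InnerProductSpace ℝ E] in
lemma le_kap (hv : ∀ i, ‖v i‖ ≤ 1) (h0 : 0 < η) (h1 : η ≤ 1) (j : ℕ) : η ≤ kap v η j := by
  have h := hv j
  have h2 : ‖v j‖ ^ 2 ≤ 1 := by nlinarith [norm_nonneg (v j)]
  unfold kap
  nlinarith [mul_nonneg (sq_nonneg η) (sub_nonneg.2 h2)]

variable (v η)

/-- propagation from time `k` to time `l` -/
noncomputable def Fl (k : ℕ) : ℕ → (E →L[ℝ] E)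
  | 0 => ContinuousLinearMap.id ℝ E
  | (l + 1) => if l < k then ContinuousLinearMap.id ℝ E else (Pj v η l).comp (Fl k l)

lemma Fl_of_le {k l : ℕ} (h : l ≤ k) (y : E) : Fl v η k l y = y := by
  cases l with
  | zero => rfl
  | succ l => simp [Fl, show l < k by omega]

lemma Fl_succ {k l : ℕ} (h : k ≤ l) (y : E) : Fl v η k (l + 1) y = Pj v η l (Fl v η k l y) := by
  simp [Fl, show ¬ l < k by omega]

lemma Fl_comp {k l m : ℕ} (h1 : k ≤ l) (h2 : l ≤ m) (y : E) :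
    Fl v η l m (Fl v η k l y) = Fl v η k m y := by
  induction m, h2 using Nat.le_induction with
  | base => rw [Fl_of_le _ _ le_rfl]
  | succ m hm ih => rw [Fl_succ _ _ hm, ih, Fl_succ _ _ (h1.trans hm)]

lemma Fl_tele {k n : ℕ} (h : k ≤ n) (y : E) :
    ∑ l ∈ Ico k n, kap v η l * ⟪v l, Fl v η k l y⟫ ^ 2 + ‖Fl v η k n y‖ ^ 2 = ‖y‖ ^ 2 := by
  induction n, h using Nat.le_induction with
  | base => simp [Fl_of_le]
  | succ n hn ih => rw [Finset.sum_Ico_succ_top hn, Fl_succ _ _ hn, Pj_norm_sq]; linarith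

lemma Fl_rep {k n : ℕ} (h : k ≤ n) (y : E) :
    Fl v η k n y = y + ∑ l ∈ Ico k n, (-(η * ⟪v l, Fl v η k l y⟫)) • v l := by
  induction n, h using Nat.le_induction with
  | base => simp [Fl_of_le]
  | succ n hn ih =>
    rw [Finset.sum_Ico_succ_top hn, Fl_succ _ _ hn, Pj_apply, ← add_assoc, ← ih, neg_smul,
      sub_eq_add_neg]

variable {v η}

lemma Fl_norm_sq_le (hv : ∀ i, ‖v i‖ ≤ 1) (h0 : 0 < η) (h1 : η ≤ 1) (k n : ℕ) (y : E) :
    ‖Fl v η k n y‖ ^ 2 ≤ ‖y‖ ^ 2 := by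
  rcases le_total k n with h | h
  · have := Fl_tele v η h y
    have h2 : 0 ≤ ∑ l ∈ Ico k n, kap v η l * ⟪v l, Fl v η k l y⟫ ^ 2 :=
      Finset.sum_nonneg fun l _ => mul_nonneg (h0.le.trans (le_kap hv h0 h1 l)) (sq_nonneg _)
    linarith
  · rw [Fl_of_le _ _ h]

lemma Fl_norm_le (hv : ∀ i, ‖v i‖ ≤ 1) (h0 : 0 < η) (h1 : η ≤ 1) (k n : ℕ) (y : E) :
    ‖Fl v η k n y‖ ≤ ‖y‖ :=
  (pow_le_pow_iff_left₀ (norm_nonneg _) (norm_nonneg _) two_ne_zero).1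
    (Fl_norm_sq_le hv h0 h1 k n y)

lemma frame (hv : ∀ i, ‖v i‖ ≤ 1) (h0 : 0 < η) (h1 : η ≤ 1) (k : ℕ) (y : E) :
    ∑ i ∈ range k, ⟪y, Fl v η (i + 1) k (v i)⟫ ^ 2 ≤ ‖y‖ ^ 2 / η := by
  induction k generalizing y with
  | zero => simp; positivity
  | succ k ih =>
    rw [Finset.sum_range_succ, Fl_of_le _ _ le_rfl]
    have e : ∑ i ∈ range k, ⟪y, Fl v η (i + 1) (k + 1) (v i)⟫ ^ 2
        = ∑ i ∈ range k, ⟪Pj v η k y, Fl v η (i + 1) k (v i)⟫ ^ 2 := by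
      refine Finset.sum_congr rfl fun i hi => ?_
      rw [Fl_succ _ _ (by simpa using hi), Pj_symm]
    rw [e]
    have h2 := ih (Pj v η k y)
    rw [Pj_norm_sq] at h2
    have h3 := le_kap hv h0 h1 k
    rw [real_inner_comm]
    have h4 : (‖y‖ ^ 2 - kap v η k * ⟪v k, y⟫ ^ 2) / η + ⟪v k, y⟫ ^ 2 ≤ ‖y‖ ^ 2 / η := by
      rw [div_add' _ _ _ h0.ne', div_le_div_iff_of_pos_right h0]
      nlinarith [mul_nonneg (sub_nonneg.2 h3) (sq_nonneg ⟪v k, y⟫)]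
    linarith

lemma ctrl_sq (hv : ∀ i, ‖v i‖ ≤ 1) (h0 : 0 < η) (h1 : η ≤ 1) (k n : ℕ) (y : E) (hy : ‖y‖ ≤ 1) :
    ∑ l ∈ Ico k n, (-(η * ⟪v l, Fl v η k l y⟫)) ^ 2 ≤ η := by
  rcases le_total k n with h | h
  · have h2 := Fl_tele v η h y
    have h3 : ‖y‖ ^ 2 ≤ 1 := by nlinarith [norm_nonneg y]
    have h4 : ∑ l ∈ Ico k n, (-(η * ⟪v l, Fl v η k l y⟫)) ^ 2
        ≤ η * ∑ l ∈ Ico k n, kap v η l * ⟪v l, Fl v η k l y⟫ ^ 2 := by
      rw [Finset.mul_sum]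
      refine Finset.sum_le_sum fun l _ => ?_
      have := le_kap hv h0 h1 l
      nlinarith [mul_nonneg (mul_nonneg h0.le (sub_nonneg.2 this)) (sq_nonneg ⟪v l, Fl v η k l y⟫)]
    nlinarith [sq_nonneg ‖Fl v η k n y‖]
  · rw [Finset.Ico_eq_empty (by omega)]; simpa using h0.le

end dyn

section aux

lemma condensed (f : ℕ → ℝ) (h0 : ∀ s, 0 ≤ f s) (hf : ∀ s s', 1 ≤ s → s ≤ s' → f s' ≤ f s)
    (L : ℕ) : ∑ M ∈ range L, 2 ^ M * f (2 ^ M) ≤ 2 * ∑ s ∈ range (2 ^ L), f (s + 1) := by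
  have key : ∀ L, ∑ M ∈ range (L + 1), 2 ^ M * f (2 ^ M) ≤ 2 * ∑ s ∈ range (2 ^ L), f (s + 1) := by
    intro L
    induction L with
    | zero => simp; linarith [h0 1]
    | succ L ih =>
      rw [Finset.sum_range_succ, ← Finset.sum_range_add_sum_Ico _
        (show 2 ^ L ≤ 2 ^ (L + 1) from Nat.pow_le_pow_right two_pos (Nat.le_succ L))]
      have h : (2 : ℝ) ^ L * f (2 ^ (L + 1)) ≤ ∑ s ∈ Ico (2 ^ L) (2 ^ (L + 1)), f (s + 1) := by
        have := Finset.card_nsmul_le_sum (Ico (2 ^ L) (2 ^ (L + 1))) (fun s => f (s + 1))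
          (f (2 ^ (L + 1))) (fun s hs => hf _ _ (by omega) (by simp at hs; omega))
        rw [Nat.card_Ico, show 2 ^ (L + 1) - 2 ^ L = 2 ^ L by rw [pow_succ]; generalize 2 ^ L = a; omega, nsmul_eq_mul] at this
        exact_mod_cast this
      rw [pow_succ (2 : ℝ)]
      linarith
  refine le_trans ?_ (key L)
  rw [Finset.sum_range_succ]
  have := h0 (2 ^ L)
  have : 0 ≤ (2 : ℝ) ^ L * f (2 ^ L) := by positivity
  linarith

lemma sum_le_of_inj (s t : Finset ℕ) (φ : ℕ → ℕ) (F g : ℕ → ℝ) (hg : ∀ x, 0 ≤ g x)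
    (h : ∀ a ∈ s, F a ≠ 0 → φ a ∈ t ∧ F a = g (φ a))
    (hφ : ∀ a ∈ s, ∀ b ∈ s, F a ≠ 0 → F b ≠ 0 → φ a = φ b → a = b) :
    ∑ a ∈ s, F a ≤ ∑ x ∈ t, g x := by
  classical
  rw [← Finset.sum_filter_ne_zero s]
  have e : ∑ a ∈ s.filter (fun a => F a ≠ 0), F a
      = ∑ x ∈ (s.filter (fun a => F a ≠ 0)).image φ, g x := by
    rw [Finset.sum_image]
    · exact Finset.sum_congr rfl fun a ha => (h a (mem_filter.1 ha).1 (mem_filter.1 ha).2).2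
    · intro a ha b hb hab
      simp only [coe_filter, Set.mem_ofPred_eq] at ha hb
      exact hφ a ha.1 b hb.1 ha.2 hb.2 hab
  rw [e]
  refine Finset.sum_le_sum_of_subset_of_nonneg ?_ (fun x _ _ => hg x)
  intro x hx
  obtain ⟨a, ha, rfl⟩ := mem_image.1 hx
  exact (h a (mem_filter.1 ha).1 (mem_filter.1 ha).2).1

lemma sum_slots (st : ℕ → ℕ) (h0 : st 0 = 0) (hm : Monotone st) (g : ℕ → ℝ) (m : ℕ) :
    ∑ k ∈ range m, ∑ t ∈ Ico (st k) (st (k + 1)), g t = ∑ t ∈ range (st m), g t := by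
  induction m with
  | zero => simp [h0]
  | succ m ih =>
    rw [Finset.sum_range_succ, ih, Finset.sum_range_add_sum_Ico _ (hm (Nat.le_succ m))]

end aux

end H2PD
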