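import Crest.Agent.H2.PD5

set_option autoImplicit false

namespace H2PD

open Finset
open scoped RealInnerProductSpace

section dyn
variable {E : Type} [NormedAddCommGroup E] [InnerProductSpace ℝ E] [CompleteSpace E]
  {D : Type} [Fintype D] (b : OrthonormalBasis D ℝ E) (v : ℕ → E) (η : ℝ) (n : ℕ)

def tau (D : Type) (n : ℕ) : Fin n ⊕ D → ℕ := Sum.elim (fun j => (j : ℕ)) (fun _ => n)

omit [Fintype D] in
lemma tau_le (j : Fin n ⊕ D) : tau D n j ≤ n := by
  rcases j with j | j
  · exact j.2.le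
  · exact le_rfl

noncomputable def zz : Fin n ⊕ D → E := Sum.elim (fun j => √(kap v η j) • v j) b

noncomputable def aa (j : Fin n ⊕ D) (k : ℕ) : E :=
  ContinuousLinearMap.adjoint (Fl v η k (tau D n j)) (zz b v η n j)

noncomputable def UU (j : Fin n ⊕ D) (i : Fin n) : ℝ :=
  if (i : ℕ) < tau D n j then ⟪zz b v η n j, Fl v η (i + 1) (tau D n j) (v i)⟫ else 0

lemma aa_inner (j : Fin n ⊕ D) (k : ℕ) (y : E) :
    ⟪aa b v η n j k, y⟫ = ⟪zz b v η n j, Fl v η k (tau D n j) y⟫ :=
  ContinuousLinearMap.adjoint_inner_left _ _ _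

lemma UU_eq {j : Fin n ⊕ D} {i : Fin n} {k : ℕ} (h1 : (i : ℕ) < k) (h2 : k ≤ tau D n j) :
    UU b v η n j i = ⟪aa b v η n j k, Fl v η (i + 1) k (v i)⟫ := by
  rw [UU, if_pos (by omega), aa_inner, Fl_comp _ _ (by omega) h2]

variable {v η}

lemma parseval (hv : ∀ i, ‖v i‖ ≤ 1) (h0 : 0 < η) (h1 : η ≤ 1) {k : ℕ} (hk : k ≤ n) (y : E) :
    ∑ j ∈ univ.filter (fun j => k ≤ tau D n j), ⟪aa b v η n j k, y⟫ ^ 2 = ‖y‖ ^ 2 := by
  rw [Finset.sum_filter, Fintype.sum_sum_type, ← Fl_tele v η hk y]
  congr 1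
  · have e : ∀ j : Fin n, (if k ≤ tau D n (Sum.inl j) then ⟪aa b v η n (Sum.inl j) k, y⟫ ^ 2 else 0)
        = (fun l : ℕ => if k ≤ l then kap v η l * ⟪v l, Fl v η k l y⟫ ^ 2 else 0) j := by
      intro j
      simp only [aa_inner, tau, zz, Sum.elim_inl, real_inner_smul_left, mul_pow,
        Real.sq_sqrt (h0.le.trans (le_kap hv h0 h1 j))]
    rw [Finset.sum_congr rfl (fun j _ => e j), Fin.sum_univ_eq_sum_range
      (fun l : ℕ => if k ≤ l then kap v η l * ⟪v l, Fl v η k l y⟫ ^ 2 else 0) n,
      ← Finset.sum_filter]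
    congr 1
    ext l; simp [and_comm]
  · rw [← b.sum_sq_inner_right]
    refine Finset.sum_congr rfl fun j _ => ?_
    simp only [aa_inner, tau, zz, Sum.elim_inr, if_pos hk]

lemma aa_mono (hv : ∀ i, ‖v i‖ ≤ 1) (h0 : 0 < η) (h1 : η ≤ 1) {j : Fin n ⊕ D} {k k' : ℕ}
    (hk : k ≤ k') (hk' : k' ≤ tau D n j) : ‖aa b v η n j k‖ ^ 2 ≤ ‖aa b v η n j k'‖ ^ 2 := by
  have e : ‖aa b v η n j k‖ ^ 2 = ⟪aa b v η n j k', Fl v η k k' (aa b v η n j k)⟫ := by
    rw [← real_inner_self_eq_norm_sq, aa_inner, aa_inner, Fl_comp _ _ hk hk']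
  have h2 := real_inner_le_norm (aa b v η n j k') (Fl v η k k' (aa b v η n j k))
  have h3 := Fl_norm_le hv h0 h1 k k' (aa b v η n j k)
  have h4 := norm_nonneg (aa b v η n j k')
  have h5 := norm_nonneg (aa b v η n j k)
  nlinarith [mul_le_mul_of_nonneg_left h3 h4, sq_nonneg (‖aa b v η n j k‖ - ‖aa b v η n j k'‖)]

lemma trace_a (hv : ∀ i, ‖v i‖ ≤ 1) (h0 : 0 < η) (h1 : η ≤ 1) {k : ℕ} (hk : k ≤ n) :
    ∑ j ∈ univ.filter (fun j => k ≤ tau D n j), ‖aa b v η n j k‖ ^ 2 = Fintype.card D := by
  simp only [← b.sum_sq_inner_left (aa b v η n _ k)]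
  rw [Finset.sum_comm]
  simp only [parseval b n hv h0 h1 hk, b.orthonormal.1]
  simp

omit [CompleteSpace E] in
include b in
lemma trace_w (hv : ∀ i, ‖v i‖ ≤ 1) (h0 : 0 < η) (h1 : η ≤ 1) (k : ℕ) :
    ∑ i ∈ range k, ‖Fl v η (i + 1) k (v i)‖ ^ 2 ≤ Fintype.card D / η := by
  simp only [← b.sum_sq_inner_right (Fl v η (_ + 1) k (v _))]
  rw [Finset.sum_comm]
  calc _ ≤ ∑ j : D, ‖b j‖ ^ 2 / η := Finset.sum_le_sum fun j _ => frame hv h0 h1 k (b j)
    _ = _ := by simp [b.orthonormal.1, div_eq_mul_inv]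

omit [CompleteSpace E] in
lemma sum_fin_le (g : ℕ → ℝ) (hg : ∀ i, 0 ≤ g i) (S : Finset (Fin n)) (k : ℕ)
    (h : ∀ i ∈ S, (i : ℕ) < k) : ∑ i ∈ S, g i ≤ ∑ i ∈ range k, g i := by
  rw [← Finset.sum_image (s := S) (g := fun i : Fin n => (i : ℕ)) (f := g)
    (fun a _ c _ hac => Fin.ext hac)]
  refine Finset.sum_le_sum_of_subset_of_nonneg ?_ (fun i _ _ => hg i)
  intro x hx
  obtain ⟨a, ha, rfl⟩ := mem_image.1 hx
  exact mem_range.2 (h a ha)

include b in
theorem DYN1 (hv : ∀ i, ‖v i‖ ≤ 1) (h0 : 0 < η) (h1 : η ≤ 1) (st : ℕ → ℕ) (hst0 : st 0 = 0)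
    (hst : Monotone st) :
    ∃ Bud : ℕ → ℝ, (∀ t, 0 ≤ Bud t) ∧
      ∑ t ∈ range (st (n + 1)), Bud t ≤ 10 ^ 13 * (1 / η) * (2 * (st (n + 1) * (Fintype.card D / η))) ∧
      ∀ tk : Fin (n + 1) → ℕ, (∀ k : Fin (n + 1), st k + 3 ≤ tk k ∧ tk k + 3 ≤ st (k + 1)) →
        Good (box (Fin n) 1000) (fun i c => c + Pi.single i 6)
          (fun (k : Fin (n + 1)) c => ‖∑ i ∈ univ.filter (fun i : Fin n => (i : ℕ) < k),
            (c i : ℝ) • Fl v η (i + 1) k (v i)‖ ^ 2) (1 / 216) (fun k => Bud (tk k)) := by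
  classical
  set H := st (n + 1) with hH
  let tm : ℕ → ℕ := fun t => Nat.findGreatest (fun k => st k ≤ t) n
  have tm_le : ∀ t, tm t ≤ n := fun t => Nat.findGreatest_le n
  have tm_spec : ∀ t, st (tm t) ≤ t := fun t =>
    Nat.findGreatest_spec (P := fun k => st k ≤ t) (Nat.zero_le n) (by simp [hst0])
  have le_tm : ∀ t k, k ≤ n → st k ≤ t → k ≤ tm t := fun t k hk h => Nat.le_findGreatest hk h
  have tm_mono : ∀ t t', t ≤ t' → tm t ≤ tm t' := fun t t' h =>
    le_tm _ _ (tm_le t) ((tm_spec t).trans h)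
  have tm_lt : ∀ t k, t < st (k + 1) → tm t ≤ k := by
    intro t k h
    by_contra hc
    have := hst (show k + 1 ≤ tm t by omega)
    have := tm_spec t
    omega
  let x : Fin n → ℕ := fun i => st (i + 1)
  let y : Fin n ⊕ D → ℕ := fun j => st (tau D n j + 1)
  have hy : ∀ j, y j ≤ H := fun j => hst (Nat.succ_le_succ (tau_le n j))
  have x_tm : ∀ (i : Fin n) t, x i ≤ t → (i : ℕ) + 1 ≤ tm t := fun i t h => le_tm _ _ i.2 h
  let fA : Fin n → ℕ → ℝ := fun i s =>
    if x i + s < H then ‖Fl v η (i + 1) (tm (x i + s)) (v i)‖ ^ 2 else 0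
  let fB : Fin n ⊕ D → ℕ → ℝ := fun j s =>
    if s ≤ y j then ‖aa b v η n j (tm (y j - s))‖ ^ 2 else 0
  have hfA0 : ∀ i s, 0 ≤ fA i s := fun i s => by simp only [fA]; split_ifs <;> positivity
  have hfB0 : ∀ j s, 0 ≤ fB j s := fun j s => by simp only [fB]; split_ifs <;> positivity
  have wmono : ∀ (i : ℕ) k k', i + 1 ≤ k → k ≤ k' →
      ‖Fl v η (i + 1) k' (v i)‖ ^ 2 ≤ ‖Fl v η (i + 1) k (v i)‖ ^ 2 := by
    intro i k k' h2 h3
    rw [← Fl_comp v η h2 h3]
    exact Fl_norm_sq_le hv h0 h1 _ _ _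
  have hC1 : 1 ≤ 1 / η := by rw [le_div_iff₀ h0]; linarith
  have hd : (Fintype.card D : ℝ) ≤ Fintype.card D / η := by
    rw [le_div_iff₀ h0]
    exact mul_le_of_le_one_right (Nat.cast_nonneg _) h1
  have hLA := LA x y (UU b v η n) (fun M i => fA i (2 ^ M))
    (fun M j => fB j (2 ^ M)) (1 / η) (2 * (H * (Fintype.card D / η))) hC1
    (fun _ _ => hfA0 _ _) (fun _ _ => hfB0 _ _) ?_ ?_ ?_ H ?_ ?_ hy ?_
  · obtain ⟨Bud, hB0, hBs, hBg⟩ := hLA
    refine ⟨Bud, hB0, hBs, fun tk htk => ?_⟩
    have hx : ∀ (k : Fin (n + 1)) (i : Fin n), x i ≤ tk k ↔ (i : ℕ) < k := by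
      intro k i
      constructor
      · intro h
        by_contra hc
        have := hst (show (k : ℕ) + 1 ≤ i + 1 by omega)
        have := htk k
        simp only [x] at h
        omega
      · intro h
        have := hst (show (i : ℕ) + 1 ≤ k by omega)
        have := htk k
        simp only [x]
        omega
    have hy' : ∀ (k : Fin (n + 1)) j, tk k < y j ↔ (k : ℕ) ≤ tau D n j := by
      intro k j
      constructor
      · intro h
        by_contra hc
        have := hst (show tau D n j + 1 ≤ k by omega)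
        have := htk k
        simp only [y] at h
        omega
      · intro h
        have := hst (show (k : ℕ) + 1 ≤ tau D n j + 1 by omega)
        have := htk k
        simp only [y]
        omega
    have := hBg (Fin (n + 1)) tk ?_ ?_ ?_
    · convert this using 3 with k c
      unfold Qform rect
      simp only [hx, hy']
      rw [← parseval b n hv h0 h1 (show (k : ℕ) ≤ n by omega)]
      refine Finset.sum_congr rfl fun j hj => ?_
      rw [inner_sum]
      congr 1
      refine Finset.sum_congr rfl fun i hi => ?_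
      rw [UU_eq b v η n (mem_filter.1 hi).2 (mem_filter.1 hj).2, real_inner_smul_right, mul_comm]
    · intro k
      have := hst (show (k : ℕ) + 1 ≤ n + 1 by omega)
      have := htk k
      omega
    · intro k i h
      have := hst (show (i : ℕ) + 1 ≤ k from (hx k i).1 h)
      have := htk k
      simp only [x]
      omega
    · intro k j h
      have := hst (show (k : ℕ) + 1 ≤ tau D n j + 1 from Nat.succ_le_succ ((hy' k j).1 h))
      have := htk k
      simp only [y]
      omega
  · intro M i j h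
    have hp : 0 < 2 ^ M := by positivity
    have := hy j
    simp only [fA, fB, if_pos (show x i + 2 ^ M < H by omega), if_pos (show 2 ^ M ≤ y j by omega)]
    have k1 := x_tm i (x i + 2 ^ M) (by omega)
    have k2 := tm_lt (y j - 2 ^ M) (tau D n j) (by simp only [y] at h ⊢; omega)
    have k3 := tm_mono (x i + 2 ^ M) (y j - 2 ^ M) (by omega)
    rw [UU_eq b v η n (k := tm (y j - 2 ^ M)) (by omega) k2]
    have h2 := abs_real_inner_le_norm (aa b v η n j (tm (y j - 2 ^ M)))
      (Fl v η (i + 1) (tm (y j - 2 ^ M)) (v i))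
    have h3 := wmono i _ _ k1 k3
    calc _ ≤ (‖aa b v η n j (tm (y j - 2 ^ M))‖ * ‖Fl v η (i + 1) (tm (y j - 2 ^ M)) (v i)‖) ^ 2 := by
          rw [← sq_abs]; gcongr
      _ ≤ _ := by rw [mul_pow, mul_comm]; gcongr
  · intro M i
    have hp : 0 < 2 ^ M := by positivity
    by_cases hc : x i + 2 ^ M < H
    · simp only [fA, if_pos hc]
      have k1 := x_tm i (x i + 2 ^ M) (by omega)
      rw [← parseval b n hv h0 h1 (tm_le (x i + 2 ^ M))]
      have hsub : ∀ j ∈ univ.filter (fun j => x i + 2 * 2 ^ M < y j),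
          tm (x i + 2 ^ M) ≤ tau D n j := by
        intro j hj
        have := (mem_filter.1 hj).2
        exact tm_lt _ _ (by simp only [y] at this; omega)
      rw [Finset.sum_congr rfl (fun j hj => by
        rw [UU_eq b v η n (k := tm (x i + 2 ^ M)) (by omega) (hsub j hj)])]
      exact Finset.sum_le_sum_of_subset_of_nonneg (fun j hj => by simpa using hsub j hj)
        (fun _ _ _ => sq_nonneg _)
    · rw [Finset.filter_eq_empty_iff.2 (fun j _ => by have := hy j; omega)]
      simpa using hfA0 _ _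
  · intro M j
    have hp : 0 < 2 ^ M := by positivity
    by_cases hc : 2 ^ M ≤ y j
    · simp only [fB, if_pos hc]
      have k2 := tm_lt (y j - 2 ^ M) (tau D n j) (by simp only [y] at hc ⊢; omega)
      have hsub : ∀ i ∈ univ.filter (fun i => x i + 2 * 2 ^ M < y j),
          (i : ℕ) < tm (y j - 2 ^ M) := by
        intro i hi
        have := (mem_filter.1 hi).2
        exact x_tm _ _ (by omega)
      rw [Finset.sum_congr rfl (fun i hi => by rw [UU_eq b v η n (hsub i hi) k2])]
      refine (sum_fin_le n (fun i => ⟪aa b v η n j (tm (y j - 2 ^ M)),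
        Fl v η (i + 1) (tm (y j - 2 ^ M)) (v i)⟫ ^ 2) (fun _ => sq_nonneg _) _ _ hsub).trans ?_
      refine (frame hv h0 h1 _ _).trans (le_of_eq ?_)
      ring
    · rw [Finset.filter_eq_empty_iff.2 (fun i _ => by omega)]
      have := hfB0 j (2 ^ M)
      simp only [sum_empty]
      positivity
  · intro L
    simp only [Finset.mul_sum]
    rw [Finset.sum_comm]
    let g : Fin n → ℕ → ℝ := fun i t => if x i ≤ t then ‖Fl v η (i + 1) (tm t) (v i)‖ ^ 2 else 0
    calc _ ≤ ∑ i : Fin n, 2 * ∑ t ∈ range H, g i t := by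
          refine Finset.sum_le_sum fun i _ => (condensed (fA i) (hfA0 i) ?_ L).trans ?_
          · intro s s' _ hs
            simp only [fA]
            split_ifs with h2 h3 h3
            · exact wmono i _ _ (x_tm _ _ (by omega)) (tm_mono _ _ (by omega))
            · omega
            · positivity
            · exact le_rfl
          · gcongr
            refine sum_le_of_inj _ _ (fun s => x i + (s + 1)) _ _ ?_ ?_ ?_
            · intro t; simp only [g]; split_ifs <;> positivity
            · intro s _ hs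
              have : x i + (s + 1) < H := by
                by_contra hc; exact hs (by simp only [fA, if_neg hc])
              refine ⟨mem_range.2 this, ?_⟩
              simp only [fA, g, if_pos this, if_pos (show x i ≤ x i + (s + 1) by omega)]
            · intro s _ s' _ _ _ h; omega
      _ = 2 * ∑ t ∈ range H, ∑ i : Fin n, g i t := by rw [← Finset.mul_sum, Finset.sum_comm]
      _ ≤ 2 * ∑ t ∈ range H, (Fintype.card D / η) := by
          gcongr with t ht
          simp only [g]
          rw [← Finset.sum_filter]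
          exact (sum_fin_le n (fun i => ‖Fl v η (i + 1) (tm t) (v i)‖ ^ 2) (fun _ => sq_nonneg _)
            _ (tm t) (fun i hi => x_tm _ _ (mem_filter.1 hi).2)).trans (trace_w b hv h0 h1 _)
      _ = _ := by simp
  · intro L
    simp only [Finset.mul_sum]
    rw [Finset.sum_comm]
    let g : Fin n ⊕ D → ℕ → ℝ := fun j t => if t < y j then ‖aa b v η n j (tm t)‖ ^ 2 else 0
    calc _ ≤ ∑ j : Fin n ⊕ D, 2 * ∑ t ∈ range H, g j t := by
          refine Finset.sum_le_sum fun j _ => (condensed (fB j) (hfB0 j) ?_ L).trans ?_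
          · intro s s' hs1 hs
            simp only [fB]
            split_ifs with h2 h3 h3
            · exact aa_mono b n hv h0 h1 (tm_mono _ _ (by omega))
                (tm_lt _ _ (by simp only [y] at h3 ⊢; omega))
            · omega
            · positivity
            · exact le_rfl
          · gcongr
            refine sum_le_of_inj _ _ (fun s => y j - (s + 1)) _ _ ?_ ?_ ?_
            · intro t; simp only [g]; split_ifs <;> positivity
            · intro s _ hs
              have : s + 1 ≤ y j := by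
                by_contra hc; exact hs (by simp only [fB, if_neg hc])
              have h5 := hy j
              refine ⟨mem_range.2 (by omega), ?_⟩
              simp only [fB, g, if_pos this, if_pos (show y j - (s + 1) < y j by omega)]
            · intro s _ s' _ hs hs' h
              have : s + 1 ≤ y j := by
                by_contra hc; exact hs (by simp only [fB, if_neg hc])
              have : s' + 1 ≤ y j := by
                by_contra hc; exact hs' (by simp only [fB, if_neg hc])
              omega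
      _ = 2 * ∑ t ∈ range H, ∑ j, g j t := by rw [← Finset.mul_sum, Finset.sum_comm]
      _ ≤ 2 * ∑ t ∈ range H, (Fintype.card D / η) := by
          gcongr with t ht
          simp only [g]
          rw [← Finset.sum_filter]
          refine le_trans ?_ hd
          rw [← trace_a b n hv h0 h1 (tm_le t)]
          exact Finset.sum_le_sum_of_subset_of_nonneg
            (fun j hj => by simpa using tm_lt _ _ (mem_filter.1 hj).2) (fun _ _ _ => sq_nonneg _)
      _ = _ := by simp
  · intro i
    have h2 := parseval b n hv h0 h1 (show (i : ℕ) + 1 ≤ n from i.2) (v i)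
    have h3 : ∑ j, UU b v η n j i ^ 2 = ‖v i‖ ^ 2 := by
      rw [← h2, Finset.sum_filter]
      refine Finset.sum_congr rfl fun j _ => ?_
      split_ifs with h
      · rw [UU_eq b v η n (Nat.lt_succ_self _) h, Fl_of_le _ _ le_rfl]
      · rw [UU, if_neg (by omega)]; simp
    rw [h3]
    have := hv i
    nlinarith [norm_nonneg (v i)]

end dyn

end H2PD
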