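import Crest.Agent.H2.PD6

set_option autoImplicit false

namespace H2PD

open Finset
open scoped RealInnerProductSpace

section dyn
variable {E : Type} [NormedAddCommGroup E] [InnerProductSpace ℝ E] [CompleteSpace E]
  {D : Type} [Fintype D] (b : OrthonormalBasis D ℝ E) {v : ℕ → E} {η : ℝ} (n : ℕ)

include b in
theorem DYN2 (hv : ∀ i, ‖v i‖ ≤ 1) (h0 : 0 < η) (h1 : η ≤ 1) :
    Good (box (Fin n) 1000) (fun i c => c + Pi.single i 6)
      (fun (k : Fin (n + 1)) c => ‖∑ i ∈ univ.filter (fun i : Fin n => (i : ℕ) < k),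
        (c i : ℝ) • Fl v η (i + 1) k (v i)‖ ^ 2) (1 / 216)
      (fun _ => 24 * 10 ^ 13 * Fintype.card D / η ^ 2 + 1) := by
  obtain ⟨ρ, hρ, hρ'⟩ := sep_box _ (convex_good (box (Fin n) 1000) (fun i c => c + Pi.single i 6)
      (fun (k : Fin (n + 1)) c => ‖∑ i ∈ univ.filter (fun i : Fin n => (i : ℕ) < k),
        (c i : ℝ) • Fl v η (i + 1) k (v i)‖ ^ 2) (1 / 216))
      (24 * 10 ^ 13 * Fintype.card D / η ^ 2) (by
    intro β hβ0 hβ1
    let β' : ℕ → ℝ := fun k => if h : k < n + 1 then β ⟨k, h⟩ else 0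
    have hβ' : ∀ k : Fin (n + 1), β' k = β k := fun k => dif_pos k.2
    have hβ'0 : ∀ k, 0 ≤ β' k := fun k => by simp only [β']; split_ifs; exacts [hβ0 _, le_rfl]
    let N : ℕ → ℕ := fun k => ⌊((n : ℝ) + 1) * β' k⌋₊ + 1
    have hN1 : ∀ k, 1 ≤ N k := fun k => Nat.le_add_left _ _
    have hNl : ∀ k, ((n : ℝ) + 1) * β' k ≤ N k := fun k => by
      simp only [N]; push_cast; exact (Nat.lt_floor_add_one _).le
    have hNu : ∀ k, (N k : ℝ) ≤ ((n : ℝ) + 1) * β' k + 1 := fun k => by
      simp only [N]; push_cast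
      have := Nat.floor_le (show 0 ≤ ((n : ℝ) + 1) * β' k by have := hβ'0 k; positivity)
      linarith
    let st : ℕ → ℕ := fun k => 6 * ∑ l ∈ range k, N l
    have hst0 : st 0 = 0 := by simp [st]
    have hsts : ∀ k, st (k + 1) = st k + 6 * N k := fun k => by
      simp only [st, Finset.sum_range_succ]; ring
    have hst : Monotone st := monotone_nat_of_le_succ fun k => by rw [hsts]; omega
    have hH : (st (n + 1) : ℝ) ≤ 12 * (n + 1) := by
      simp only [st]; push_cast
      have h2 : ∑ l ∈ range (n + 1), (N l : ℝ) ≤ ∑ l ∈ range (n + 1), (((n : ℝ) + 1) * β' l + 1) :=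
        Finset.sum_le_sum fun l _ => hNu l
      rw [Finset.sum_add_distrib, ← Finset.mul_sum, ← Fin.sum_univ_eq_sum_range β'] at h2
      simp only [hβ', hβ1] at h2
      simp at h2
      linarith
    obtain ⟨Bud, hB0, hBs, hBg⟩ := DYN1 b n hv h0 h1 st hst0 hst
    have hex : ∀ k, ∃ t ∈ Ico (st k + 3) (st k + 3 + N k),
        ∀ t' ∈ Ico (st k + 3) (st k + 3 + N k), Bud t ≤ Bud t' := fun k =>
      Finset.exists_min_image _ _ ⟨st k + 3, by have := hN1 k; simp; omega⟩
    choose tk htk hmin using hex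
    refine ⟨_, hBg (fun k => tk k) (fun k => ?_), ?_⟩
    · have := htk k
      have := hN1 k
      rw [hsts]
      simp only [mem_Ico] at *
      omega
    · have h2 : ∀ k, ((n : ℝ) + 1) * (β' k * Bud (tk k)) ≤ ∑ t ∈ Ico (st k) (st (k + 1)), Bud t := by
        intro k
        have h3 := Finset.card_nsmul_le_sum _ Bud _ (hmin k)
        rw [Nat.card_Ico, show st k + 3 + N k - (st k + 3) = N k by omega, nsmul_eq_mul] at h3
        have h4 : ∑ t ∈ Ico (st k + 3) (st k + 3 + N k), Bud t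
            ≤ ∑ t ∈ Ico (st k) (st (k + 1)), Bud t := by
          refine Finset.sum_le_sum_of_subset_of_nonneg (Finset.Ico_subset_Ico (by omega) ?_)
            (fun t _ _ => hB0 t)
          have := hN1 k
          rw [hsts]; omega
        have h5 := mul_le_mul_of_nonneg_right (hNl k) (hB0 (tk k))
        linarith
      have h3 := Finset.sum_le_sum (fun k (_ : k ∈ range (n + 1)) => h2 k)
      rw [sum_slots st hst0 hst, ← Finset.mul_sum,
        ← Fin.sum_univ_eq_sum_range (fun k => β' k * Bud (tk k))] at h3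
      simp only [hβ'] at h3
      have h4 : 10 ^ 13 * (1 / η) * (2 * (st (n + 1) * (Fintype.card D / η)))
          ≤ ((n : ℝ) + 1) * (24 * 10 ^ 13 * Fintype.card D / η ^ 2) := by
        calc _ ≤ 10 ^ 13 * (1 / η) * (2 * ((12 * (n + 1)) * (Fintype.card D / η))) := by gcongr
          _ = _ := by field_simp; ring
      exact le_of_mul_le_mul_left (h3.trans (hBs.trans h4)) (by positivity))
  exact Good.mono hρ hρ'

/-- prefix vector -/
def ee (v : ℕ → E) (n : ℕ) (j : ℕ) : Fin (n + 1) → E := fun k => if j < k then v j else 0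

include b in
theorem DYN (hv : ∀ i, ‖v i‖ ≤ 1) (h0 : 0 < η) (h1 : η ≤ 1) :
    ∃ u : ℕ → ℕ → ℝ, (∀ i j, j ≤ i → u i j = 0) ∧ (∀ i, ∑ j ∈ range n, u i j ^ 2 ≤ η) ∧
    Good (box (Fin n) 1000) (fun i c => c + Pi.single i 6)
      (fun (k : Fin (n + 1)) c => ‖(∑ i : Fin n,
        (c i : ℝ) • (ee v n i + ∑ j ∈ range n, u i j • ee v n j)) k‖ ^ 2) (1 / 216)
      (fun _ => 24 * 10 ^ 13 * Fintype.card D / η ^ 2 + 1) := by
  refine ⟨fun i j => if i < j then -(η * ⟪v j, Fl v η (i + 1) j (v i)⟫) else 0,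
    fun i j h => if_neg (by omega), fun i => ?_, ?_⟩
  · refine le_trans (le_of_eq ?_) (ctrl_sq hv h0 h1 (i + 1) n (v i) (hv i))
    have : Ico (i + 1) n = (range n).filter (fun j => i < j) := by ext j; simp [and_comm]
    rw [this, Finset.sum_filter]
    refine Finset.sum_congr rfl fun j _ => ?_
    by_cases h : i < j <;> simp [h]
  · convert DYN2 b n hv h0 h1 using 4 with k c
    rw [Finset.sum_apply, Finset.sum_filter]
    congr 1
    refine Finset.sum_congr rfl fun i _ => ?_
    simp only [Pi.smul_apply, Pi.add_apply, Finset.sum_apply, ee]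
    split_ifs with h
    · congr 1
      rw [Fl_rep v η (show (i : ℕ) + 1 ≤ k from h)]
      congr 1
      have : Ico ((i : ℕ) + 1) k = (range n).filter (fun j => (i : ℕ) < j ∧ j < k) := by
        ext j; have := k.2; simp; omega
      rw [this, Finset.sum_filter]
      refine Finset.sum_congr rfl fun j _ => ?_
      by_cases h2 : (i : ℕ) < j <;> by_cases h3 : j < k <;> simp [h2, h3]
    · rw [Finset.sum_eq_zero, add_zero, smul_zero]
      intro j _
      by_cases h2 : (i : ℕ) < j
      · rw [if_neg (show ¬ j < k by omega), smul_zero]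
      · rw [if_neg h2, zero_smul]

end dyn

end H2PD
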