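import Crest.Agent.H2.PD4

set_option autoImplicit false

namespace H2PD

open Finset

lemma tent (a : ℕ) (ha : 1 ≤ a) : ∃ τ : ℤ → ℝ, (∀ k, 0 ≤ τ k) ∧
    (∀ k, τ k ≠ 0 → k ∈ Icc (-((2 * a : ℕ) : ℤ)) ((2 * a : ℕ) : ℤ)) ∧ (∀ k, τ (-k) = τ k) ∧
    ∑ k ∈ Icc (-((2 * a : ℕ) : ℤ)) ((2 * a : ℕ) : ℤ), τ k ^ 2 = 1 ∧
    ∀ t : ℤ, ∑ k ∈ Icc (-((2 * a : ℕ) : ℤ)) ((2 * a : ℕ) : ℤ), τ (k - t) * τ k ≤ 1 ∧
      1 - ∑ k ∈ Icc (-((2 * a : ℕ) : ℤ)) ((2 * a : ℕ) : ℤ), τ (k - t) * τ k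
        ≤ 3 * (t : ℝ) ^ 2 / (a : ℝ) ^ 2 := by
  set A : ℤ := ((2 * a : ℕ) : ℤ) with hA
  have hA' : (A : ℝ) = 2 * a := by simp [hA]
  have ha' : (1 : ℝ) ≤ a := by exact_mod_cast ha
  let g : ℤ → ℝ := fun k => max ((A : ℝ) - |(k : ℝ)|) 0
  have hg0 : ∀ k, 0 ≤ g k := fun k => le_max_right _ _
  have hgs : ∀ k, g k ≠ 0 → k ∈ Icc (-A) A := by
    intro k hk
    by_contra hc
    apply hk
    apply max_eq_right
    have : A ≤ |k| := by
      simp only [mem_Icc, not_and_or, not_le] at hc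
      rcases hc with h | h
      · exact le_abs.2 (Or.inr (by omega))
      · exact le_abs.2 (Or.inl (by omega))
    have : (A : ℝ) ≤ |(k : ℝ)| := by exact_mod_cast this
    linarith
  set Z : ℝ := ∑ k ∈ Icc (-A) A, g k ^ 2 with hZ
  have hZl : 2 * (a : ℝ) ^ 3 ≤ Z := by
    have h1 : ∑ k ∈ Icc (-(a : ℤ)) a, g k ^ 2 ≤ Z :=
      Finset.sum_le_sum_of_subset_of_nonneg (Finset.Icc_subset_Icc (by omega) (by omega))
        (fun _ _ _ => sq_nonneg _)
    have h2 := Finset.card_nsmul_le_sum (Icc (-(a : ℤ)) a) (fun k => g k ^ 2) ((a : ℝ) ^ 2)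
      (fun k hk => by
        have h3 : |k| ≤ a := abs_le.2 (mem_Icc.1 hk)
        have h4 : |(k : ℝ)| ≤ a := by exact_mod_cast h3
        have h5 : (a : ℝ) ≤ g k := le_max_of_le_left (by linarith)
        gcongr)
    rw [Int.card_Icc, show ((a : ℤ) + 1 - -(a : ℤ)).toNat = 2 * a + 1 by omega, nsmul_eq_mul] at h2
    push_cast at h2
    nlinarith
  have hZ0 : 0 < Z := lt_of_lt_of_le (by positivity) hZl
  have hsq : √Z ^ 2 = Z := Real.sq_sqrt hZ0.le
  have hsZ : 0 < √Z := Real.sqrt_pos.2 hZ0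
  have hτs : ∀ k, g k / √Z ≠ 0 → k ∈ Icc (-A) A := fun k hk => hgs k (by
    intro h; exact hk (by simp [h]))
  have hone : ∑ k ∈ Icc (-A) A, (g k / √Z) ^ 2 = 1 := by
    simp only [div_pow, hsq]
    rw [← Finset.sum_div, div_self hZ0.ne']
  refine ⟨fun k => g k / √Z, fun k => div_nonneg (hg0 k) hsZ.le, hτs, fun k => by simp [g], hone,
    fun t => ?_⟩
  let S' := Icc (-A) A ∪ Icc (t + -A) (t + A)
  have e1 : ∑ k ∈ S', (g k / √Z) ^ 2 = 1 := by
    rw [← hone]
    symm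
    refine Finset.sum_subset subset_union_left fun k _ hk => ?_
    by_contra hc
    exact hk (hτs k (by intro h; exact hc (by simp [h])))
  have e2 : ∑ k ∈ S', (g (k - t) / √Z) ^ 2 = 1 := by
    have : ∑ k ∈ Icc (t + -A) (t + A), (g (k - t) / √Z) ^ 2 = 1 := by
      rw [← hone, ← Finset.map_add_left_Icc, Finset.sum_map]
      simp
    rw [← this]
    symm
    refine Finset.sum_subset subset_union_right fun k _ hk => ?_
    by_contra hc
    have := hτs (k - t) (by intro h; exact hc (by simp [h]))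
    apply hk
    simp only [mem_Icc] at this ⊢
    omega
  have e3 : ∑ k ∈ Icc (-A) A, g (k - t) / √Z * (g k / √Z)
      = ∑ k ∈ S', g (k - t) / √Z * (g k / √Z) := by
    refine Finset.sum_subset subset_union_left fun k _ hk => ?_
    by_contra hc
    exact hk (hτs k (by intro h; exact hc (by simp [h])))
  have e4 : ∑ k ∈ S', (g (k - t) / √Z - g k / √Z) ^ 2
      = 2 - 2 * ∑ k ∈ S', g (k - t) / √Z * (g k / √Z) := by
    have : ∀ k, (g (k - t) / √Z - g k / √Z) ^ 2
        = (g (k - t) / √Z) ^ 2 + (g k / √Z) ^ 2 - 2 * (g (k - t) / √Z * (g k / √Z)) := by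
      intro k; ring
    simp only [this, Finset.sum_sub_distrib, Finset.sum_add_distrib, e1, e2, ← Finset.mul_sum]
    norm_num
  have e5 : 0 ≤ ∑ k ∈ S', (g (k - t) / √Z - g k / √Z) ^ 2 := Finset.sum_nonneg fun _ _ => sq_nonneg _
  have e6 := Finset.sum_le_card_nsmul S' (fun k => (g (k - t) / √Z - g k / √Z) ^ 2)
    ((t : ℝ) ^ 2 / Z) (fun k _ => by
      rw [← sub_div, div_pow, hsq]
      refine div_le_div_of_nonneg_right ?_ hZ0.le
      rw [← sq_abs, ← sq_abs (t : ℝ)]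
      have h1 : |g (k - t) - g k| ≤ |(t : ℝ)| := by
        refine (abs_max_sub_max_le_abs _ _ _).trans ?_
        push_cast
        have := abs_abs_sub_abs_le_abs_sub (k : ℝ) (k - t)
        rw [show (k : ℝ) - (k - t) = t by ring] at this
        rw [show (A : ℝ) - |(k : ℝ) - t| - (A - |(k : ℝ)|) = |(k : ℝ)| - |(k : ℝ) - t| by ring]
        exact this
      gcongr)
  have e7 : (S'.card : ℝ) ≤ 10 * a := by
    have : S'.card ≤ 10 * a := by
      refine (Finset.card_union_le _ _).trans ?_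
      rw [Int.card_Icc, Int.card_Icc]
      omega
    exact_mod_cast this
  rw [nsmul_eq_mul] at e6
  have e8 : (S'.card : ℝ) * ((t : ℝ) ^ 2 / Z) ≤ 2 * (3 * (t : ℝ) ^ 2 / (a : ℝ) ^ 2) := by
    calc _ ≤ (10 * a) * ((t : ℝ) ^ 2 / (2 * (a : ℝ) ^ 3)) := by gcongr
      _ = 5 * ((t : ℝ) ^ 2 / (a : ℝ) ^ 2) := by field_simp; ring
      _ ≤ _ := by
        have : 0 ≤ (t : ℝ) ^ 2 / (a : ℝ) ^ 2 := by positivity
        rw [mul_div_assoc]; linarith
  rw [e3]
  constructor <;> linarith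

lemma box_bdry {I : Type} [Fintype I] [DecidableEq I] (i : I) :
    (((box I 1000).filter (fun c => ¬ (c + Pi.single i 6 ∈ box I 1000))).card : ℝ)
      ≤ 1 / 216 * (box I 1000).card := by
  have h1 : (box I 1000).filter (fun c => ¬ (c + Pi.single i 6 ∈ box I 1000)) ⊆
      Fintype.piFinset (fun j : I => if j = i then Icc (995 : ℤ) 1000 else Icc (-1000) 1000) := by
    intro c hc
    rw [mem_filter, mem_box, mem_box] at hc
    rw [Fintype.mem_piFinset]
    intro j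
    obtain ⟨h1, h2⟩ := hc
    split_ifs with h
    · subst h
      by_contra h3
      apply h2
      intro l
      have := h1 l
      by_cases hl : l = j
      · subst hl
        simp only [mem_Icc] at h3
        simp only [Pi.add_apply, Pi.single_eq_same]
        push_cast at this ⊢
        omega
      · simpa [Pi.single_eq_of_ne hl] using this
    · simpa using h1 j
  have h2 := Finset.card_le_card h1
  rw [Fintype.card_piFinset, Fintype.prod_eq_mul_prod_compl i, if_pos rfl] at h2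
  have h3 : (box I 1000).card = 2001 * ∏ j ∈ ({i}ᶜ : Finset I),
      (if j = i then Icc (995 : ℤ) 1000 else Icc (-1000) 1000).card := by
    rw [box, Fintype.card_piFinset, Fintype.prod_eq_mul_prod_compl i]
    refine congrArg₂ (· * ·) (by rw [Int.card_Icc]; omega) ?_
    refine Finset.prod_congr rfl fun j hj => ?_
    rw [if_neg (by simpa using hj)]
    norm_num
  rw [h3]
  have h4 : (Icc (995 : ℤ) 1000).card = 6 := by rw [Int.card_Icc]; rfl
  rw [h4] at h2
  have h5 := (Nat.cast_le (α := ℝ)).2 h2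
  push_cast at h5 ⊢
  have : (0 : ℝ) ≤ ∏ j ∈ ({i}ᶜ : Finset I),
      ((if j = i then Icc (995 : ℤ) 1000 else Icc (-1000) 1000).card : ℝ) := by positivity
  linarith

end H2PD
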