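import Crest.Agent.H2.PD1
import Crest.Agent.H2.PD7
import Crest.Agent.H2.PD8

set_option autoImplicit false

namespace H2PD

open Finset Function

variable {E : Type} [NormedAddCommGroup E] [NormedSpace ℝ E]

lemma convex_K (n : ℕ) :
    Convex ℝ {z : (Fin (n + 1) → E) × (Fin (n + 1) → ℝ) | ∀ k, ‖z.1 k‖ ^ 2 ≤ z.2 k} := by
  intro z hz w hw s t hs ht hst k
  have h1 := hz k
  have h2 := hw k
  simp only [Prod.fst_add, Prod.smul_fst, Pi.add_apply, Pi.smul_apply, Prod.snd_add,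
    Prod.smul_snd, smul_eq_mul]
  have h3 : ‖s • z.1 k + t • w.1 k‖ ≤ s * ‖z.1 k‖ + t * ‖w.1 k‖ := by
    refine (norm_add_le _ _).trans ?_
    rw [norm_smul, norm_smul, Real.norm_of_nonneg hs, Real.norm_of_nonneg ht]
  have h4 : (s * ‖z.1 k‖ + t * ‖w.1 k‖) ^ 2 ≤ s * ‖z.1 k‖ ^ 2 + t * ‖w.1 k‖ ^ 2 := by
    obtain rfl : t = 1 - s := by linarith
    nlinarith [mul_nonneg (mul_nonneg hs ht) (sq_nonneg (‖z.1 k‖ - ‖w.1 k‖))]
  calc _ ≤ (s * ‖z.1 k‖ + t * ‖w.1 k‖) ^ 2 := by gcongr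
    _ ≤ _ := h4
    _ ≤ _ := by gcongr

theorem FINAL (n : ℕ) (ee : ℕ → Fin (n + 1) → E) (hee : ∀ i k, ‖ee i k‖ ≤ 1) (u : ℕ → ℕ → ℝ)
    (hu0 : ∀ i j, j ≤ i → u i j = 0) (hu : ∀ i, ∑ j ∈ range n, u i j ^ 2 ≤ 1 / 10 ^ 7) (R : ℝ)
    (hG : Good (box (Fin n) 1000) (fun i c => c + Pi.single i 6)
      (fun (k : Fin (n + 1)) c => ‖(∑ i : Fin n,
        (c i : ℝ) • (ee i + ∑ j ∈ range n, u i j • ee j)) k‖ ^ 2) (1 / 216) (fun _ => R)) :
    ∃ ε : ℕ → ℝ, (∀ i, ε i = 1 ∨ ε i = -1) ∧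
      ∀ k : Fin (n + 1), ‖(∑ i ∈ range n, ε i • ee i) k‖ ^ 2 ≤ 2 * R + 2 := by
  classical
  obtain ⟨Ω, _, a, r, ha0, ha1, hsh, hsupp, hmean⟩ := hG
  set B := box (Fin n) 1000 with hB
  have hβ : (0 : ℝ) < B.card := by
    have : B.Nonempty := ⟨0, mem_box.2 (by simp)⟩
    exact_mod_cast this.card_pos
  have hsβ : √(B.card : ℝ) ^ 2 = B.card := Real.sq_sqrt hβ.le
  obtain ⟨a0, ha01, ha0R⟩ : ∃ a0 : ℕ, 1 ≤ a0 ∧ (a0 : ℝ) = 10 ^ 6 * ((n : ℝ) + 1) ^ 2 :=
    ⟨10 ^ 6 * (n + 1) ^ 2, Nat.succ_le_of_lt (by positivity), by push_cast; ring⟩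
  have ha0pos : (0 : ℝ) < a0 := by exact_mod_cast ha01
  obtain ⟨τ, hτ0, hτs, hτe, hτ1, hτa⟩ := tent a0 ha01
  set BA := box (Fin n) (2 * a0) with hBA
  obtain ⟨h, hh⟩ : ∃ h : ℝ, h = 1 / (4 * a0) := ⟨_, rfl⟩
  have hh0 : 0 < h := by rw [hh]; positivity
  let ν : ℕ → ℕ → ℤ := fun i j => ⌊u i j / h⌋
  have hν : ∀ i j, |h * ν i j - u i j| ≤ h := by
    intro i j
    have h1 := Int.floor_le (u i j / h)
    have h2 := Int.lt_floor_add_one (u i j / h)
    rw [le_div_iff₀ hh0] at h1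
    rw [div_lt_iff₀ hh0] at h2
    simp only [ν]
    rw [abs_le]; constructor <;> nlinarith
  let ψ : (Fin n → ℤ) → ℝ := fun ξ => ∏ j, τ (ξ j)
  have hψs : ∀ ξ, ψ ξ ≠ 0 → ξ ∈ BA := by
    intro ξ hξ
    rw [hBA, box, Fintype.mem_piFinset]
    intro j
    exact hτs _ (Finset.prod_ne_zero_iff.1 hξ j (mem_univ _))
  have hψ1 : ∑ ξ ∈ BA, ψ ξ ^ 2 = 1 := by
    simp only [ψ, ← Finset.prod_pow]
    rw [hBA, box, ← Finset.prod_univ_sum (fun _ : Fin n => Icc (-((2 * a0 : ℕ) : ℤ)) (2 * a0 : ℕ))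
      (fun _ k => τ k ^ 2)]
    simp only [hτ1, prod_const_one]
  let g : (Fin n → ℤ) → Ω → ℝ := fun c ω => if c ∈ B then a c ω / √(B.card : ℝ) else 0
  let f : (((Fin n → ℤ) × (Fin n → ℤ)) × Ω) → ℝ := fun x => g x.1.1 x.2 * ψ x.1.2
  let S : Finset (((Fin n → ℤ) × (Fin n → ℤ)) × Ω) := (B ×ˢ BA) ×ˢ univ
  have hfS : ∀ x, f x ≠ 0 → x.1.1 ∈ B ∧ x.1.2 ∈ BA ∧ a x.1.1 x.2 ≠ 0 := by
    intro x hx
    have h1 := left_ne_zero_of_mul hx
    have h2 := right_ne_zero_of_mul hx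
    have h3 : x.1.1 ∈ B := by by_contra hc; exact h1 (if_neg hc)
    refine ⟨h3, hψs _ h2, fun h4 => h1 ?_⟩
    simp [g, h4]
  have hfs : ∀ (M : Type) [AddCommMonoid M] (F : (((Fin n → ℤ) × (Fin n → ℤ)) × Ω) → M), (∀ x, f x = 0 → F x = 0) →
      ∑ᶠ x, F x = ∑ x ∈ S, F x := by
    intro M _ F hF
    refine finsum_eq_sum_of_support_subset F ?_
    intro x hx
    have := hfS x (fun h => hx (hF x h))
    simp [S, this.1, this.2.1]
  have hffin : HasFiniteSupport f := by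
    refine Set.Finite.subset S.finite_toSet ?_
    intro x hx
    have := hfS x hx
    simp [S, this.1, this.2.1]
  have hprod : ∀ (α : (Fin n → ℤ) → Ω → ℝ) (γ : (Fin n → ℤ) → ℝ) (F : (((Fin n → ℤ) × (Fin n → ℤ)) × Ω) → ℝ),
      (∀ c ∈ B, ∀ ξ ω, F ((c, ξ), ω) = α c ω * γ ξ) →
      ∑ x ∈ S, F x = (∑ c ∈ B, ∑ ω, α c ω) * ∑ ξ ∈ BA, γ ξ := by
    intro α γ F hF
    rw [Finset.sum_product, Finset.sum_product, Finset.sum_mul]
    refine Finset.sum_congr rfl fun c hc => ?_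
    rw [Finset.mul_sum]
    refine Finset.sum_congr rfl fun ξ _ => ?_
    rw [Finset.sum_mul]
    exact Finset.sum_congr rfl fun ω _ => hF c hc ξ ω
  have hf2 : ∀ c ∈ B, ∀ ξ ω, f ((c, ξ), ω) ^ 2 = a c ω ^ 2 / B.card * ψ ξ ^ 2 := by
    intro c hc ξ ω
    simp only [f, g, if_pos hc, mul_pow, div_pow, hsβ]
  have hone : ∑ x ∈ S, f x ^ 2 = 1 := by
    rw [hprod (fun c ω => a c ω ^ 2 / B.card) (fun ξ => ψ ξ ^ 2) _ hf2, hψ1, mul_one,
      Finset.sum_congr rfl (fun c hc => by rw [← Finset.sum_div, ha1 c hc])]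
    simp [hβ.ne']
  have hone' : ∑ᶠ x, f x ^ 2 = 1 := by rw [hfs ℝ _ (fun x hx => by simp [hx]), hone]
  let δ : ℕ → Fin n → ℤ := fun i j => if (j : ℕ) = i then 3 else 0
  let T : ℕ → Equiv.Perm (((Fin n → ℤ) × (Fin n → ℤ)) × Ω) := fun i =>
    Equiv.prodCongr (Equiv.addRight (δ i, fun j : Fin n => -(3 * ν i j))) (Equiv.refl Ω)
  have hT : ∀ i x, T i x = ((x.1.1 + δ i, x.1.2 + fun j : Fin n => -(3 * ν i j)), x.2) :=
    fun i x => rfl
  let wt : ℕ → Fin (n + 1) → E := fun i => ee i + ∑ j ∈ range n, (h * ν i j) • ee j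
  let P : (((Fin n → ℤ) × (Fin n → ℤ)) × Ω) → (Fin (n + 1) → E) × (Fin (n + 1) → ℝ) := fun x => (∑ i : Fin n, (x.1.1 i : ℝ) • wt i, fun k => 2 * r x.2 k + 2)
  let X : ℕ → (((Fin n → ℤ) × (Fin n → ℤ)) × Ω) → ℝ := fun j x => if hj : j < n then h * x.1.2 ⟨j, hj⟩ else 0
  have hKL := KL n (((Fin n → ℤ) × (Fin n → ℤ)) × Ω)
    ((Fin (n + 1) → E) × (Fin (n + 1) → ℝ)) _ (convex_K n) f hffin ?_ hone' T ?_ P X (fun i => (ee i, 0))
    (fun i => ((3 : ℝ) • wt i, 0)) (fun i j => -(3 * (h * ν i j))) ?_ ?_ ?_ ?_ ?_ ?_ ?_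
  · obtain ⟨ε, hε, hK⟩ := hKL
    refine ⟨ε, hε, fun k => ?_⟩
    have h1 := hK k
    rw [hfs _ _ (fun x hx => by simp [hx])] at h1
    simp only [Prod.fst_add, Prod.snd_add, Prod.fst_sum, Prod.snd_sum, Prod.smul_fst,
      Prod.smul_snd, P, smul_zero, sum_const_zero, add_zero] at h1
    have e1 : ∑ x ∈ S, f x ^ 2 • ∑ i : Fin n, (x.1.1 i : ℝ) • wt i = 0 := by
      simp only [Finset.smul_sum, smul_smul]
      rw [Finset.sum_comm]
      refine Finset.sum_eq_zero fun i _ => ?_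
      rw [← Finset.sum_smul, hprod (fun c ω => a c ω ^ 2 / B.card * c i) (fun ξ => ψ ξ ^ 2) _
        (fun c hc ξ ω => by rw [hf2 c hc]; ring),
        Finset.sum_congr rfl (fun c hc => by rw [← Finset.sum_mul, ← Finset.sum_div, ha1 c hc]),
        box_odd 1000 i _ (fun c => by simp)]
      simp
    have e2 : (∑ x ∈ S, f x ^ 2 • fun k => 2 * r x.2 k + 2) k ≤ 2 * R + 2 := by
      simp only [Finset.sum_apply, Pi.smul_apply, smul_eq_mul, mul_add, Finset.sum_add_distrib]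
      rw [← Finset.sum_mul, hone, hprod (fun c ω => 2 / B.card * (a c ω ^ 2 * r ω k))
        (fun ξ => ψ ξ ^ 2) _ (fun c hc ξ ω => by rw [hf2 c hc]; ring), hψ1]
      simp only [← Finset.mul_sum]
      have := hmean k
      have h2 : 2 / (B.card : ℝ) * ∑ c ∈ B, ∑ ω, a c ω ^ 2 * r ω k ≤ 2 / B.card * (R * B.card) := by
        gcongr
      rw [show 2 / (B.card : ℝ) * (R * B.card) = 2 * R by field_simp] at h2
      linarith
    rw [e1, zero_add] at h1
    exact h1.trans e2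
  · intro x
    refine mul_nonneg ?_ (Finset.prod_nonneg fun j _ => hτ0 _)
    simp only [g]
    split_ifs
    · exact div_nonneg (ha0 _ _) (Real.sqrt_nonneg _)
    · exact le_rfl
  · intro i j x
    simp only [hT, add_right_comm]
  · intro i hi x
    simp only [hT, P, Prod.mk_add_mk, add_zero, Pi.add_apply, Int.cast_add, add_smul,
      Finset.sum_add_distrib, δ]
    congr 2
    rw [Finset.sum_eq_single ⟨i, hi⟩]
    · simp
    · intro j _ hj
      rw [if_neg (fun h => hj (Fin.ext h))]; simp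
    · simp
  · intro i _ j hj x
    simp only [hT, X, dif_pos hj, Pi.add_apply]
    push_cast
    ring
  · intro i _ j hj
    simp [ν, hu0 i j hj]
  · intro i _
    refine Prod.ext ?_ ?_
    · simp only [Prod.fst_add, Prod.fst_sum, Prod.smul_fst, Prod.fst_neg, wt, smul_add,
        Finset.smul_sum, smul_smul, neg_smul, Finset.sum_neg_distrib]
      abel
    · simp [Prod.snd_sum]
  · intro x hx
    obtain ⟨h1, h2, h3⟩ := hfS x hx
    constructor
    · intro k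
      have h4 := hsupp _ h1 _ h3 k
      simp only [P]
      have e : (∑ i : Fin n, (x.1.1 i : ℝ) • wt i) k
          = (∑ i : Fin n, (x.1.1 i : ℝ) • (ee i + ∑ j ∈ range n, u i j • ee j)) k
            + ∑ i : Fin n, (x.1.1 i : ℝ) • ∑ j ∈ range n, (h * ν i j - u i j) • ee j k := by
        simp only [wt, Finset.sum_apply, Pi.smul_apply, Pi.add_apply, ← Finset.sum_add_distrib,
          ← smul_add, sub_smul, Finset.sum_sub_distrib]
        refine Finset.sum_congr rfl fun i _ => ?_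
        congr 1
        abel
      have h5 : ‖∑ i : Fin n, (x.1.1 i : ℝ) • ∑ j ∈ range n, (h * ν i j - u i j) • ee j k‖ ≤ 1 := by
        calc _ ≤ ∑ i : Fin n, (1000 : ℝ) * ∑ j ∈ range n, h := by
              refine norm_sum_le_of_le _ fun i _ => ?_
              rw [norm_smul]
              refine mul_le_mul ?_ ?_ (norm_nonneg _) (by norm_num)
              · have := (mem_box.1 h1) i
                have h6 : |x.1.1 i| ≤ 1000 := abs_le.2 (by exact_mod_cast this)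
                rw [Real.norm_eq_abs]
                exact_mod_cast h6
              · refine norm_sum_le_of_le _ fun j _ => ?_
                rw [norm_smul, Real.norm_eq_abs]
                calc _ ≤ h * 1 := mul_le_mul (hν i j) (hee j k) (norm_nonneg _) hh0.le
                  _ = h := mul_one h
          _ = 1000 * (n : ℝ) ^ 2 * h := by simp; ring
          _ ≤ 1 := by
              rw [hh, ha0R, mul_one_div, div_le_one (by positivity)]
              have : (0 : ℝ) ≤ n := Nat.cast_nonneg n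
              nlinarith
      rw [e]
      set p := (∑ i : Fin n, (x.1.1 i : ℝ) • (ee i + ∑ j ∈ range n, u i j • ee j)) k
      set q := ∑ i : Fin n, (x.1.1 i : ℝ) • ∑ j ∈ range n, (h * ν i j - u i j) • ee j k
      have h6 : ‖p + q‖ ≤ ‖p‖ + 1 := (norm_add_le _ _).trans (by linarith)
      have h7 : ‖p + q‖ ^ 2 ≤ (‖p‖ + 1) ^ 2 := by gcongr
      nlinarith [sq_nonneg (‖p‖ - 1)]
    · intro j hj
      simp only [X, dif_pos hj]
      have := (mem_box.1 h2) ⟨j, hj⟩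
      have h6 : |x.1.2 ⟨j, hj⟩| ≤ ((2 * a0 : ℕ) : ℤ) := abs_le.2 this
      have h7 : |(x.1.2 ⟨j, hj⟩ : ℝ)| ≤ 2 * a0 := by exact_mod_cast h6
      rw [abs_mul, abs_of_pos hh0]
      calc _ ≤ h * (2 * a0) := by gcongr
        _ = 1 / 2 := by rw [hh]; field_simp; norm_num
  · intro j hj
    rw [hfs ℝ _ (fun x hx => by simp [hx]), hprod (fun c ω => a c ω ^ 2 / B.card)
      (fun ξ => ψ ξ ^ 2 * (h * ξ ⟨j, hj⟩)) _
      (fun c hc ξ ω => by rw [hf2 c hc]; simp only [X, dif_pos hj]; ring),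
      box_odd (2 * a0) ⟨j, hj⟩, mul_zero]
    intro ξ
    have : ψ (Function.update ξ ⟨j, hj⟩ (-ξ ⟨j, hj⟩)) = ψ ξ := by
      refine Finset.prod_congr rfl fun l _ => ?_
      by_cases hl : l = ⟨j, hj⟩
      · subst hl; simp [hτe]
      · rw [Function.update_of_ne hl]
    rw [this]
    simp
  · intro i hi
    have hTT : ∀ c ξ ω, T i (T i ((c, ξ), ω))
        = ((c + Pi.single ⟨i, hi⟩ 6, fun j => ξ j - 6 * ν i j), ω) := by
      intro c ξ ω
      simp only [hT]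
      congr 2
      · ext j
        by_cases hj : j = ⟨i, hi⟩
        · subst hj; simp [δ]; ring
        · have : ¬ (j : ℕ) = i := fun h => hj (Fin.ext h)
          simp [δ, this, Pi.single_eq_of_ne hj]
      · ext j; simp; ring
    have hfin2 : HasFiniteSupport (fun x => f (T i (T i x))) :=
      fin_comp (f := fun x => f (T i x)) (fin_comp hffin (T i)) (T i)
    have e1 : ∑ᶠ x, f (T i (T i x)) ^ 2 = 1 := by
      rw [← hone', ← finsum_comp_equiv (T i) (f := fun x => f x ^ 2),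
        ← finsum_comp_equiv (T i) (f := fun x => f (T i x) ^ 2)]
    have e2 : ∑ᶠ x, (f (T i (T i x)) - f x) ^ 2 = 2 - 2 * ∑ x ∈ S, f (T i (T i x)) * f x := by
      have : ∀ x, (f (T i (T i x)) - f x) ^ 2
          = f (T i (T i x)) ^ 2 + (f x ^ 2 - 2 * (f (T i (T i x)) * f x)) := by intro x; ring
      simp only [this]
      rw [finsum_add_distrib (fin_of1 hfin2 (fun x hx => by simp [hx]))
        (fin_of1 hffin (fun x hx => by simp [hx])), e1, hfs ℝ _ (fun x hx => by simp [hx]),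
        Finset.sum_sub_distrib, hone, ← Finset.mul_sum]
      ring
    rw [e2, hprod (fun c ω => g (c + Pi.single ⟨i, hi⟩ 6) ω * g c ω)
      (fun ξ => ∏ j : Fin n, (τ (ξ j - 6 * ν i j) * τ (ξ j))) _ (fun c hc ξ ω => by
        simp only [hTT, f, ψ, Finset.prod_mul_distrib]; ring)]
    have F1 : 1 - 2 / 216 ≤ ∑ c ∈ B, ∑ ω, g (c + Pi.single ⟨i, hi⟩ 6) ω * g c ω := by
      have e3 : ∑ c ∈ B, ∑ ω, g (c + Pi.single ⟨i, hi⟩ 6) ω * g c ω
          = (∑ c ∈ B.filter (fun c => c + Pi.single ⟨i, hi⟩ 6 ∈ B),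
            ∑ ω, a (c + Pi.single ⟨i, hi⟩ 6) ω * a c ω) / B.card := by
        rw [Finset.sum_filter, Finset.sum_div]
        refine Finset.sum_congr rfl fun c hc => ?_
        split_ifs with hc'
        · rw [Finset.sum_div]
          refine Finset.sum_congr rfl fun ω _ => ?_
          simp only [g, if_pos hc, if_pos hc']
          rw [div_mul_div_comm, ← sq, hsβ]
        · simp [g, hc']
      rw [e3, le_div_iff₀ hβ]
      have h1 := hsh ⟨i, hi⟩
      rw [Finset.sum_sub_distrib, Finset.sum_const, nsmul_eq_mul, mul_one] at h1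
      have h2 := box_bdry (I := Fin n) ⟨i, hi⟩
      have h3 := Finset.card_filter_add_card_filter_not (s := B)
        (fun c => c + Pi.single ⟨i, hi⟩ 6 ∈ B)
      have h4 := congrArg (Nat.cast : ℕ → ℝ) h3
      push_cast at h4
      rw [← hB] at h2
      linarith
    have F2 : 1 - 1 / 216 ≤ ∑ ξ ∈ BA, ∏ j : Fin n, (τ (ξ j - 6 * ν i j) * τ (ξ j)) := by
      rw [hBA, box, ← Finset.prod_univ_sum (fun _ : Fin n => Icc (-((2 * a0 : ℕ) : ℤ)) (2 * a0 : ℕ))
        (fun (j : Fin n) k => τ (k - 6 * ν i j) * τ k)]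
      have h1 := one_sub_prod_le (univ : Finset (Fin n))
        (fun j => ∑ k ∈ Icc (-((2 * a0 : ℕ) : ℤ)) (2 * a0 : ℕ), τ (k - 6 * ν i j) * τ k)
        (fun j _ => Finset.sum_nonneg fun k _ => mul_nonneg (hτ0 _) (hτ0 _))
        (fun j _ => (hτa _).1)
      have h2 : ∑ j : Fin n,
          (1 - ∑ k ∈ Icc (-((2 * a0 : ℕ) : ℤ)) (2 * a0 : ℕ), τ (k - 6 * ν i j) * τ k)
          ≤ ∑ j : Fin n, 3456 * (u i j ^ 2 + h ^ 2) := by
        refine Finset.sum_le_sum fun j _ => (hτa _).2.trans ?_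
        have e4 : 3 * (((6 * ν i j : ℤ) : ℝ)) ^ 2 / (a0 : ℝ) ^ 2 = 1728 * (h * ν i j) ^ 2 := by
          rw [hh]; push_cast; field_simp; ring
        rw [e4]
        have h5 := hν i j
        have h6 : (h * ν i j - u i j) ^ 2 ≤ h ^ 2 := by rw [← sq_abs]; gcongr
        nlinarith [sq_nonneg (h * ν i j - 2 * u i j)]
      rw [← Finset.mul_sum, Finset.sum_add_distrib, Fin.sum_univ_eq_sum_range (fun j => u i j ^ 2),
        Finset.sum_const, Finset.card_univ, Fintype.card_fin, nsmul_eq_mul] at h2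
      have h3 : (n : ℝ) * h ^ 2 ≤ 1 / 10 ^ 7 := by
        have hn : (0 : ℝ) ≤ n := Nat.cast_nonneg n
        have h4 : h ≤ 1 := by
          rw [hh, div_le_one (by positivity)]
          have : (1 : ℝ) ≤ a0 := by exact_mod_cast ha01
          linarith
        have h5 : (n : ℝ) * h ≤ 1 / 10 ^ 6 := by
          rw [hh, ha0R, mul_one_div, div_le_div_iff₀ (by positivity) (by positivity)]
          nlinarith
        have h6 : h ≤ 1 / 10 := by
          rw [hh, ha0R, div_le_div_iff₀ (by positivity) (by positivity)]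
          nlinarith
        calc _ = (n * h) * h := by ring
          _ ≤ 1 / 10 ^ 6 * (1 / 10) := by gcongr
          _ = _ := by norm_num
      have := hu i
      linarith
    have := mul_le_mul F1 F2 (by norm_num) (le_trans (by norm_num) F1)
    linarith

end H2PD
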