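import Mathlib

set_option autoImplicit false
set_option maxHeartbeats 400000

namespace H2UF

open Real Finset

/-- `e(x) = exp(2πix)` -/
noncomputable def ee (x : ℝ) : ℂ := Complex.exp (2 * π * Complex.I * x)

lemma ee_add (x y : ℝ) : ee (x + y) = ee x * ee y := by
  simp only [ee, ← Complex.exp_add]; congr 1; push_cast; ring

@[simp] lemma ee_zero : ee 0 = 1 := by simp [ee]

lemma ee_eq (x : ℝ) : ee x = Complex.exp (Complex.I * (2 * π * x : ℝ)) := by
  unfold ee; congr 1; push_cast; ring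

@[simp] lemma norm_ee (x : ℝ) : ‖ee x‖ = 1 := by
  rw [ee_eq, mul_comm]; exact Complex.norm_exp_ofReal_mul_I _

lemma ee_ne (x : ℝ) : ee x ≠ 0 := Complex.exp_ne_zero _

@[simp] lemma ee_int (n : ℤ) : ee n = 1 := by
  rw [ee, ← Complex.exp_int_mul_two_pi_mul_I n]; congr 1; push_cast; ring

@[simp] lemma ee_nat (n : ℕ) : ee n = 1 := by simpa using ee_int n

lemma ee_add_int (x : ℝ) (n : ℤ) : ee (x + n) = ee x := by simp [ee_add]

lemma ee_congr {x y : ℝ} (n : ℤ) (h : x = y + n) : ee x = ee y := by rw [h, ee_add_int]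

lemma conj_ee (x : ℝ) : (starRingEnd ℂ) (ee x) = ee (-x) := by
  simp [ee, ← Complex.exp_conj, map_ofNat]

lemma ee_mul_neg (x : ℝ) : ee x * ee (-x) = 1 := by rw [← ee_add]; simp

lemma ee_nat_mul (n : ℕ) (x : ℝ) : ee (n * x) = ee x ^ n := by
  rw [ee, ee, ← Complex.exp_nat_mul]; congr 1; push_cast; ring

lemma norm_ee_sub_one (x : ℝ) : ‖ee x - 1‖ ≤ 2 * π * |x| := by
  rw [ee_eq]
  refine Real.norm_exp_I_mul_ofReal_sub_one_le.trans (le_of_eq ?_)
  rw [Real.norm_eq_abs, abs_mul, abs_of_pos (by positivity)]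

lemma norm_ee_sub (x y : ℝ) : ‖ee x - ee y‖ ≤ 2 * π * |x - y| := by
  have : ee x - ee y = ee y * (ee (x - y) - 1) := by rw [mul_sub, ← ee_add]; simp
  rw [this, norm_mul, norm_ee, one_mul]
  exact norm_ee_sub_one _

lemma le_norm_ee_sub_one {y : ℝ} (hy : |y| ≤ 1 / 2) : 4 * |y| ≤ ‖ee y - 1‖ := by
  rw [ee_eq, Complex.norm_exp_I_mul_ofReal_sub_one, Real.norm_eq_abs, abs_mul,
    show 2 * π * y / 2 = π * y by ring]
  have h := Real.mul_abs_le_abs_sin (x := π * y) (by
    rw [abs_mul, abs_of_pos pi_pos]; nlinarith [pi_pos])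
  rw [abs_mul, abs_of_pos pi_pos] at h
  have : 2 / π * (π * |y|) = 2 * |y| := by field_simp
  rw [abs_two]; linarith

@[fun_prop] lemma continuous_ee : Continuous ee := by unfold ee; fun_prop

lemma hasDerivAt_ee {h : ℝ → ℝ} {h' x : ℝ} (hh : HasDerivAt h h' x) :
    HasDerivAt (fun x => ee (h x)) (2 * π * Complex.I * h' * ee (h x)) x := by
  have := (hh.ofReal_comp.const_mul (2 * π * Complex.I)).cexp
  exact this.congr_deriv (by rw [ee, mul_comm])

lemma exists_ee {w : ℂ} (hw : ‖w‖ = 1) : ∃ β : ℝ, ee β = w := by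
  refine ⟨Complex.arg w / (2 * π), ?_⟩
  have h := Complex.norm_mul_exp_arg_mul_I w
  rw [hw] at h
  rw [ee_eq, mul_div_cancel₀ _ (by positivity), mul_comm]
  simpa using h

lemma sum_ee_grid {M : ℕ} (hM : 0 < M) (k : ℤ) :
    ∑ l ∈ range M, ee (k * l / M) = if (M : ℤ) ∣ k then (M : ℂ) else 0 := by
  have e : ∀ l : ℕ, ee (k * l / M) = ee (k / M) ^ l := fun l => by
    rw [← ee_nat_mul]; congr 1; ring
  simp only [e]
  have hM' : (M : ℝ) ≠ 0 := by positivity
  split_ifs with h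
  · obtain ⟨c, rfl⟩ := h
    have : ee (((M * c : ℤ) : ℝ) / M) = 1 := by
      rw [← ee_int c]; congr 1; push_cast; field_simp
    rw [this]; simp
  · have h1 : ee (k / M) ≠ 1 := by
      intro h1
      rw [ee, Complex.exp_eq_one_iff] at h1
      obtain ⟨c, hc⟩ := h1
      apply h
      refine ⟨c, ?_⟩
      have h2 : ((k / M : ℝ) : ℂ) = c := by
        have h3 : (2 * π * Complex.I : ℂ) ≠ 0 := Complex.two_pi_I_ne_zero
        exact mul_left_cancel₀ h3 (by rw [hc]; ring)
      have h4 : (k / M : ℝ) = c := by exact_mod_cast h2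
      rw [div_eq_iff hM'] at h4
      exact_mod_cast h4.trans (mul_comm _ _)
    rw [geom_sum_eq h1, ← ee_nat_mul, mul_div_cancel₀ _ hM', ee_int]
    simp

lemma integral_ee (k : ℤ) : ∫ x in (0 : ℝ)..1, ee (k * x) = if k = 0 then 1 else 0 := by
  split_ifs with h
  · simp [h]
  · have hk : (2 * π * Complex.I * k : ℂ) ≠ 0 :=
      mul_ne_zero Complex.two_pi_I_ne_zero (by exact_mod_cast h)
    rw [intervalIntegral.integral_eq_sub_of_hasDerivAt
      (f := fun x => ee (k * x) / (2 * π * Complex.I * k)) (fun x _ => ?_)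
      (Continuous.intervalIntegrable (by fun_prop) _ _)]
    · simp
    · have := (hasDerivAt_ee ((hasDerivAt_id x).const_mul (k : ℝ))).div_const
        (2 * π * Complex.I * k)
      refine this.congr_deriv ?_
      simp only [id, mul_one, Complex.ofReal_intCast]
      field_simp

/-- Dirichlet sums -/
noncomputable def DD (h : ℕ) (y : ℝ) : ℂ := ∑ a ∈ range h, ee (a * y)

@[fun_prop] lemma continuous_DD (h : ℕ) : Continuous (DD h) := by unfold DD; fun_prop

lemma norm_DD_le (h : ℕ) (y : ℝ) : ‖DD h y‖ ≤ h :=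
  (norm_sum_le _ _).trans (by simp)

lemma norm_DD_le' (h : ℕ) {y : ℝ} (hy : |y| ≤ 1 / 2) : ‖DD h y‖ * |y| ≤ 1 / 2 := by
  have h1 : DD h y * (ee y - 1) = ee y ^ h - 1 := by
    simp only [DD, ee_nat_mul]; exact geom_sum_mul _ _
  have h2 : ‖DD h y‖ * ‖ee y - 1‖ ≤ 2 := by
    rw [← norm_mul, h1]
    refine (norm_sub_le _ _).trans ?_
    simp; norm_num
  have h3 := le_norm_ee_sub_one hy
  nlinarith [norm_nonneg (DD h y)]

lemma DD_add_int (h : ℕ) (y : ℝ) (n : ℤ) : DD h (y + n) = DD h y :=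
  sum_congr rfl fun a _ => ee_congr (a * n) (by push_cast; ring)

/-- Parseval for finitely many distinct integer frequencies -/
lemma parseval {ι : Type} (s : Finset ι) (c : ι → ℂ) (f : ι → ℤ) (hf : Set.InjOn f s) :
    ∫ x in (0 : ℝ)..1, ‖∑ i ∈ s, c i * ee (f i * x)‖ ^ 2 = ∑ i ∈ s, ‖c i‖ ^ 2 := by
  classical
  apply Complex.ofReal_injective
  rw [← intervalIntegral.integral_ofReal]
  have e : ∀ x : ℝ, ((‖∑ i ∈ s, c i * ee (f i * x)‖ ^ 2 : ℝ) : ℂ)
      = ∑ i ∈ s, ∑ j ∈ s, c i * (starRingEnd ℂ) (c j) * ee ((f i - f j : ℤ) * x) := by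
    intro x
    rw [Complex.ofReal_pow, ← Complex.mul_conj', map_sum, sum_mul_sum]
    refine sum_congr rfl fun i _ => sum_congr rfl fun j _ => ?_
    rw [map_mul, conj_ee, show ((f i - f j : ℤ) : ℝ) * x = f i * x + -(f j * x) by push_cast; ring,
      ee_add]
    ring
  simp only [e]
  rw [intervalIntegral.integral_finsetSum (fun i _ => Continuous.intervalIntegrable (by fun_prop) _ _),
    Complex.ofReal_sum]
  refine sum_congr rfl fun i hi => ?_
  rw [intervalIntegral.integral_finsetSum (fun i _ => Continuous.intervalIntegrable (by fun_prop) _ _),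
    sum_eq_single i]
  · simp [Complex.mul_conj']
  · intro j hj hji
    rw [intervalIntegral.integral_const_mul, integral_ee, if_neg, mul_zero]
    exact fun h => hji (hf hj hi (by omega))
  · simp [hi]

/-- grid Parseval for Dirichlet sums -/
lemma grid_DD {h M : ℕ} (hM : 0 < M) (hh : h ≤ M) (θ : ℝ) :
    ∑ l ∈ range M, ‖DD h (θ - l / M)‖ ^ 2 = M * h := by
  apply Complex.ofReal_injective
  have e : ∀ l : ℕ, ((‖DD h (θ - l / M)‖ ^ 2 : ℝ) : ℂ)
      = ∑ a ∈ range h, ∑ b ∈ range h, ee ((a - b) * θ) * ee (((b - a : ℤ) : ℝ) * l / M) := by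
    intro l
    rw [Complex.ofReal_pow, ← Complex.mul_conj', DD, map_sum, sum_mul_sum]
    refine sum_congr rfl fun i _ => sum_congr rfl fun j _ => ?_
    rw [conj_ee, ← ee_add, ← ee_add]
    congr 1; push_cast; ring
  rw [Complex.ofReal_sum]
  simp only [e]
  rw [sum_comm]
  have : ∀ a ∈ range h, ∑ l ∈ range M, ∑ b ∈ range h,
      ee ((a - b) * θ) * ee (((b - a : ℤ) : ℝ) * l / M) = M := by
    intro a ha
    rw [sum_comm, sum_eq_single a]
    · simp
    · intro b hb hba
      rw [← mul_sum, sum_ee_grid hM, if_neg, mul_zero]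
      intro hd
      rw [mem_range] at ha hb
      have := Int.eq_zero_of_abs_lt_dvd hd (by rw [abs_lt]; omega)
      omega
    · simp [ha]
  rw [sum_congr rfl this]
  simp [mul_comm]

end H2UF
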