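import Crest.Agent.H2.UF2

set_option autoImplicit false
set_option maxHeartbeats 400000

namespace H2UF

open Real Finset Filter Topology

lemma hs_congr {f g : ℕ → ℝ} {a b : ℝ} (h : HasSum f a) (e2 : b = a) (e1 : ∀ n, g n = f n) :
    HasSum g b := by rw [funext e1, e2]; exact h

lemma odd_series {w : ℂ} (hw : ‖w‖ < 1) : ∃ s : ℝ, |s| ≤ 1 ∧
    HasSum (fun n : ℕ => if Odd n then 4 / π * (w ^ n / n).im else 0) s := by
  have h := (Complex.hasSum_taylorSeries_log hw).add (Complex.hasSum_taylorSeries_neg_log hw)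
  have e := Complex.hasSum_arctan_aux (z := -Complex.I * w) (by simpa using hw)
  rw [show -Complex.I * w * Complex.I = w by
    rw [mul_right_comm, neg_mul, Complex.I_mul_I]; ring] at e
  rw [e] at h
  refine ⟨2 / π * Complex.arg ((1 + w) / (1 - w)), ?_, ?_⟩
  · have : |Complex.arg ((1 + w) / (1 - w))| ≤ π / 2 := by
      rw [Complex.abs_arg_le_pi_div_two_iff, Complex.div_re, ← add_div]
      refine div_nonneg ?_ (Complex.normSq_nonneg _)
      have : Complex.normSq w ≤ 1 := by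
        rw [Complex.normSq_eq_norm_sq]; nlinarith [norm_nonneg w]
      simp only [Complex.normSq_apply] at this
      simp; nlinarith
    rw [abs_mul, abs_of_pos (by positivity), div_mul_eq_mul_div, div_le_one pi_pos]
    linarith
  · refine hs_congr ((Complex.hasSum_im h).mul_left (2 / π)) (by rw [Complex.log_im]) fun n => ?_
    split_ifs with hn
    · rw [(hn.add_one).neg_one_pow, one_mul, Complex.add_im]; ring
    · rw [((Nat.not_odd_iff_even.1 hn).add_one).neg_one_pow]; simp [neg_div]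

lemma sq_wave {τ : ℝ} (hτ : 0 < τ) : ∃ (K : ℕ) (a : ℕ → ℂ), (∀ m, Odd m → a m ≠ 0) ∧
    (∀ d, 0 < d → ∀ x : ℝ, |∑ m ∈ (range K).filter Odd,
      if d ∣ m then 2 * (a m * ee (m * x)).re else 0| ≤ (1 + τ) / d) ∧
    (∀ d, 2 ≤ d → |∑ m ∈ (range K).filter Odd, if d ∣ m then 2 * ‖a m‖ ^ 2 else 0| ≤ (1 + τ) / d) ∧
    1 - τ ≤ ∑ m ∈ (range K).filter Odd, 2 * ‖a m‖ ^ 2 := by
  have z : ∀ d : ℕ, 0 < d → HasSum (fun m : ℕ => if d ∣ m then 1 / (m : ℝ) ^ 2 else 0)
      (π ^ 2 / 6 / d ^ 2) := fun d hd => by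
    rw [← (mul_right_injective₀ hd.ne').hasSum_iff fun m hm => if_neg fun ⟨c, hc⟩ =>
      hm ⟨c, hc.symm⟩]
    refine hs_congr (hasSum_zeta_two.div_const ((d : ℝ) ^ 2)) rfl fun n => ?_
    simp [mul_pow, div_eq_mul_inv]
  have z1 : HasSum (fun m : ℕ => if Odd m then 8 / π ^ 2 * (1 / (m : ℝ) ^ 2) else 0) 1 := by
    refine hs_congr ((hasSum_zeta_two.sub (z 2 two_pos)).mul_left (8 / π ^ 2))
      (by field_simp; norm_num) fun m => ?_
    by_cases h : Odd m
    · simp [h, h.not_two_dvd_nat]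
    · simp [h, (Nat.not_odd_iff_even.1 h).two_dvd]
  obtain ⟨K0, hK0⟩ := (z1.tendsto_sum_nat.eventually_const_lt (show 1 - τ < 1 by linarith)).exists
  have c1 : ∀ᶠ ρ : ℝ in 𝓝 1, 1 - τ < ∑ m ∈ range K0,
      ρ ^ (2 * m) * if Odd m then 8 / π ^ 2 * (1 / (m : ℝ) ^ 2) else 0 :=
    ContinuousAt.eventually_lt (by fun_prop) (by fun_prop) (by simpa using hK0)
  obtain ⟨ρ, ⟨hρ, hρ0⟩, hρ1⟩ := (((c1.and (lt_mem_nhds zero_lt_one)).filter_mono
    (nhdsWithin_le_nhds (s := Set.Iio 1))).and self_mem_nhdsWithin).exists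
  obtain ⟨K, hK1, hK⟩ := ((eventually_ge_atTop K0).and ((tendsto_pow_atTop_nhds_zero_of_lt_one
    hρ0.le hρ1).eventually_le_const (show 0 < τ * (1 - ρ) / 2 by nlinarith))).exists
  have hn : ∀ m : ℕ, 2 * ‖-Complex.I * (2 / π * (ρ ^ m / m) : ℝ)‖ ^ 2
      = ρ ^ (2 * m) * (8 / π ^ 2 * (1 / (m : ℝ) ^ 2)) := fun m => by
    rw [norm_mul, norm_neg, Complex.norm_I, one_mul, Complex.norm_real, Real.norm_eq_abs, sq_abs]
    ring
  refine ⟨K, fun m => -Complex.I * (2 / π * (ρ ^ m / m) : ℝ), fun m hm => ?_, fun d hd x => ?_,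
    fun d hd => ?_, ?_⟩
  · have := hm.pos
    exact mul_ne_zero (by simp) (Complex.ofReal_ne_zero.2 (by positivity))
  · have hd' : (0 : ℝ) < d := by exact_mod_cast hd
    set T : ℕ → ℝ := fun m => if Odd m then if d ∣ m then
      2 * (-Complex.I * (2 / π * (ρ ^ m / m) : ℝ) * ee (m * x)).re else 0 else 0 with hT
    obtain ⟨σ, h1, h2⟩ : ∃ σ : ℝ, |σ| ≤ 1 / d ∧ HasSum T σ := by
      simp only [← (mul_right_injective₀ hd.ne').hasSum_iff (f := T) fun m hm => by
        simp only [hT]; rw [if_neg (c := d ∣ m) fun ⟨c, hc⟩ => hm ⟨c, hc.symm⟩, ite_self]]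
      by_cases ho : Odd d
      · obtain ⟨s, h1, h2⟩ := odd_series (w := (ρ ^ d : ℝ) * ee (d * x)) (by
          rw [norm_mul, norm_ee, mul_one, Complex.norm_real, Real.norm_of_nonneg (by positivity)]
          exact pow_lt_one₀ hρ0.le hρ1 hd.ne')
        refine ⟨s / d, by rw [abs_div, abs_of_pos hd']; gcongr,
          hs_congr (h2.div_const d) rfl fun n => ?_⟩
        simp only [Function.comp, hT, Nat.odd_mul, ho, true_and, dvd_mul_right, if_true]
        split_ifs
        · rw [mul_pow, ← ee_nat_mul, ← Complex.ofReal_pow, ← pow_mul, mul_div_right_comm _ (ee _),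
            ← Complex.ofReal_natCast, ← Complex.ofReal_div, Complex.im_ofReal_mul, mul_assoc,
            neg_mul, Complex.neg_re, Complex.I_mul_re, Complex.im_ofReal_mul, Nat.cast_mul,
            show (d : ℝ) * n * x = n * (d * x) by ring]
          ring
        · simp
      · refine ⟨0, by simp, hs_congr hasSum_zero rfl fun n => ?_⟩
        simp [hT, Nat.odd_mul, ho]
    have h3 := norm_sub_le_of_geometric_bound_of_hasSum (C := 2 / d) hρ1 (fun m => by
      simp only [hT]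
      split_ifs with h4 h5
      · have h6 : (d : ℝ) ≤ m := by exact_mod_cast Nat.le_of_dvd h4.pos h5
        rw [norm_mul, Real.norm_ofNat]
        refine (mul_le_mul_of_nonneg_left (Complex.abs_re_le_norm _) zero_le_two).trans ?_
        rw [norm_mul, norm_mul, norm_neg, Complex.norm_I, norm_ee, Complex.norm_real,
          Real.norm_of_nonneg (by positivity)]
        calc _ = 2 * (2 / π) / m * ρ ^ m := by ring
          _ ≤ 2 * 1 / d * ρ ^ m := by
            gcongr; rw [div_le_one pi_pos]; linarith [pi_gt_three]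
          _ = _ := by ring
      all_goals simp; positivity) h2 K
    rw [sum_filter]
    have h4 : 2 / d * ρ ^ K / (1 - ρ) ≤ τ / d := by
      rw [div_le_iff₀ (by linarith)]
      calc _ ≤ 2 / d * (τ * (1 - ρ) / 2) := by gcongr
        _ = _ := by ring
    have h5 := abs_sub_abs_le_abs_sub (∑ m ∈ range K, T m) σ
    rw [Real.norm_eq_abs] at h3
    rw [add_div]; linarith
  · have hd' : (2 : ℝ) ≤ d := by exact_mod_cast hd
    rw [abs_of_nonneg (sum_nonneg fun _ _ => by positivity)]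
    calc _ ≤ ∑ m ∈ (range K).filter Odd, 8 / π ^ 2 * if d ∣ m then 1 / (m : ℝ) ^ 2 else 0 := by
          refine sum_le_sum fun m _ => ?_
          split_ifs
          · rw [hn]; exact mul_le_of_le_one_left (by positivity) (pow_le_one₀ hρ0.le hρ1.le)
          · simp
      _ ≤ 8 / π ^ 2 * (π ^ 2 / 6 / d ^ 2) :=
          sum_le_hasSum _ (fun _ _ => by positivity) ((z d (by omega)).mul_left _)
      _ = 4 / 3 / d / d := by field_simp; norm_num
      _ ≤ _ := by gcongr; rw [div_le_iff₀ (by linarith)]; nlinarith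
  · simp only [hn]
    rw [sum_filter]
    refine hρ.le.trans (le_trans (le_of_eq ?_) (sum_le_sum_of_subset_of_nonneg
      (range_subset_range.2 hK1) fun _ _ _ => by positivity))
    simp

lemma moeb {r K : ℕ} (S : Finset ℕ) (hS : ∀ m ∈ S, 0 < m ∧ m ≤ K) (hK : 0 < K)
    (g : Fin (r + 1) → ℕ → ℝ) {c : ℝ}
    (hg : ∀ d, 2 ≤ d → ∀ l, |∑ m ∈ S, if d ∣ m then g l m else 0| ≤ c / d) :
    |∑ m ∈ (Fintype.piFinset fun _ => S).filter (fun m => univ.gcd m = 1), ∏ l, g l (m l)
      - ∏ l, ∑ m ∈ S, g l m| ≤ ∑ d ∈ Ioc 1 K, (c / d) ^ (r + 1) := by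
  have e1 : ∑ m ∈ (Fintype.piFinset fun _ => S).filter (fun m => univ.gcd m = 1), ∏ l, g l (m l)
      = ∑ d ∈ Icc 1 K, ArithmeticFunction.moebius d *
        ∏ l, ∑ m ∈ S, if d ∣ m then g l m else 0 := by
    simp only [prod_univ_sum, mul_sum]
    rw [sum_comm, sum_filter]
    refine sum_congr rfl fun m hm => ?_
    have h0 := hS _ (Fintype.mem_piFinset.1 hm 0)
    have h1 : univ.gcd m ∣ m 0 := gcd_dvd (mem_univ _)
    have h2 := congrArg (fun f : ArithmeticFunction ℝ => f (univ.gcd m))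
      ArithmeticFunction.coe_moebius_mul_coe_zeta
    simp only [ArithmeticFunction.coe_mul_zeta_apply, ArithmeticFunction.one_apply,
      ArithmeticFunction.intCoe_apply] at h2
    rw [← boole_mul, ← h2, sum_mul]
    simp only [prod_ite_zero, mem_univ, true_imp_iff, mul_ite, mul_zero]
    rw [← sum_filter]
    refine sum_congr ?_ fun _ _ => rfl
    ext d
    simp only [Nat.mem_divisors, mem_filter, mem_Icc, Finset.dvd_gcd_iff, mem_univ, true_imp_iff]
    exact ⟨fun h => ⟨⟨Nat.pos_of_dvd_of_pos (h.1 0) h0.1, (Nat.le_of_dvd h0.1 (h.1 0)).trans h0.2⟩,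
      h.1⟩, fun h => ⟨h.2, (Nat.pos_of_dvd_of_pos h1 h0.1).ne'⟩⟩
  rw [e1, ← Ioc_insert_left hK, sum_insert (by simp)]
  simp only [ArithmeticFunction.moebius_apply_one, Int.cast_one, one_mul, one_dvd, if_true,
    add_sub_cancel_left]
  refine (abs_sum_le_sum_abs _ _).trans (sum_le_sum fun d hd => ?_)
  rw [abs_mul, abs_prod]
  refine (mul_le_of_le_one_left (by positivity) (by
    exact_mod_cast ArithmeticFunction.abs_moebius_le_one)).trans ?_
  exact (prod_le_prod (fun _ _ => abs_nonneg _) fun l _ => hg d (mem_Ioc.1 hd).1 l).trans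
    (by simp [div_pow])

lemma digits {B : ℤ} (hB : 0 < B) : ∀ (n : ℕ) (c : Fin n → ℤ), (∀ l, |c l| < B) →
    ∑ l, c l * B ^ (l : ℕ) = 0 → ∀ l, c l = 0 := by
  intro n
  induction n with
  | zero => intro c _ _ l; exact l.elim0
  | succ n ih =>
    intro c h1 h2
    rw [Fin.sum_univ_succ] at h2
    simp only [Fin.val_zero, pow_zero, mul_one, Fin.val_succ, pow_succ, ← mul_assoc,
      ← sum_mul] at h2
    have h3 : c 0 = 0 := Int.eq_zero_of_abs_lt_dvd (Dvd.intro_left _
      (by rw [eq_neg_of_add_eq_zero_left h2, neg_mul])) (h1 0)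
    rw [h3, zero_add, mul_eq_zero, or_iff_left hB.ne'] at h2
    exact Fin.cases h3 (ih _ (fun l => h1 _) h2)

lemma ee_sum {ι : Type} (s : Finset ι) (f : ι → ℝ) : ee (∑ i ∈ s, f i) = ∏ i ∈ s, ee (f i) := by
  simp only [ee, Complex.ofReal_sum, mul_sum, Complex.exp_sum]

end H2UF
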