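import Crest.Agent.H2.UF10

set_option autoImplicit false
set_option maxHeartbeats 400000

namespace H2UF

open Real Finset Filter Topology

lemma modes0 {ε : ℝ} (hε : 0 < ε) : ∃ (I : Type) (_ : Fintype I) (μ : I → ℕ) (ν : I → ℤ)
    (c : I → ℂ), (∀ i, 0 < μ i) ∧ Function.Injective ν ∧ (∀ i, c i ≠ 0) ∧
    1 - ε ≤ ∑ i, 2 * ‖c i‖ ^ 2 ∧
    ∀ x y : ℝ, |∑ i, 2 * (c i * ee (μ i * (x + ν i * y))).re| ≤ 1 + ε := by
  classical
  obtain ⟨s, hs⟩ := exists_pow_lt_of_lt_one (show 0 < ε / 5 by positivity)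
    (show (3 / 4 : ℝ) < 1 by norm_num)
  have c1 : ∀ᶠ τ : ℝ in 𝓝 0, (1 + τ) ^ (s + 2) < 1 + ε / 2 :=
    ContinuousAt.eventually_lt (by fun_prop) (by fun_prop) (by simpa using hε)
  have c2 : ∀ᶠ τ : ℝ in 𝓝 0, 1 - ε / 2 < (1 - τ) ^ (s + 2) :=
    ContinuousAt.eventually_lt (by fun_prop) (by fun_prop) (by simpa using hε)
  obtain ⟨τ, ⟨⟨t1, t2⟩, t3⟩, hτ⟩ : ∃ τ : ℝ, (((1 + τ) ^ (s + 2) < 1 + ε / 2 ∧
      1 - ε / 2 < (1 - τ) ^ (s + 2)) ∧ τ < 1 / 2) ∧ 0 < τ :=
    ((((c1.and c2).and (gt_mem_nhds (by norm_num))).filter_mono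
      (nhdsWithin_le_nhds (s := Set.Ioi 0))).and self_mem_nhdsWithin).exists
  obtain ⟨K, a, a0, a1, a2, a3⟩ := sq_wave hτ
  set S := (range K).filter Odd with hS
  have hS1 : ∀ m ∈ S, 0 < m ∧ m ≤ K + 1 := fun m hm =>
    ⟨(mem_filter.1 hm).2.pos, by have := mem_range.1 (mem_filter.1 hm).1; omega⟩
  have herr : ∑ d ∈ Ioc 1 (K + 1), ((1 + τ) / d) ^ (s + 1 + 1) ≤ ε / 2 := by
    calc _ ≤ ∑ d ∈ Ioc 1 (K + 1), 9 / 4 * (3 / 4) ^ s * ((d : ℝ) ^ 2)⁻¹ := by
          refine sum_le_sum fun d hd => ?_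
          have h2 : (2 : ℝ) ≤ d := by exact_mod_cast (mem_Ioc.1 hd).1
          calc _ = ((1 + τ) / d) ^ 2 * ((1 + τ) / d) ^ s := by ring
            _ ≤ (3 / 2 / d) ^ 2 * (3 / 2 / 2) ^ s := by gcongr <;> linarith
            _ = _ := by ring
      _ ≤ 9 / 4 * (ε / 5) * 1 := by
          rw [← mul_sum]
          gcongr
          refine (sum_Ioc_inv_sq_le_sub one_ne_zero (by omega)).trans ?_
          simp; positivity
      _ ≤ _ := by linarith
  set M := (Fintype.piFinset fun _ : Fin (s + 1 + 1) => S).filter fun m => univ.gcd m = 1 with hM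
  have hM1 : ∀ m : M, ∀ l, m.1 l ∈ S := fun m l => Fintype.mem_piFinset.1 (mem_filter.1 m.2).1 l
  let B : ℤ := 2 * (K + 2) ^ 2
  let w : M × (Fin (s + 1) → Bool) → ℤ := fun i =>
    ∑ l, (if i.2 l then 1 else -1) * i.1.1 l.succ * B ^ (l : ℕ)
  have hμν : ∀ i : M × (Fin (s + 1) → Bool), (i.1.1 0 : ℤ) * (((K + 1).factorial / i.1.1 0 : ℕ)
      * w i) = (K + 1).factorial * w i := fun i => by
    rw [← mul_assoc, ← Nat.cast_mul, Nat.mul_div_cancel'
      (Nat.dvd_factorial (hS1 _ (hM1 _ _)).1 (hS1 _ (hM1 _ _)).2)]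
  refine ⟨M × (Fin (s + 1) → Bool), inferInstance, fun i => i.1.1 0,
    fun i => ((K + 1).factorial / i.1.1 0 : ℕ) * w i, fun i => a (i.1.1 0) *
      ∏ l, if i.2 l then a (i.1.1 l.succ) else (starRingEnd ℂ) (a (i.1.1 l.succ)),
    fun i => (hS1 _ (hM1 _ _)).1, fun i j h => ?_, fun i => ?_, ?_, fun x y => ?_⟩
  · have h1 : (j.1.1 0 : ℤ) * w i = i.1.1 0 * w j := by
      apply mul_left_cancel₀ (show ((K + 1).factorial : ℤ) ≠ 0 by positivity)
      rw [mul_left_comm, ← hμν i, mul_left_comm _ (i.1.1 0 : ℤ), mul_left_comm _ (i.1.1 0 : ℤ),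
        ← hμν j]
      exact congrArg _ (congrArg _ h)
    have h2 := digits (show 0 < B by positivity) _ (fun l => (if i.2 l then 1 else -1) *
      (j.1.1 0 * i.1.1 l.succ : ℕ) - (if j.2 l then 1 else -1) * (i.1.1 0 * j.1.1 l.succ : ℕ))
      (fun l => by
        have b1 := Nat.mul_le_mul (hS1 _ (hM1 j.1 0)).2 (hS1 _ (hM1 i.1 l.succ)).2
        have b2 := Nat.mul_le_mul (hS1 _ (hM1 i.1 0)).2 (hS1 _ (hM1 j.1 l.succ)).2
        have b3 : B = 2 * ((K + 1) * (K + 1) : ℕ) + 4 * K + 6 := by simp only [B]; push_cast; ring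
        rw [abs_lt]
        constructor <;> split_ifs <;> omega)
      (by
        rw [← sub_eq_zero] at h1
        rw [← h1]
        simp only [w, mul_sum, ← sum_sub_distrib]
        exact sum_congr rfl fun l _ => by push_cast; ring)
    have h3 : ∀ l, j.1.1 0 * i.1.1 l.succ = i.1.1 0 * j.1.1 l.succ ∧ i.2 l = j.2 l := fun l => by
      have b1 := Nat.mul_pos (hS1 _ (hM1 j.1 0)).1 (hS1 _ (hM1 i.1 l.succ)).1
      have b2 := h2 l
      cases hi : i.2 l <;> cases hj : j.2 l <;>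
        simp only [hi, hj, if_true, Bool.false_eq_true, if_false] at b2 <;>
        first | exact ⟨by omega, rfl⟩ | (exfalso; omega)
    have h4 : ∀ l, j.1.1 0 * i.1.1 l = i.1.1 0 * j.1.1 l :=
      Fin.cases (mul_comm _ _) fun l => (h3 l).1
    have h5 := congrArg (univ.gcd) (funext h4)
    rw [Finset.gcd_mul_left, Finset.gcd_mul_left, (mem_filter.1 i.1.2).2, (mem_filter.1 j.1.2).2] at h5
    simp only [normalize_eq, mul_one] at h5
    refine Prod.ext (Subtype.ext (funext fun l => ?_)) (funext fun l => (h3 l).2)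
    exact Nat.eq_of_mul_eq_mul_left (hS1 _ (hM1 i.1 0)).1 (h5 ▸ h4 l)
  · have := fun l => a0 _ (mem_filter.1 (hM1 i.1 l)).2
    refine mul_ne_zero (this _) (prod_ne_zero_iff.2 fun l _ => ?_)
    split_ifs <;> simp [this]
  · have h1 := moeb (r := s + 1) S hS1 K.succ_pos (fun _ m => 2 * ‖a m‖ ^ 2) fun d hd _ => a2 d hd
    have h2 : (1 - τ) ^ (s + 2) ≤ ∏ _l : Fin (s + 1 + 1), ∑ m ∈ S, 2 * ‖a m‖ ^ 2 := by
      rw [prod_const, card_univ, Fintype.card_fin]; gcongr; linarith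
    rw [Fintype.sum_prod_type, sum_congr rfl (g := fun m : M => ∏ l, 2 * ‖a (m.1 l)‖ ^ 2),
      sum_coe_sort M fun m => ∏ l, 2 * ‖a (m l)‖ ^ 2]
    · linarith [(abs_le.1 (h1.trans herr)).1]
    intro m _
    have : ∀ (b : Bool) (z : ℂ), ‖if b then z else (starRingEnd ℂ) z‖ = ‖z‖ := fun b z => by
      cases b <;> simp
    simp only [norm_mul, norm_prod, this, mul_pow, Fin.prod_univ_succ (n := s + 1),
      prod_mul_distrib, prod_pow]
    simp; ring
  · let X : Fin (s + 1 + 1) → ℝ := Fin.cases x fun l => (K + 1).factorial * B ^ (l : ℕ) * y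
    have h1 := moeb S hS1 K.succ_pos (fun l m => 2 * (a m * ee (m * X l)).re)
      fun d hd l => a1 d (by omega) _
    have h2 : |∏ l, ∑ m ∈ S, 2 * (a m * ee (m * X l)).re| ≤ (1 + τ) ^ (s + 2) := by
      rw [abs_prod]
      exact (prod_le_prod (fun _ _ => abs_nonneg _) fun l _ => by
        simpa using a1 1 one_pos (X l)).trans (by simp)
    rw [Fintype.sum_prod_type, sum_congr rfl (g := fun m : M => ∏ l,
      2 * (a (m.1 l) * ee (m.1 l * X l)).re), sum_coe_sort M fun m => ∏ l,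
      2 * (a (m l) * ee (m l * X l)).re]
    · have := abs_sub_abs_le_abs_sub (∑ m ∈ M, ∏ l, 2 * (a (m l) * ee (m l * X l)).re)
        (∏ l, ∑ m ∈ S, 2 * (a m * ee (m * X l)).re)
      linarith [h1.trans herr]
    intro m _
    have h3 : ∀ σ : Fin (s + 1) → Bool, (a (m.1 0) * ∏ l, if σ l then a (m.1 l.succ) else
        (starRingEnd ℂ) (a (m.1 l.succ))) * ee (m.1 0 * (x +
          (((K + 1).factorial / m.1 0 : ℕ) * w (m, σ) : ℤ) * y)) = a (m.1 0) * ee (m.1 0 * x) *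
        ∏ l, if σ l then a (m.1 l.succ) * ee (m.1 l.succ * X l.succ) else
          (starRingEnd ℂ) (a (m.1 l.succ) * ee (m.1 l.succ * X l.succ)) := by
      intro σ
      have h4 := congrArg (Int.cast : ℤ → ℝ) (hμν (m, σ))
      rw [Int.cast_mul, Int.cast_natCast] at h4
      rw [mul_add, ← mul_assoc, h4, ee_add, mul_mul_mul_comm]
      simp only [w, Int.cast_mul, Int.cast_sum, mul_sum, sum_mul, ee_sum, ← prod_mul_distrib]
      refine congrArg _ (prod_congr rfl fun l _ => ?_)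
      by_cases hσ : σ l = true
      · simp only [if_pos hσ, X, Fin.cases_succ]
        congr 2; push_cast; ring
      · simp only [if_neg hσ, map_mul, conj_ee, X, Fin.cases_succ]
        congr 2; push_cast; ring
    simp only [h3]
    rw [← mul_sum, ← Complex.re_sum, ← mul_sum, ← Fintype.prod_sum fun (l : Fin (s + 1)) (b : Bool) => if b then
      a (m.1 l.succ) * ee (m.1 l.succ * X l.succ) else
        (starRingEnd ℂ) (a (m.1 l.succ) * ee (m.1 l.succ * X l.succ))]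
    simp only [Fintype.sum_bool, if_true, Bool.false_eq_true, if_false, Complex.add_conj]
    rw [← Complex.ofReal_prod, Complex.re_mul_ofReal, Fin.prod_univ_succ (n := s + 1), mul_assoc]
    rfl

lemma modes {ε : ℝ} (hε : 0 < ε) : ∃ (I : Type) (_ : Fintype I) (μ : I → ℕ) (ν : I → ℤ)
    (c : I → ℂ), (∀ i, 0 < μ i) ∧ Function.Injective ν ∧ (∀ i, c i ≠ 0) ∧
    ∑ i, 2 * ‖c i‖ ^ 2 = 1 ∧
    ∀ x y : ℝ, |∑ i, 2 * (c i * ee (μ i * (x + ν i * y))).re| ≤ 1 + ε := by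
  have h1 := min_le_left (ε / 4) (1 / 2)
  have h2 := min_le_right (ε / 4) (1 / 2)
  have h0 : 0 < min (ε / 4) (1 / 2) := by positivity
  obtain ⟨I, _, μ, ν, c, a1, a2, a3, a4, a5⟩ := modes0 h0
  set S := ∑ i, 2 * ‖c i‖ ^ 2 with hS
  have h3 : 1 - min (ε / 4) (1 / 2) ≤ √S := le_sqrt_of_sq_le (by nlinarith)
  have h4 : 0 < √S := by linarith
  refine ⟨I, inferInstance, μ, ν, fun i => (√S)⁻¹ * c i, a1, a2,
    fun i => mul_ne_zero (by simpa using h4.ne') (a3 i), ?_, fun x y => ?_⟩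
  · simp only [norm_mul, norm_inv, Complex.norm_real, Real.norm_eq_abs, mul_pow, inv_pow, sq_abs,
      mul_left_comm (2 : ℝ), ← mul_sum]
    rw [sq_sqrt (by linarith), mul_sum, inv_mul_cancel₀ (by linarith : S ≠ 0)]
  · simp only [← Complex.ofReal_inv, mul_assoc, Complex.re_ofReal_mul, mul_left_comm (2 : ℝ),
      ← mul_sum]
    rw [abs_mul, abs_of_pos (inv_pos.2 h4), inv_mul_le_iff₀ h4, mul_sum]
    refine (a5 x y).trans ?_
    nlinarith

end H2UF
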