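import Crest.Agent.H2.UF1

set_option autoImplicit false
set_option maxHeartbeats 400000

namespace H2UF

open Finset

section
variable {X I : Type} [Fintype X] [DecidableEq X] [Fintype I] [DecidableEq I] {w : I → ℝ}

lemma pr_eq (hw : ∑ i, w i = 1) {ι : Type} [Fintype ι] (x : ι → X) (c : ι → I)
    (hx : Function.Injective x) : ∑ ω : X → I, (∏ y, w (ω y)) *
      (if ∀ t, ω (x t) = c t then 1 else 0) = ∏ t, w (c t) := by
  classical
  have e1 : ∀ ω : X → I, (∏ y, w (ω y)) * (if ∀ t, ω (x t) = c t then 1 else 0)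
      = ∏ y, w (ω y) * if ∀ t, x t = y → ω y = c t then 1 else 0 := fun ω => by
    rw [prod_mul_distrib, prod_boole]
    congr 2
    exact propext ⟨fun h y _ t e => e ▸ h t, fun h t => h _ (mem_univ _) t rfl⟩
  simp only [e1]
  rw [← Fintype.prod_sum fun y a => w a * if ∀ t, x t = y → a = c t then 1 else 0,
    ← prod_fiberwise univ x]
  refine prod_congr rfl fun y _ => ?_
  by_cases h : ∃ t, x t = y
  · obtain ⟨t, rfl⟩ := h
    rw [prod_eq_single_of_mem t (by simp) fun t' h h' => absurd (hx (mem_filter.1 h).2) h']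
    simp [hx.eq_iff]
  · push Not at h
    simp [h, hw]

lemma pr_le (hw0 : ∀ i, 0 < w i) (hw : ∑ i, w i = 1) {ι : Type} [Fintype ι] (x : ι → X) (c : ι → I)
    (hx : ∀ t t', x t = x t' → c t = c t' → t = t') : ∑ ω : X → I, (∏ y, w (ω y)) *
      (if ∀ t, ω (x t) = c t then 1 else 0) ≤ ∏ t, w (c t) := by
  by_cases h : Function.Injective x
  · exact (pr_eq hw x c h).le
  · refine le_trans (le_of_eq (sum_eq_zero fun ω _ => ?_)) (prod_nonneg fun _ _ => (hw0 _).le)
    rw [if_neg fun h' => h fun t t' e => hx t t' e (by rw [← h', ← h', e]), mul_zero]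

lemma colour0 (hw0 : ∀ i, 0 < w i) (hw : ∑ i, w i = 1) {E Y : Type} [Fintype E] [Fintype Y]
    [DecidableEq Y] (f : I → E → Y) (ρ : Y → X) {D b η : ℝ} (hD : 0 < D) (hη : 0 < η)
    (h1 : ∀ i e, ((univ.filter fun e' => f i e' = f i e).card : ℝ) ≤ D)
    (h2 : Fintype.card Y * D ≤ Fintype.card E)
    (h3 : ∀ i j, j ≠ i → ∀ e, (univ.filter fun e' => f i e' = f i e ∧
      ρ (f j e') = ρ (f j e)).card ≤ 2)
    (h4 : ((univ.filter fun e => ¬ Function.Injective fun i => ρ (f i e)).card : ℝ) ≤ b) :
    ∃ ω : X → I, (∏ i, w i) * Fintype.card E - b - Fintype.card I * (2 * Fintype.card I *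
      Fintype.card E / (η * D * ∏ i, w i) + 2 * b / η) ≤
      ∑ e, (if ∀ i, ω (ρ (f i e)) = i then 1 else 0) - ∑ i, ∑ y,
        ((∑ e, if f i e = y ∧ ∀ i, ω (ρ (f i e)) = i then 1 else 0) ^ 2
          - 2 * (D * (∏ i, w i) / w i) * (∑ e, if f i e = y ∧ ∀ i, ω (ρ (f i e)) = i then 1 else 0)
          + (D * (∏ i, w i) / w i) ^ 2 * (if ω (ρ y) = i then 1 else 0))
          / (η * (D * (∏ i, w i) / w i)) := by
  classical
  set p := ∏ i, w i with hp
  have hp0 : 0 < p := prod_pos fun i _ => hw0 i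
  have hw1 : ∀ i, w i ≤ 1 := fun i => hw ▸ single_le_sum (fun i _ => (hw0 i).le) (mem_univ i)
  have hp1 : p ≤ 1 := prod_le_one (fun i _ => (hw0 i).le) fun i _ => hw1 i
  have hb : 0 ≤ b := (Nat.cast_nonneg _).trans h4
  let W : (X → I) → ℝ := fun ω => ∏ y, w (ω y)
  have hW0 : ∀ ω, 0 < W ω := fun ω => prod_pos fun _ _ => hw0 _
  have hW : ∑ ω, W ω = 1 := by simpa using pr_eq hw (ι := Empty) (X := X) Empty.elim Empty.elim (by
    intro t; exact t.elim)
  let v : (X → I) → E → ℝ := fun ω e => if ∀ i, ω (ρ (f i e)) = i then 1 else 0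
  have hV : p * Fintype.card E - b ≤ ∑ ω, W ω * ∑ e, v ω e := by
    simp only [mul_sum]
    rw [sum_comm]
    calc _ ≤ ∑ e, (p - if ¬ Function.Injective fun i => ρ (f i e) then 1 else 0) := by
          rw [sum_sub_distrib, sum_boole]; simp only [sum_const, card_univ, nsmul_eq_mul]; linarith
      _ ≤ _ := by
          refine sum_le_sum fun e _ => ?_
          split_ifs with h
          · rw [sub_zero]; exact (pr_eq hw _ (fun i => i) h).ge
          · exact (sub_nonpos.2 hp1).trans (sum_nonneg fun ω _ => mul_nonneg (hW0 ω).le (by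
              simp only [v]; positivity))
  have hA : ∀ i, ∑ ω, W ω * ∑ y, (∑ e, if f i e = y ∧ ∀ i, ω (ρ (f i e)) = i then (1 : ℝ) else 0) ^ 2
      ≤ Fintype.card E * (D * p / w i * p + 2 * Fintype.card I) := by
    intro i
    have e1 : ∀ ω, ∑ y, (∑ e, if f i e = y ∧ ∀ i, ω (ρ (f i e)) = i then (1 : ℝ) else 0) ^ 2
        = ∑ e, ∑ e' ∈ univ.filter fun e' => f i e' = f i e, v ω e * v ω e' := fun ω => by
      simp only [sq, sum_mul_sum]
      rw [sum_comm]
      refine sum_congr rfl fun e _ => ?_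
      rw [sum_comm, sum_filter]
      refine sum_congr rfl fun e' _ => ?_
      rw [sum_eq_single (f i e) (fun y _ h => by simp [h.symm]) (by simp)]
      by_cases h : f i e' = f i e <;> simp [h, v]
    simp only [e1, mul_sum]
    rw [sum_comm]
    refine (sum_le_card_nsmul _ _ _ fun e _ => ?_).trans (by rw [nsmul_eq_mul, card_univ])
    rw [sum_comm]
    calc _ ≤ ∑ e' ∈ univ.filter fun e' => f i e' = f i e, (p / w i * p +
          ∑ j ∈ univ.erase i, if ρ (f j e') = ρ (f j e) then 1 else 0) := by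
          refine sum_le_sum fun e' he' => ?_
          have hpp : 0 ≤ p / w i * p := by have := hw0 i; positivity
          by_cases h : ∃ j ∈ univ.erase i, ρ (f j e') = ρ (f j e)
          · obtain ⟨j, hj, h⟩ := h
            have a1 := single_le_sum (f := fun j => if ρ (f j e') = ρ (f j e) then (1 : ℝ) else 0)
              (fun _ _ => by positivity) hj
            rw [if_pos h] at a1
            have a2 : ∑ ω, W ω * (v ω e * v ω e') ≤ ∑ ω, W ω := sum_le_sum fun ω _ =>
              mul_le_of_le_one_right (hW0 ω).le (by simp only [v]; split_ifs <;> norm_num)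
            linarith
          · push Not at h
            have a1 := pr_le hw0 hw (ι := I ⊕ {j // j ≠ i})
              (Sum.elim (fun j => ρ (f j e)) fun j => ρ (f j e')) (Sum.elim id Subtype.val) (by
                rintro (t | t) (t' | t') h1 h2 <;> simp only [Sum.elim_inl, Sum.elim_inr, id] at h1 h2
                · rw [h2]
                · subst h2; exact absurd h1.symm (h _ (mem_erase.2 ⟨t'.2, mem_univ _⟩))
                · subst h2; exact absurd h1 (h _ (mem_erase.2 ⟨t.2, mem_univ _⟩))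
                · rw [Subtype.ext h2])
            have a2 : ∏ j : {j // j ≠ i}, w j = p / w i := by
              rw [eq_div_iff (hw0 i).ne', hp, Fintype.prod_eq_mul_prod_subtype_ne w i, mul_comm]
            simp only [Fintype.prod_sum_type, Sum.elim_inl, Sum.elim_inr, id, a2, Sum.forall] at a1
            refine le_trans (sum_le_sum fun ω _ => mul_le_mul_of_nonneg_left ?_ (hW0 ω).le)
              (a1.trans ?_)
            · simp only [v]
              split_ifs with b1 b2 b3 <;> first | exact absurd ⟨b1, fun j => b2 j⟩ b3 | norm_num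
            · rw [mul_comm]
              exact le_add_of_nonneg_right (sum_nonneg fun _ _ => by positivity)
      _ ≤ _ := by
          rw [sum_add_distrib, sum_const, nsmul_eq_mul, sum_comm, mul_div_assoc, mul_assoc]
          refine add_le_add (mul_le_mul_of_nonneg_right (h1 i e) (by have := hw0 i; positivity))
            ((sum_le_card_nsmul _ _ 2 fun j hj => ?_).trans ?_)
          · rw [sum_boole, filter_filter]; exact_mod_cast h3 i j (mem_erase.1 hj).1 e
          · rw [nsmul_eq_mul, mul_comm]; gcongr; exact card_le_univ _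
  have hB : ∀ i ω, ∑ y, (∑ e, if f i e = y ∧ ∀ i, ω (ρ (f i e)) = i then (1 : ℝ) else 0)
      = ∑ e, v ω e := fun i ω => by
    rw [sum_comm]; exact sum_congr rfl fun e _ => by simp [ite_and, v]
  have hC : ∀ i, ∑ ω, W ω * ∑ y, (if ω (ρ y) = i then (1 : ℝ) else 0) = Fintype.card Y * w i := by
    intro i
    simp only [mul_sum]
    rw [sum_comm, sum_congr rfl (g := fun _ => w i) fun y _ => by
      simpa using pr_eq hw (ι := Unit) (fun _ => ρ y) (fun _ => i) fun _ _ _ => rfl]
    simp
  have hne : (univ : Finset (X → I)).Nonempty := by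
    by_contra h; rw [not_nonempty_iff_eq_empty] at h; simp [h] at hW
  obtain ⟨ω, -, hω⟩ := exists_le_of_sum_le hne (f := fun ω => W ω * (p * Fintype.card E - b -
    Fintype.card I * (2 * Fintype.card I * Fintype.card E / (η * D * p) + 2 * b / η)))
    (g := fun ω => W ω * (∑ e, v ω e - ∑ i,
        ((∑ y, (∑ e, if f i e = y ∧ ∀ i, ω (ρ (f i e)) = i then 1 else 0) ^ 2)
          - 2 * (D * p / w i) * (∑ e, v ω e)
          + (D * p / w i) ^ 2 * ∑ y, (if ω (ρ y) = i then 1 else 0)) / (η * (D * p / w i)))) (by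
      rw [← sum_mul, hW, one_mul]
      simp only [mul_sub (W _), sum_sub_distrib, mul_sum univ _ (W _)]
      rw [sum_comm (s := univ (α := X → I)) (t := univ (α := I))]
      refine sub_le_sub (by simpa only [mul_sum] using hV)
        ((sum_le_card_nsmul _ _ _ fun i _ => ?_).trans (by rw [nsmul_eq_mul, card_univ]))
      have hm : D * p ≤ D * p / w i := le_div_self (by positivity) (hw0 i) (hw1 i)
      have hm0 : 0 < D * p := by positivity
      have hm1 : D * p / w i * w i = D * p := div_mul_cancel₀ _ (hw0 i).ne'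
      have a1 := hA i
      have a2 := hC i
      generalize D * p / w i = m at *
      simp only [← mul_div_assoc, ← sum_div, mul_add (W _), mul_sub (W _), sum_add_distrib,
        sum_sub_distrib, mul_left_comm (W _), ← mul_sum univ _ (2 * m), ← mul_sum univ _ (m ^ 2)]
      rw [a2, div_le_iff₀ (by nlinarith)]
      have a3 : 2 * Fintype.card I * Fintype.card E ≤
          2 * Fintype.card I * Fintype.card E / (η * D * p) * (η * m) := by
        rw [div_mul_eq_mul_div, le_div_iff₀ (by positivity), mul_assoc η]; gcongr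
      have a4 : 2 * b / η * (η * m) = 2 * b * m := by field_simp
      have a5 : m ^ 2 * (Fintype.card Y * w i) ≤ m * p * Fintype.card E := by
        calc _ = m * (m * w i) * Fintype.card Y := by ring
          _ = m * p * (Fintype.card Y * D) := by rw [hm1]; ring
          _ ≤ _ := by gcongr; nlinarith
      rw [add_mul, a4]
      nlinarith [mul_le_mul_of_nonneg_left hV (show 0 ≤ m by linarith)])
  refine ⟨ω, (le_of_mul_le_mul_left hω (hW0 ω)).trans (le_of_eq ?_)⟩
  simp only [← sum_div, sum_add_distrib, sum_sub_distrib, ← mul_sum, hB, v]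

lemma colour (hw0 : ∀ i, 0 < w i) (hw : ∑ i, w i = 1) {E Y : Type} [Fintype E] [Fintype Y]
    [DecidableEq Y] (f : I → E → Y) (ρ : Y → X) {D b η : ℝ} (hD : 0 < D) (hη : 0 < η)
    (h1 : ∀ i e, ((univ.filter fun e' => f i e' = f i e).card : ℝ) ≤ D)
    (h2 : Fintype.card Y * D ≤ Fintype.card E)
    (h3 : ∀ i j, j ≠ i → ∀ e, (univ.filter fun e' => f i e' = f i e ∧
      ρ (f j e') = ρ (f j e)).card ≤ 2)
    (h4 : ((univ.filter fun e => ¬ Function.Injective fun i => ρ (f i e)).card : ℝ) ≤ b)
    (κ : I → ℕ) (hκ : ∀ i, (1 + η) * (D * (∏ i, w i) / w i) ≤ κ i) :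
    ∃ (ω : X → I) (K : Finset E) (lab : I → E → ℕ),
      (∀ e ∈ K, ∀ i, ω (ρ (f i e)) = i ∧ lab i e < κ i) ∧
      (∀ i, ∀ e ∈ K, ∀ e' ∈ K, f i e = f i e' → lab i e = lab i e' → e = e') ∧
      (∏ i, w i) * Fintype.card E - b - Fintype.card I * (2 * Fintype.card I *
        Fintype.card E / (η * D * ∏ i, w i) + 2 * b / η) ≤ K.card := by
  classical
  obtain ⟨ω, hω⟩ := colour0 hw0 hw f ρ hD hη h1 h2 h3 h4
  let o := Fintype.equivFin E
  let F : I → Y → Finset E := fun i y => univ.filter fun e => f i e = y ∧ ∀ i, ω (ρ (f i e)) = i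
  let lab : I → E → ℕ := fun i e => ((F i (f i e)).filter fun e' => o e' < o e).card
  have hlt : ∀ i y, ∀ e ∈ F i y, ∀ e' ∈ F i y, o e < o e' → lab i e < lab i e' := by
    intro i y e he e' he' h
    simp only [lab, (mem_filter.1 he).2.1, (mem_filter.1 he').2.1]
    refine card_lt_card ⟨fun x hx => mem_filter.2 ⟨(mem_filter.1 hx).1,
      (mem_filter.1 hx).2.trans h⟩, fun h' => ?_⟩
    exact lt_irrefl _ (mem_filter.1 (h' (mem_filter.2 ⟨he, h⟩))).2
  have hinj : ∀ i y, ∀ e ∈ F i y, ∀ e' ∈ F i y, lab i e = lab i e' → e = e' := by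
    intro i y e he e' he' h
    rcases lt_trichotomy (o e) (o e') with h' | h' | h'
    · exact absurd h (hlt i y e he e' he' h').ne
    · exact o.injective h'
    · exact absurd h (hlt i y e' he' e he h').ne'
  have hov : ∀ i y, ((F i y).filter fun e => κ i ≤ lab i e).card ≤ (F i y).card - κ i := by
    intro i y
    rw [← Nat.card_Ico]
    refine card_le_card_of_injOn (lab i) (fun e he => ?_) fun e he e' he' h =>
      hinj i y e (mem_filter.1 he).1 e' (mem_filter.1 he').1 h
    have he1 := (mem_filter.1 he).1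
    refine mem_coe.2 (mem_Ico.2 ⟨(mem_filter.1 he).2, ?_⟩)
    simp only [lab, (mem_filter.1 he1).2.1]
    exact card_lt_card ⟨filter_subset _ _, fun h' => lt_irrefl _ (mem_filter.1 (h' he1)).2⟩
  refine ⟨ω, univ.filter fun e => ∀ i, ω (ρ (f i e)) = i ∧ lab i e < κ i, lab,
    fun e he => (mem_filter.1 he).2, fun i e he e' he' h h' => hinj i (f i e) e
      (mem_filter.2 ⟨mem_univ _, rfl, fun j => ((mem_filter.1 he).2 j).1⟩) e'
      (mem_filter.2 ⟨mem_univ _, h.symm, fun j => ((mem_filter.1 he').2 j).1⟩) h', hω.trans ?_⟩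
  have a1 : (univ.filter fun e => ∀ i, ω (ρ (f i e)) = i).card ≤
      (univ.filter fun e => ∀ i, ω (ρ (f i e)) = i ∧ lab i e < κ i).card
        + ∑ i, ∑ y, ((F i y).filter fun e => κ i ≤ lab i e).card := by
    refine le_trans (card_le_card fun e he => ?_) ((card_union_le _ (univ.biUnion fun i =>
      univ.biUnion fun y => (F i y).filter fun e => κ i ≤ lab i e)).trans (Nat.add_le_add_left
        (card_biUnion_le.trans (sum_le_sum fun i _ => card_biUnion_le)) _))
    have he' := (mem_filter.1 he).2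
    by_cases h : ∀ i, lab i e < κ i
    · exact mem_union_left _ (mem_filter.2 ⟨mem_univ _, fun i => ⟨he' i, h i⟩⟩)
    · push Not at h
      obtain ⟨i, hi⟩ := h
      exact mem_union_right _ (mem_biUnion.2 ⟨i, mem_univ _, mem_biUnion.2 ⟨f i e, mem_univ _,
        mem_filter.2 ⟨mem_filter.2 ⟨mem_univ _, rfl, he'⟩, hi⟩⟩⟩)
  rw [sum_boole, sub_le_iff_le_add]
  refine le_trans (Nat.cast_le.2 a1) ?_
  push_cast
  refine add_le_add le_rfl (sum_le_sum fun i _ => sum_le_sum fun y _ => ?_)
  have hm0 : 0 < D * (∏ i, w i) / w i := div_pos (mul_pos hD (prod_pos fun i _ => hw0 i)) (hw0 i)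
  have a2 := hκ i
  generalize D * (∏ i, w i) / w i = m at *
  rw [sum_boole, le_div_iff₀ (by positivity)]
  change _ ≤ ((F i y).card : ℝ) ^ 2 - 2 * m * (F i y).card + _
  have a3 := hov i y
  rcases le_total (F i y).card (κ i) with h | h
  · rw [Nat.sub_eq_zero_of_le h, Nat.le_zero] at a3
    rw [a3, Nat.cast_zero]
    split_ifs with h'
    · nlinarith [sq_nonneg (((F i y).card : ℝ) - m)]
    · have : F i y = ∅ := filter_eq_empty_iff.2 fun e _ he => h' (he.1 ▸ he.2 i)
      simp [this]
  · have a4 : (((F i y).filter fun e => κ i ≤ lab i e).card : ℝ) ≤ (F i y).card - κ i := by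
      exact_mod_cast a3
    have a5 : (κ i : ℝ) ≤ (F i y).card := by exact_mod_cast h
    have a6 : (F i y).Nonempty := card_pos.1 (by
      have : (0 : ℝ) < (F i y).card := by nlinarith
      exact_mod_cast this)
    obtain ⟨e, he⟩ := a6
    rw [if_pos ((mem_filter.1 he).2.1 ▸ (mem_filter.1 he).2.2 i)]
    have a7 : 0 < η * m := by positivity
    nlinarith [mul_le_mul_of_nonneg_right a4 a7.le]

end

end H2UF
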