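import Crest.Agent.H2.UF2

set_option autoImplicit false
set_option maxHeartbeats 400000

namespace H2UF

open Real Finset

lemma col_pred {A R : Type} [Fintype A] [Fintype R] (a : R → A → ℝ) (ha : ∀ l k, |a l k| ≤ 1)
    (hM : Fintype.card A ≤ Fintype.card R) (p : A → Prop) [DecidablePred p] :
    ∃ e : A → ℝ, (∀ k, p k → e k = 1 ∨ e k = -1) ∧ (∀ k, ¬ p k → e k = 0) ∧ ∑ k, e k ≤ 0 ∧
      ∀ l, |∑ k, e k * a l k| ≤ 640 * √√(Fintype.card {k // p k} * Fintype.card R) := by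
  obtain ⟨ε, h1, h2⟩ := full_col (R := R) _ (A := {k // p k}) (fun l k => a l k)
    (fun l k => ha l k) rfl ((Fintype.card_subtype_le p).trans hM)
  let e : A → ℝ := fun k => if h : p k then ε ⟨k, h⟩ else 0
  have he : ∀ l, |∑ k, e k * a l k| ≤ 640 * √√(Fintype.card {k // p k} * Fintype.card R) := by
    intro l
    rw [← Fintype.sum_subtype_add_sum_subtype p,
      sum_congr rfl (g := fun k : {k // p k} => ε k * a l k) (fun k _ => by simp [e, k.2]),
      sum_eq_zero (s := univ) (f := fun k : {k // ¬ p k} => e k * a l k)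
        (fun k _ => by simp [e, k.2]), add_zero]
    exact h2 l
  have he1 : ∀ k, p k → e k = 1 ∨ e k = -1 := fun k h => by simpa [e, h] using h1 ⟨k, h⟩
  have he2 : ∀ k, ¬ p k → e k = 0 := fun k h => by simp [e, h]
  rcases le_total (∑ k, e k) 0 with h | h
  · exact ⟨e, he1, he2, h, he⟩
  · refine ⟨fun k => - e k, fun k hk => ?_, fun k hk => by simp [he2 k hk], by simpa using h,
      fun l => ?_⟩
    · rcases he1 k hk with h | h <;> simp [h]
    · simp only [neg_mul, sum_neg_distrib, abs_neg]; exact he l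

lemma dyadic {A R : Type} [Fintype A] [Fintype R] (a : R → A → ℝ) (ha : ∀ l k, |a l k| ≤ 1)
    (hM : Fintype.card A ≤ Fintype.card R) {Y : ℝ} (hY : 0 ≤ Y) (j : ℕ) :
    ∀ n : A → ℕ, (∀ k, n k ≤ 2 ^ j) → ∑ k, (n k : ℝ) ≤ 2 ^ j * Y →
      ∃ s : A → ℝ, (∀ k, s k = 0 ∨ s k = 1) ∧ ∀ l, |∑ k, (s k - n k / 2 ^ j) * a l k|
        ≤ 960 * √√(Y * Fintype.card R) * (1 - (3 / 5) ^ j) := by
  induction j with
  | zero =>
    intro n h1 _
    refine ⟨fun k => n k, fun k => ?_, fun l => by simp⟩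
    rcases Nat.le_one_iff_eq_zero_or_eq_one.1 (h1 k) with h | h <;> simp [h]
  | succ j ih =>
    intro n h1 h2
    obtain ⟨e, he1, he2, he3, he4⟩ := col_pred a ha hM (fun k => n k % 2 = 1)
    have hm : ∀ k, ∃ m : ℕ, m ≤ 2 ^ j ∧ (m : ℝ) = (n k + e k) / 2 := by
      intro k
      have := h1 k
      rw [pow_succ] at this
      by_cases h : n k % 2 = 1
      · obtain ⟨c, hc⟩ : ∃ c, n k = 2 * c + 1 := ⟨n k / 2, by omega⟩
        rcases he1 k h with h | h
        · exact ⟨c + 1, by omega, by rw [h, hc]; push_cast; ring⟩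
        · exact ⟨c, by omega, by rw [h, hc]; push_cast; ring⟩
      · obtain ⟨c, hc⟩ : ∃ c, n k = 2 * c := ⟨n k / 2, by omega⟩
        exact ⟨c, by omega, by rw [he2 k h, hc]; push_cast; ring⟩
    choose m hm1 hm2 using hm
    obtain ⟨s, hs1, hs2⟩ := ih m hm1 (by
      simp only [hm2]; rw [← sum_div, sum_add_distrib]; rw [pow_succ] at h2; linarith)
    refine ⟨s, hs1, fun l => ?_⟩
    have e1 : ∑ k, (s k - n k / 2 ^ (j + 1)) * a l k
        = ∑ k, (s k - m k / 2 ^ j) * a l k + (∑ k, e k * a l k) / 2 ^ (j + 1) := by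
      rw [sum_div, ← sum_add_distrib]
      refine sum_congr rfl fun k _ => ?_
      rw [hm2]; field_simp; ring
    have hc : (Fintype.card {k // n k % 2 = 1} : ℝ) ≤ 2 ^ (j + 1) * Y := by
      refine le_trans ?_ h2
      rw [Fintype.card_subtype, card_filter]
      push_cast
      refine sum_le_sum fun k _ => ?_
      split_ifs with h
      · exact_mod_cast (show 1 ≤ n k by omega)
      · positivity
    have h5 : √√((Fintype.card {k // n k % 2 = 1} : ℝ) * Fintype.card R)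
        ≤ (6 / 5) ^ (j + 1) * √√(Y * Fintype.card R) := by
      rw [← sqrt_sq (show (0 : ℝ) ≤ (6 / 5) ^ (j + 1) by positivity), ← sqrt_mul (by positivity),
        ← sqrt_sq (show (0 : ℝ) ≤ ((6 / 5) ^ (j + 1)) ^ 2 by positivity),
        ← sqrt_mul (by positivity)]
      refine sqrt_le_sqrt (sqrt_le_sqrt ?_)
      have h6 : (2 : ℝ) ^ (j + 1) ≤ (((6 / 5) ^ (j + 1)) ^ 2) ^ 2 := by
        rw [← pow_mul, ← pow_mul, mul_comm (j + 1), pow_mul]; gcongr; norm_num
      calc _ ≤ 2 ^ (j + 1) * Y * Fintype.card R := by gcongr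
        _ = 2 ^ (j + 1) * (Y * Fintype.card R) := by ring
        _ ≤ _ := by gcongr
    rw [e1]
    refine (abs_add_le _ _).trans ?_
    rw [abs_div, abs_of_pos (show (0 : ℝ) < 2 ^ (j + 1) by positivity)]
    have h7 : |∑ k, e k * a l k| / 2 ^ (j + 1)
        ≤ 640 * ((3 / 5) ^ (j + 1) * √√(Y * Fintype.card R)) := by
      rw [div_le_iff₀ (by positivity)]
      refine (he4 l).trans ((mul_le_mul_of_nonneg_left h5 (by norm_num)).trans (le_of_eq ?_))
      rw [show (6 / 5 : ℝ) = 3 / 5 * 2 by norm_num, mul_pow]; ring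
    refine (add_le_add (hs2 l) h7).trans (le_of_eq ?_)
    ring

lemma norm_DD_neg (h : ℕ) (y : ℝ) : ‖DD h (-y)‖ = ‖DD h y‖ := by
  rw [← Complex.norm_conj (DD h y)]
  simp [DD, conj_ee]

lemma sampling {N : ℕ} (d : Fin N → ℂ) {D : ℝ}
    (hD : ∀ l < 2 * N, ‖∑ k, d k * ee ((k : ℕ) * (l / (2 * N : ℕ)))‖ ≤ D) (hD0 : 0 ≤ D) (θ : ℝ) :
    ‖∑ k, d k * ee ((k : ℕ) * θ)‖ ≤ 3 / 2 * D := by
  rcases Nat.eq_zero_or_pos N with h0 | h0
  · subst h0; simp; positivity
  set M := 2 * N with hM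
  have hM0 : 0 < M := by omega
  have key : ∀ k < N, ∑ l ∈ range M, ee ((k : ℕ) * (l / M)) *
      (DD N (-(θ - l / M)) * DD M (θ - l / M)) = M * N * ee (k * θ) := by
    intro k hk
    have e1 : ∀ l : ℕ, ee ((k : ℕ) * (l / M)) * (DD N (-(θ - l / M)) * DD M (θ - l / M))
        = ∑ a ∈ range N, ∑ b ∈ range M, ee ((b - a) * θ) * ee (((k + a - b : ℤ) : ℝ) * l / M) := by
      intro l
      rw [DD, DD, sum_mul_sum, mul_sum]
      refine sum_congr rfl fun a _ => ?_
      rw [mul_sum]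
      refine sum_congr rfl fun b _ => ?_
      simp only [← ee_add]
      congr 1; push_cast; ring
    simp only [e1]
    rw [sum_comm, sum_congr rfl (g := fun _ => (M : ℂ) * ee (k * θ))]
    · simp; ring
    intro a ha
    rw [sum_comm]
    simp only [← mul_sum, sum_ee_grid hM0]
    rw [sum_eq_single (k + a)]
    · rw [if_pos (by simp), mul_comm]; congr 2; push_cast; ring
    · intro b hb hne
      rw [if_neg, mul_zero]
      intro hd
      have := Int.eq_zero_of_abs_lt_dvd hd (by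
        rw [abs_lt]; have := mem_range.1 ha; have := mem_range.1 hb; constructor <;> omega)
      omega
    · intro h; exact absurd (mem_range.2 (by have := mem_range.1 ha; omega)) h
  have e2 : (M * N : ℂ) * ∑ k, d k * ee ((k : ℕ) * θ) = ∑ l ∈ range M,
      (∑ k, d k * ee ((k : ℕ) * (l / M))) * (DD N (-(θ - l / M)) * DD M (θ - l / M)) := by
    simp only [sum_mul]
    rw [sum_comm, mul_sum]
    refine sum_congr rfl fun k _ => ?_
    simp only [mul_assoc (d k)]
    rw [← mul_sum, key k k.2]; ring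
  have e3 := congrArg norm e2
  rw [norm_mul, norm_mul, Complex.norm_natCast, Complex.norm_natCast] at e3
  have h1 : (0 : ℝ) < M * N := by positivity
  refine le_of_mul_le_mul_left (e3.le.trans ((norm_sum_le _ _).trans ?_)) h1
  calc _ ≤ ∑ l ∈ range M, D * ((‖DD N (θ - l / M)‖ ^ 2 + ‖DD M (θ - l / M)‖ ^ 2) / 2) := by
        refine sum_le_sum fun l hl => ?_
        rw [norm_mul, norm_mul, norm_DD_neg]
        refine mul_le_mul (hD l (mem_range.1 hl)) ?_ (by positivity) hD0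
        nlinarith [sq_nonneg (‖DD N (θ - l / M)‖ - ‖DD M (θ - l / M)‖)]
    _ = _ := by
        rw [← mul_sum, ← sum_div, sum_add_distrib, grid_DD hM0 (by omega), grid_DD hM0 le_rfl, hM]
        push_cast; ring

lemma rounding {ε : ℝ} (hε : 0 < ε) : ∃ η : ℝ, 0 < η ∧ ∀ (N : ℕ) (x : Fin N → ℝ), (∀ k, |x k| ≤ 1) →
    ∑ k, (1 - x k ^ 2) ≤ η * N → ∃ s : Fin N → ℝ, (∀ k, s k = 1 ∨ s k = -1) ∧
      ∀ θ : ℝ, ‖∑ k, ((s k - x k : ℝ) : ℂ) * ee ((k : ℕ) * θ)‖ ≤ ε * √N := by
  refine ⟨(ε / 12000) ^ 4 / 2, by positivity, fun N x hx hs => ?_⟩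
  rcases Nat.eq_zero_or_pos N with h0 | h0
  · subst h0; exact ⟨fun _ => 1, fun _ => Or.inl rfl, fun θ => by simp⟩
  have hN : (0 : ℝ) < N := by exact_mod_cast h0
  obtain ⟨B, hB⟩ := pow_unbounded_of_one_lt (12 * √N / ε) (show (1 : ℝ) < 2 by norm_num)
  let σ : Fin N → ℝ := fun k => if 0 ≤ x k then 1 else -1
  have hσ : ∀ k, σ k * |x k| = x k := fun k => by
    simp only [σ]; split_ifs with h
    · rw [abs_of_nonneg h, one_mul]
    · rw [abs_of_neg (not_le.1 h)]; ring
  have hσ1 : ∀ k, σ k = 1 ∨ σ k = -1 := fun k => by simp only [σ]; split_ifs <;> simp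
  let a : Fin (2 * N) × Bool → Fin N → ℝ := fun l k => σ k *
    if l.2 then (ee ((k : ℕ) * ((l.1 : ℕ) / (2 * N : ℕ)))).re
    else (ee ((k : ℕ) * ((l.1 : ℕ) / (2 * N : ℕ)))).im
  have ha : ∀ l k, |a l k| ≤ 1 := by
    intro l k
    have : |σ k| = 1 := by rcases hσ1 k with h | h <;> simp [h]
    simp only [a]
    rw [abs_mul, this, one_mul]
    split_ifs
    · exact (Complex.abs_re_le_norm _).trans (norm_ee _).le
    · exact (Complex.abs_im_le_norm _).trans (norm_ee _).le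
  let y : Fin N → ℝ := fun k => (1 - |x k|) / 2
  have hy0 : ∀ k, 0 ≤ y k := fun k => by simp only [y]; linarith [hx k]
  have h2B : (0 : ℝ) < 2 ^ B := by positivity
  obtain ⟨s, hs1, hs2⟩ := dyadic a ha (by simp; omega)
    (show 0 ≤ (ε / 12000) ^ 4 / 4 * N by positivity) B (fun k => ⌊2 ^ B * y k⌋₊)
    (fun k => by
      refine Nat.floor_le_of_le ?_
      push_cast
      have : y k ≤ 1 := by simp only [y]; linarith [abs_nonneg (x k)]
      nlinarith)
    (by
      calc _ ≤ ∑ k, 2 ^ B * ((1 - x k ^ 2) / 2) := by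
            refine sum_le_sum fun k _ => (Nat.floor_le (by have := hy0 k; positivity)).trans ?_
            gcongr
            simp only [y]
            rw [← sq_abs]; nlinarith [hx k, abs_nonneg (x k)]
        _ ≤ _ := by rw [← mul_sum, ← sum_div]; gcongr; linarith)
  have e1 : √√((ε / 12000) ^ 4 / 4 * N * Fintype.card (Fin (2 * N) × Bool)) = ε / 12000 * √N := by
    rw [show (ε / 12000) ^ 4 / 4 * N * Fintype.card (Fin (2 * N) × Bool)
      = ((ε / 12000) ^ 2 * N) ^ 2 by simp; ring, sqrt_sq (by positivity),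
      sqrt_mul (by positivity), sqrt_sq (by positivity)]
  rw [e1] at hs2
  have hrow : ∀ l, |∑ k, (s k - y k) * a l k| ≤ ε / 6 * √N := by
    intro l
    have e2 : ∑ k, (s k - y k) * a l k = ∑ k, (s k - (⌊2 ^ B * y k⌋₊ : ℝ) / 2 ^ B) * a l k
        + ∑ k, ((⌊2 ^ B * y k⌋₊ : ℝ) / 2 ^ B - y k) * a l k := by
      rw [← sum_add_distrib]; exact sum_congr rfl fun k _ => by ring
    have h3 : |∑ k, ((⌊2 ^ B * y k⌋₊ : ℝ) / 2 ^ B - y k) * a l k| ≤ ∑ _k : Fin N, 1 / 2 ^ B := by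
      refine (abs_sum_le_sum_abs _ _).trans (sum_le_sum fun k _ => ?_)
      rw [abs_mul]
      refine (mul_le_of_le_one_right (abs_nonneg _) (ha l k)).trans ?_
      rw [show (⌊2 ^ B * y k⌋₊ : ℝ) / 2 ^ B - y k = (⌊2 ^ B * y k⌋₊ - 2 ^ B * y k) / 2 ^ B by
        field_simp, abs_div, abs_of_pos h2B]
      gcongr
      exact Nat.abs_floor_sub_le (by have := hy0 k; positivity)
    rw [sum_const, card_univ, Fintype.card_fin, nsmul_eq_mul] at h3
    have h4 : (N : ℝ) * (1 / 2 ^ B) ≤ ε / 12 * √N := by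
      rw [div_lt_iff₀ hε] at hB
      rw [mul_one_div, div_le_iff₀ h2B]
      nlinarith [mul_self_sqrt hN.le, sqrt_nonneg (N : ℝ)]
    have h5 := hs2 l
    have h6 : (0 : ℝ) < (3 / 5) ^ B := by positivity
    have h7 : 0 ≤ ε * √N := by positivity
    rw [e2]
    refine (abs_add_le _ _).trans ?_
    nlinarith
  refine ⟨fun k => σ k * (1 - 2 * s k), fun k => ?_, fun θ => ?_⟩
  · rcases hσ1 k with h | h <;> rcases hs1 k with h' | h' <;> norm_num [h, h']
  refine (sampling _ (D := 2 / 3 * ε * √N) (fun l hl => ?_) (by positivity) θ).trans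
    (le_of_eq (by ring))
  have e3 : ∀ k, σ k * (1 - 2 * s k) - x k = -2 * ((s k - y k) * σ k) := fun k => by
    have := hσ k
    simp only [y]; linarith
  refine (Complex.norm_le_abs_re_add_abs_im _).trans ?_
  have h1 := hrow (⟨l, hl⟩, true)
  have h2 := hrow (⟨l, hl⟩, false)
  simp only [a, if_true, Bool.false_eq_true, if_false] at h1 h2
  simp only [e3, Complex.re_sum, Complex.im_sum, Complex.re_ofReal_mul, Complex.im_ofReal_mul,
    mul_assoc, ← mul_sum, abs_mul] at h1 h2 ⊢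
  norm_num at h1 h2 ⊢
  linarith

end H2UF
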