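import Crest.Agent.H2.UF7
import Crest.Agent.H2.UF3

set_option autoImplicit false
set_option maxHeartbeats 400000

namespace H2UF

open Real Finset MeasureTheory intervalIntegral

lemma glue_abs {Q : Type} [Fintype Q] {J : ℕ} (hJ : 0 < J) (a μ : Q → ℕ) (hμ : ∀ q, 0 < μ q)
    (hle : ∀ q, a q + μ q ≤ J)
    (dis : ∀ q q', q ≠ q' → Disjoint (Ico (a q) (a q + μ q)) (Ico (a q') (a q' + μ q')))
    (cov : ∀ j < J, ∃ q, j ∈ Ico (a q) (a q + μ q)) (f g : Q → ℝ → ℝ) {L lo hi : ℝ}
    (tay : ∀ q, Tay (f q) (g q) L Set.univ)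
    (out : ∀ q (x : ℝ), J * x ≤ a q ∨ a q + μ q ≤ J * x → (∃ m : ℤ, f q x = m) ∧ g q x = 0)
    (rng : ∀ q x, lo ≤ g q x ∧ g q x ≤ hi) :
    Tay (fun x => ∑ q, f q x) (fun x => ∑ q, g q x) (Fintype.card Q * L) Set.univ ∧
    (∀ x, x ≤ 0 ∨ 1 ≤ x → (∃ m : ℤ, ∑ q, f q x = m) ∧ ∑ q, g q x = 0) ∧
    (∀ x, lo ≤ ∑ q, g q x ∧ ∑ q, g q x ≤ hi) ∧
    ∀ r : ℝ, ∫ x in (0 : ℝ)..1, ee (r * x + ∑ q, f q x)
      = ∑ q, ∫ x in (a q / J : ℝ)..(a q + μ q) / J, ee (r * x + f q x) := by
  classical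
  have hJ' : (0 : ℝ) < J := by exact_mod_cast hJ
  have sep : ∀ q q' x, q' ≠ q → (a q : ℝ) ≤ J * x → J * x ≤ a q + μ q →
      (∃ m : ℤ, f q' x = m) ∧ g q' x = 0 := by
    intro q q' x h h1 h2
    have h3 := hμ q
    have h4 := hμ q'
    have h5 : a q + μ q ≤ a q' ∨ a q' + μ q' ≤ a q := by
      by_contra hc
      exact disjoint_left.1 (dis q' q h) (show max (a q) (a q') ∈ _ from mem_Ico.2 (by omega))
        (mem_Ico.2 (by omega))
    refine out q' x (h5.imp (fun h => h2.trans ?_) fun h => le_trans ?_ h1) <;> exact_mod_cast h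
  refine ⟨fun x _ y _ => ?_, fun x hx => ?_, fun x => ?_, fun r => ?_⟩
  · rw [sum_mul, ← sum_sub_distrib, ← sum_sub_distrib, mul_assoc]
    exact (abs_sum_le_sum_abs _ _).trans ((sum_le_sum fun q _ => tay q x trivial y trivial).trans
      (by simp))
  · have : ∀ q, (∃ m : ℤ, f q x = m) ∧ g q x = 0 := fun q => out q x (hx.imp
      (fun h => (mul_nonpos_of_nonneg_of_nonpos hJ'.le h).trans (Nat.cast_nonneg _)) fun h =>
        le_trans (by exact_mod_cast hle q) (le_mul_of_one_le_right hJ'.le h))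
    choose m hm using fun q => (this q).1
    exact ⟨⟨∑ q, m q, by simp [hm]⟩, sum_eq_zero fun q _ => (this q).2⟩
  · by_cases h : ∃ q, (a q : ℝ) ≤ J * x ∧ J * x ≤ a q + μ q
    · obtain ⟨q, h1, h2⟩ := h
      rw [sum_eq_single q (fun q' _ h => (sep q q' x h h1 h2).2) (by simp)]
      exact rng q x
    · obtain ⟨q, -⟩ := cov 0 hJ
      have : ∀ q, g q x = 0 := fun q => (out q x (by
        by_contra h'; push Not at h'; exact h ⟨q, h'.1.le, h'.2.le⟩)).2
      rw [sum_eq_zero fun q _ => this q, ← this q]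
      exact rng q x
  have cf := fun q => (tay q).continuous
  have hi : ∀ s t, IntervalIntegrable (fun x => ee (r * x + ∑ q, f q x)) volume s t :=
    fun s t => Continuous.intervalIntegrable (by fun_prop) _ _
  have e1 := sum_integral_adjacent_intervals (a := fun k : ℕ => (k / J : ℝ)) (n := J)
    fun k _ => hi _ _
  rw [Nat.cast_zero, zero_div, div_self hJ'.ne', show range J = univ.biUnion fun q =>
    Ico (a q) (a q + μ q) from ?_, sum_biUnion fun q _ q' _ h => dis q q' h] at e1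
  · rw [← e1]
    refine sum_congr rfl fun q _ => ?_
    rw [sum_integral_adjacent_intervals_Ico (Nat.le_add_right _ _) fun k _ => hi _ _, Nat.cast_add]
    refine integral_congr fun x hx => ?_
    rw [Set.uIcc_of_le (by gcongr; linarith [Nat.cast_nonneg (α := ℝ) (μ q)]), Set.mem_Icc,
      div_le_iff₀' hJ', le_div_iff₀' hJ'] at hx
    choose m hm using fun q' : {q' // q' ≠ q} => (sep q q' x q'.2 hx.1 hx.2).1
    simp only [Fintype.sum_eq_add_sum_subtype_ne (fun q => f q x) q, hm]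
    exact ee_congr (∑ q', m q') (by push_cast; ring)
  · ext j
    simp only [mem_range, mem_biUnion, mem_univ, true_and]
    exact ⟨cov j, fun ⟨q, h⟩ => (mem_Ico.1 h).2.trans_le (hle q)⟩

lemma Tay.scale {f g : ℝ → ℝ} {L L' s c d : ℝ} (h : Tay f g L Set.univ) (hs : |s| = 1)
    (hL : L * c ^ 2 ≤ L') :
    Tay (fun x => s * f (c * x + d)) (fun x => s * c * g (c * x + d)) L' Set.univ := by
  intro x _ y _
  have := h (c * x + d) trivial (c * y + d) trivial
  rw [show c * x + d - (c * y + d) = c * (x - y) by ring, mul_pow, ← mul_assoc L] at this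
  rw [show s * f (c * x + d) - s * f (c * y + d) - s * c * g (c * y + d) * (x - y)
    = s * (f (c * x + d) - f (c * y + d) - g (c * y + d) * (c * (x - y))) by ring, abs_mul, hs,
    one_mul]
  exact this.trans (by gcongr)

/-- start of a slot or of its mirror image -/
def st (J p m : ℕ) (b : Bool) : ℕ := if b then p else J - p - m

/-- slots and their mirror images are disjoint -/
structure Pack (J : ℕ) {P : Type} (pos μ : P → ℕ) : Prop where
  mu : ∀ p, 0 < μ p
  le : ∀ p, pos p + μ p ≤ J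
  dis : ∀ q q' : P × Bool, q ≠ q' → Disjoint
    (Ico (st J (pos q.1) (μ q.1) q.2) (st J (pos q.1) (μ q.1) q.2 + μ q.1))
    (Ico (st J (pos q'.1) (μ q'.1) q'.2) (st J (pos q'.1) (μ q'.1) q'.2 + μ q'.1))

lemma glue_all {P : Type} [Fintype P] {J : ℕ} (hJ : 0 < J) {pos μ : P → ℕ} (H : Pack J pos μ)
    (cov : ∀ j < J, ∃ q : P × Bool,
      j ∈ Ico (st J (pos q.1) (μ q.1) q.2) (st J (pos q.1) (μ q.1) q.2 + μ q.1))
    {δ L N τ : ℝ} (hL : 0 ≤ L * N) {φ b : P → ℝ → ℝ}
    (pc : ∀ p, Piece δ L (μ p / J) N τ (φ p) (b p)) :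
    ∃ Φ B : ℝ → ℝ, Tay Φ B (Fintype.card (P × Bool) * L * J ^ 2 * N) Set.univ ∧
      (∀ x, x ≤ 0 ∨ 1 ≤ x → (∃ m : ℤ, Φ x = m) ∧ B x = 0) ∧
      (∀ x, δ * N ≤ τ + B x ∧ τ + B x ≤ (1 - δ / 2) * N) ∧
      ∀ r : ℤ, ∫ x in (0 : ℝ)..1, ee (r * x + Φ x) = (∑ p, 2 * ((μ p / J : ℝ) * ee (r * pos p / J)
        * ∫ u in (0 : ℝ)..1, ee (μ p / J * r * u + φ p u)).re : ℝ) := by
  have hJ' : (0 : ℝ) < J := by exact_mod_cast hJ
  have hμ : ∀ p, (1 : ℝ) ≤ μ p := fun p => by exact_mod_cast H.mu p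
  have hμ0 : ∀ p, (0 : ℝ) < μ p := fun p => by exact_mod_cast H.mu p
  have hst : ∀ p, (st J (pos p) (μ p) false : ℝ) = J - pos p - μ p := fun p => by
    have := H.le p
    simp only [st, Bool.false_eq_true, if_false]
    rw [Nat.cast_sub (by omega), Nat.cast_sub (by omega)]
  let c : P × Bool → ℝ := fun q => sg q.2 * (J / μ q.1)
  let d : P × Bool → ℝ := fun q => if q.2 then -pos q.1 / μ q.1 else (J - pos q.1) / μ q.1
  obtain ⟨h1, h2, h3, h4⟩ := glue_abs hJ (fun q : P × Bool => st J (pos q.1) (μ q.1) q.2)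
    (fun q => μ q.1) (fun q => H.mu q.1) (fun q => by
      have := H.le q.1; simp only [st]; split_ifs <;> omega) H.dis cov
    (fun q x => sg q.2 * φ q.1 (c q * x + d q)) (fun q x => sg q.2 * c q * b q.1 (c q * x + d q))
    (L := L * N * J ^ 2) (lo := δ * N - τ) (hi := (1 - δ / 2) * N - τ)
    (fun q => (pc q.1).tay.scale (by rcases q with ⟨p, _ | _⟩ <;> simp [sg]) (by
      have : c q ^ 2 = (J / μ q.1) ^ 2 := by rcases q with ⟨p, _ | _⟩ <;> simp [c, sg]
      rw [this]; gcongr; exact div_le_self hJ'.le (hμ _)))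
    (fun q x hx => by
      obtain ⟨m, hm⟩ := (pc q.1).right
      have : c q * x + d q ≤ 0 ∨ 1 ≤ c q * x + d q := by
        have := hμ0 q.1
        rcases q with ⟨p, _ | _⟩
        · have e : c (p, false) * x + d (p, false) = (J - pos p - J * x) / μ p := by
            simp [c, d, sg]; ring
          simp only [hst] at hx
          rw [e, div_le_iff₀ this, le_div_iff₀ this]
          exact hx.symm.imp (fun h => by linarith) fun h => by linarith
        · have e : c (p, true) * x + d (p, true) = (J * x - pos p) / μ p := by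
            simp [c, d, sg]; ring
          simp only [st, if_true] at hx
          rw [e, div_le_iff₀ this, le_div_iff₀ this]
          exact hx.imp (fun h => by linarith) fun h => by linarith
      rcases this with h | h
      · rw [((pc q.1).left _ h).1, ((pc q.1).left _ h).2]; exact ⟨⟨0, by simp⟩, by simp⟩
      · rw [(hm _ h).1, (hm _ h).2]
        exact ⟨⟨if q.2 then m else -m, by rcases q with ⟨p, _ | _⟩ <;> simp [sg]⟩, by simp⟩)
    (fun q x => by
      have e : sg q.2 * c q = (μ q.1 / J : ℝ)⁻¹ := by rcases q with ⟨p, _ | _⟩ <;> simp [c, sg]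
      have h0 : (0 : ℝ) < μ q.1 / J := div_pos (hμ0 _) hJ'
      obtain ⟨r1, r2⟩ := (pc q.1).rng (c q * x + d q)
      rw [e, le_inv_mul_iff₀ h0, inv_mul_le_iff₀ h0]
      constructor <;> linarith)
  refine ⟨_, _, by convert h1 using 1; ring, h2, fun x => ⟨by linarith [(h3 x).1],
    by linarith [(h3 x).2]⟩, fun r => ?_⟩
  rw [h4, Fintype.sum_prod_type, Complex.ofReal_sum]
  refine sum_congr rfl fun p _ => ?_
  have h0 : (0 : ℝ) < μ p / J := div_pos (hμ0 _) hJ'
  have := hμ0 p
  have e1 : ∫ x in (pos p / J : ℝ)..(pos p + μ p) / J, ee (r * x + φ p ((J * x - pos p) / μ p))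
      = (μ p / J : ℝ) * ee (r * pos p / J) * ∫ u in (0 : ℝ)..1, ee (μ p / J * r * u + φ p u) := by
    have := integral_comp_mul_add (a := 0) (b := 1)
      (fun x => ee (r * x + φ p ((J * x - pos p) / μ p))) h0.ne' (pos p / J)
    rw [mul_zero, zero_add, mul_one, ← add_div, add_comm (μ p : ℝ), eq_inv_smul_iff₀ h0.ne',
      Complex.real_smul] at this
    rw [← this, mul_assoc, ← intervalIntegral.integral_const_mul (ee _)]
    congr 2; ext u
    rw [← ee_add, show (J * (μ p / J * u + pos p / J) - pos p) / μ p = u by field_simp; ring]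
    congr 1; ring
  have e2 := integral_comp_sub_left (a := (pos p / J : ℝ)) (b := (pos p + μ p) / J)
    (fun x => ee (r * x + sg false * φ p (c (p, false) * x + d (p, false)))) 1
  rw [Fintype.sum_bool, ← Complex.add_conj, ← e1,
    ← intervalIntegral_conj]
  congr 1
  · simp only [st, if_true]
    congr 1; ext x; congr 2; simp [c, d, sg]; congr 1; ring
  · simp only [hst]
    rw [show ((J : ℝ) - pos p - μ p) / J = 1 - (pos p + μ p) / J by field_simp; ring,
      show ((J : ℝ) - pos p - μ p + μ p) / J = 1 - pos p / J by field_simp; ring, ← e2]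
    congr 1; ext x
    rw [conj_ee, show c (p, false) * (1 - x) + d (p, false) = (J * x - pos p) / μ p by
      simp [c, d, sg]; ring]
    exact ee_congr r (by simp [sg]; ring)

end H2UF
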