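import Crest.Agent.H2.UF12
import Crest.Agent.H2.UF8

set_option autoImplicit false
set_option maxHeartbeats 400000

namespace H2UF

open Finset

lemma cop1 {d Y : ℤ} (h : d ∣ Y) (t : ℤ) : IsCoprime d (1 + t * Y) := by
  obtain ⟨c, rfl⟩ := h
  exact ⟨-(t * c), 1, by ring⟩

lemma cop2 {a b Y : ℤ} (h : a - b ∣ Y) : IsCoprime (1 + a * Y) (1 + b * Y) := by
  have := ((cop1 h b).mul_left (cop1 dvd_rfl b)).add_mul_left_left 1
  rwa [show (a - b) * Y + (1 + b * Y) * 1 = 1 + a * Y by ring] at this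

lemma params {I : Type} [Fintype I] (μ : I → ℕ) (hμ : ∀ i, 0 < μ i) {ν : I → ℤ}
    (hν : Function.Injective ν) (l : I → ℝ) (hl : ∀ i, 0 < l i) {η : ℝ} (hη : 0 < η) (L0 : ℝ) :
    ∃ (q : I → ℕ) (L : ℕ), 0 < L ∧ L0 ≤ L ∧ (∀ i, Odd (q i)) ∧
      (∀ i j, i ≠ j → IsCoprime (q j : ℤ) (q i)) ∧ (∀ i j, IsCoprime (μ j : ℤ) (q i)) ∧
      (∀ i j, i ≠ j → IsCoprime (ν j - ν i) (q i)) ∧ (∀ i, IsCoprime (L : ℤ) (q i)) ∧
      (∀ j, IsCoprime (μ j : ℤ) L) ∧ (∀ i j, i ≠ j → IsCoprime (ν j - ν i) L) ∧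
      ∀ i, (1 + η) * l i * L + 2 * μ i ≤ q i ∧ q i ≤ (1 + 3 * η) * l i * L := by
  set R := Fintype.card I + 1 with hR
  have ev := fun c : ℝ => tendsto_natCast_atTop_atTop.eventually_ge_atTop c
  obtain ⟨C, hC0, hC⟩ := ((ev L0).and (Filter.eventually_all.2 fun i =>
    ev (((1 + η) * l i + 2 * μ i + 2 * R + 1) / (η * l i)))).exists
  let o := Fintype.equivFin I
  let t : I → ℕ := fun i => R * ⌈(1 + 2 * η) * l i * C⌉₊ + (o i + 1)
  have ht : ∀ i, t i % R = o i + 1 := fun i => by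
    simp only [t]; rw [Nat.mul_add_mod, Nat.mod_eq_of_lt (by have := (o i).2; omega)]
  obtain ⟨M, hM⟩ := Finite.exists_le fun p : I × I => μ p.1 + (ν p.1 - ν p.2).natAbs +
    ((t p.1 : ℤ) - t p.2).natAbs + ((R * C : ℕ) - t p.1 : ℤ).natAbs
  simp only [Prod.forall] at hM
  have hd : ∀ d : ℤ, d ≠ 0 → d.natAbs ≤ M + 2 → d ∣ ((M + 2).factorial : ℕ) := fun d h h' =>
    Int.natAbs_dvd.1 (Int.natCast_dvd_natCast.2 (Nat.dvd_factorial (by omega) h'))
  set Y := (M + 2).factorial with hY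
  have hY1 : (1 : ℝ) ≤ Y := by exact_mod_cast (M + 2).factorial_pos
  have hR1 : (1 : ℝ) ≤ R := by rw [hR]; push_cast; linarith [Nat.cast_nonneg (α := ℝ) (Fintype.card I)]
  have hC1 : (0 : ℝ) ≤ C := Nat.cast_nonneg _
  refine ⟨fun i => 1 + t i * Y, 1 + R * C * Y, by omega, ?_, fun i => ?_, fun i j h => ?_,
    fun i j => ?_, fun i j h => ?_, fun i => ?_, fun j => ?_, fun i j h => ?_, fun i => ?_⟩
  · push_cast; nlinarith [mul_le_mul hR1 hY1 zero_le_one (by linarith)]
  · exact odd_one.add_even (even_iff_two_dvd.2 (Dvd.dvd.mul_left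
      (Nat.dvd_factorial two_pos (by omega)) _))
  · push_cast
    refine cop2 (hd _ (fun e => h (o.injective (Fin.ext ?_))) (by have := hM j i; omega))
    have := ht i; have := ht j
    rw [show t j = t i by omega] at this; omega
  · push_cast
    exact cop1 (hd _ (by have := hμ j; omega) (by have := hM j i; omega)) _
  · push_cast
    exact cop1 (hd _ (fun e => h (hν (by omega))) (by have := hM j i; omega)) _
  · have := cop2 (hd ((R * C : ℕ) - t i) (fun e => by
      have := ht i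
      rw [show t i = R * C by omega, Nat.mul_mod_right] at this; omega)
      (by have := hM i i; omega))
    exact_mod_cast this
  · push_cast
    exact cop1 (hd _ (by have := hμ j; omega) (by have := hM j j; omega)) _
  · push_cast
    exact cop1 (hd _ (fun e => h (hν (by omega))) (by have := hM j i; omega)) _
  have h0 := hl i
  have h1 := hC i
  rw [div_le_iff₀ (by positivity)] at h1
  have h2 := Nat.le_ceil ((1 + 2 * η) * l i * C)
  have h3 := (Nat.ceil_lt_add_one (show 0 ≤ (1 + 2 * η) * l i * C by positivity)).le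
  have h4 : ((o i : ℕ) : ℝ) + 1 ≤ R := by rw [hR]; exact_mod_cast (by have := (o i).2; omega)
  have h5 : (1 + 2 * η) * l i * (R * C) ≤ t i := by
    simp only [t]; push_cast; nlinarith [Nat.cast_nonneg (α := ℝ) (o i)]
  have h6 : (t i : ℝ) ≤ (1 + 2 * η) * l i * (R * C) + 2 * R := by
    simp only [t]; push_cast; nlinarith
  have h7 : C * (η * l i) ≤ R * C * (η * l i) := by
    rw [mul_assoc]; exact le_mul_of_one_le_left (by positivity) hR1
  have h8 : R * C * (η * l i) ≤ R * C * (η * l i) * Y := le_mul_of_one_le_right (by positivity) hY1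
  have h9 : (0 : ℝ) ≤ μ i := Nat.cast_nonneg _
  have h10 : 0 < η * l i := by positivity
  push_cast
  constructor
  · nlinarith [mul_le_mul_of_nonneg_right h5 (zero_le_one.trans hY1)]
  · have : (t i : ℝ) + 1 ≤ (1 + 3 * η) * l i * (R * C) := by nlinarith
    nlinarith [mul_le_mul_of_nonneg_right this (zero_le_one.trans hY1)]

lemma crt {I : Type} [Fintype I] [DecidableEq I] (q : I → ℕ) (a : I → ℤ)
    (hq : ∀ i j, i ≠ j → IsCoprime (q j : ℤ) (q i)) (ha : ∀ i, IsCoprime (a i) (q i))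
    (g : I → ℤ) : ∃ y : ℤ, ∀ i, (q i : ℤ) ∣ a i * y - g i := by
  choose u v h using fun i => (ha i).mul_left (IsCoprime.prod_left (t := univ.erase i)
    fun j hj => hq i j (mem_erase.1 hj).1.symm)
  refine ⟨∑ j, u j * g j * ∏ l ∈ univ.erase j, (q l : ℤ), fun i => ?_⟩
  rw [← add_sum_erase _ _ (mem_univ i), mul_add, add_sub_right_comm]
  refine dvd_add ⟨-(v i * g i), by linear_combination g i * h i⟩ (Dvd.dvd.mul_left
    (dvd_sum fun j hj => Dvd.dvd.mul_left (dvd_prod_of_mem _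
      (mem_erase.2 ⟨(mem_erase.1 hj).1.symm, mem_univ _⟩)) _) _)

lemma pack_of {J : ℕ} {P : Type} {pos μ : P → ℕ} (h0 : ∀ p, 0 < μ p) (h1 : ∀ p, pos p + μ p ≤ J)
    (c1 : ∀ p p' j, pos p ≤ j → j < pos p + μ p → pos p' ≤ j → j < pos p' + μ p' → p = p')
    (c2 : ∀ p p' j j', pos p ≤ j → j < pos p + μ p → pos p' ≤ j' → j' < pos p' + μ p' →
      j + j' + 1 ≠ J) : Pack J pos μ := by
  refine ⟨h0, h1, fun ⟨p, b⟩ ⟨p', b'⟩ h => disjoint_left.2 fun j a a' => ?_⟩
  have := h1 p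
  have := h1 p'
  cases b <;> cases b' <;> simp only [st, mem_Ico, if_true, Bool.false_eq_true, if_false] at a a'
  · exact h (by rw [c1 p p' (J - 1 - j) (by omega) (by omega) (by omega) (by omega)])
  · exact c2 p p' (J - 1 - j) j (by omega) (by omega) a'.1 a'.2 (by omega)
  · exact c2 p p' j (J - 1 - j) a.1 a.2 (by omega) (by omega) (by omega)
  · exact h (by rw [c1 p p' j a.1 a.2 a'.1 a'.2])

lemma colour_app {I : Type} [Fintype I] [DecidableEq I] {w : I → ℝ} (hw0 : ∀ i, 0 < w i)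
    (hw : ∑ i, w i = 1) (μ : I → ℕ) (ν : I → ℤ) {L Λ : ℕ} [NeZero L] {η : ℝ} (hη : 0 < η)
    (hμ : ∀ j, IsCoprime (μ j : ℤ) L) (hν : ∀ i j, i ≠ j → IsCoprime (ν j - ν i) L)
    (hL : 2 * Fintype.card I ^ 2 + Fintype.card I * (2 * Fintype.card I / (η * ∏ i, w i)
      + 4 * Fintype.card I ^ 2 / η) ≤ η * (∏ i, w i) * L)
    (κ : I → ℕ) (hκ : ∀ i, (1 + η) * (L * (∏ i, w i) / w i) ≤ κ i)
    (φ : I → Fin Λ × ZMod L × ZMod L → ZMod L)
    (hφ : ∀ i e, φ i e = μ i * (e.2.1 + ν i * e.2.2) + (μ i * e.1 / Λ : ℕ)) :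
    ∃ (ω : ZMod L → I) (K : Finset (Fin Λ × ZMod L × ZMod L))
      (lab : I → Fin Λ × ZMod L × ZMod L → ℕ), (∀ x, ω (-x - 1) = ω x) ∧
      (∀ e ∈ K, ∀ i, ω (φ i e) = i ∧ lab i e < κ i) ∧
      (∀ i, ∀ e ∈ K, ∀ e' ∈ K, e.1 = e'.1 → φ i e = φ i e' → lab i e = lab i e' → e = e') ∧
      (1 - η) * (∏ i, w i) * (Λ * L ^ 2) ≤ K.card := by
  have hL0 : (0 : ℝ) < L := by exact_mod_cast NeZero.pos L
  have u1 : ∀ j, IsUnit (μ j : ZMod L) := fun j => by
    exact_mod_cast (ZMod.coe_int_isUnit_iff_isCoprime _ _).2 (hμ j).symm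
  have u2 : ∀ i j, i ≠ j → IsUnit (ν j - ν i : ZMod L) := fun i j h => by
    exact_mod_cast (ZMod.coe_int_isUnit_iff_isCoprime _ _).2 (hν i j h).symm
  have k1 : ∀ i e e', e.1 = e'.1 → φ i e = φ i e' →
      e.2.1 + ν i * e.2.2 = e'.2.1 + ν i * e'.2.2 := fun i e e' h1 h2 => by
    rw [hφ, hφ, h1, add_left_inj] at h2
    exact (u1 i).mul_left_cancel h2
  have k2 : ∀ i j, j ≠ i → ∀ e e', e.1 = e'.1 → φ i e = φ i e' → φ j e = φ j e' → e = e' := by
    intro i j h e e' h1 h2 h3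
    have a1 := k1 i e e' h1 h2
    have a2 := k1 j e e' h1 h3
    have a3 : e.2.2 = e'.2.2 := (u2 i j h.symm).mul_left_cancel (by linear_combination a2 - a1)
    rw [a3, add_left_inj] at a1
    exact Prod.ext h1 (Prod.ext a1 a3)
  have hp : 0 < ∏ i, w i := prod_pos fun i _ => hw0 i
  obtain ⟨ω, K, lab, a1, a2, a3⟩ := colour hw0 hw (fun i e => (e.1, φ i e))
    (fun y => s(y.2, -y.2 - 1)) (b := Fintype.card I ^ 2 * (Λ * L * 2)) hL0 hη
    (fun i e => by
      have := card_le_card_of_injOn (t := univ) (fun e' : Fin Λ × ZMod L × ZMod L => e'.2.2)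
        (s := univ.filter fun e' => (e'.1, φ i e') = (e.1, φ i e)) (fun _ _ => mem_univ _)
        fun x hx y hy h => by
          have b1 := ((mem_filter.1 hx).2.trans (mem_filter.1 hy).2.symm)
          have b2 := k1 i x y (Prod.ext_iff.1 b1).1 (Prod.ext_iff.1 b1).2
          simp only at h
          rw [h, add_left_inj] at b2
          exact Prod.ext (Prod.ext_iff.1 b1).1 (Prod.ext b2 h)
      rw [card_univ, ZMod.card] at this
      exact_mod_cast this)
    (by simp [ZMod.card, mul_assoc])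
    (fun i j h e => by
      refine (card_le_card_of_injOn (t := {φ j e, -φ j e - 1}) (φ j) (fun x hx => ?_)
        fun x hx y hy h' => ?_).trans card_le_two
      · rcases Sym2.eq_iff.1 (mem_filter.1 hx).2.2 with b | b <;> simp only at b <;> simp [b.1]
      · have b1 := ((mem_filter.1 hx).2.1.trans (mem_filter.1 hy).2.1.symm)
        exact k2 i j h x y (Prod.ext_iff.1 b1).1 (Prod.ext_iff.1 b1).2 h')
    (by
      have b1 : ∀ p : I × I, (univ.filter fun e : Fin Λ × ZMod L × ZMod L => p.1 ≠ p.2 ∧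
          s(φ p.1 e, -φ p.1 e - 1) = s(φ p.2 e, -φ p.2 e - 1)).card ≤ Λ * L * 2 := fun p => by
        have := card_le_card_of_injOn (t := univ) (s := univ.filter fun e => p.1 ≠ p.2 ∧
          s(φ p.1 e, -φ p.1 e - 1) = s(φ p.2 e, -φ p.2 e - 1))
          (fun e => ((e.1, φ p.2 e), decide (φ p.1 e = φ p.2 e))) (fun _ _ => mem_univ _)
          fun x hx y hy h => by
            simp only [Prod.mk.injEq, decide_eq_decide] at h
            refine k2 _ _ (mem_filter.1 hx).2.1 x y h.1.1 h.1.2 ?_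
            by_cases c : φ p.1 x = φ p.2 x
            · rw [c, h.2.1 c, h.1.2]
            · rw [((Sym2.eq_iff.1 (mem_filter.1 hx).2.2).resolve_left fun h => c h.1).1,
                ((Sym2.eq_iff.1 (mem_filter.1 hy).2.2).resolve_left fun h' => c (h.2.2 h'.1)).1,
                h.1.2]
        simpa [ZMod.card] using this
      have b2 := (card_biUnion_le (s := univ)).trans (sum_le_card_nsmul _ _ _ fun p _ => b1 p)
      rw [card_univ, Fintype.card_prod, smul_eq_mul, ← sq] at b2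
      exact_mod_cast le_trans (card_le_card fun e he => by
        obtain ⟨i, j, h, h'⟩ := Function.not_injective_iff.1 (mem_filter.1 he).2
        exact mem_biUnion.2 ⟨(i, j), mem_univ _, mem_filter.2 ⟨mem_univ _, h', h⟩⟩) b2)
    κ hκ
  refine ⟨fun x => ω s(x, -x - 1), K, lab, fun x => ?_, a1,
    fun i e he e' he' h1 h2 => a2 i e he e' he' (Prod.ext h1 h2), le_trans ?_ a3⟩
  · simp only [show -(-x - 1) - 1 = x by ring, Sym2.eq_swap]
  · simp only [Fintype.card_prod, Fintype.card_fin, ZMod.card]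
    push_cast
    have := mul_le_mul_of_nonneg_left hL (show (0 : ℝ) ≤ Λ * L by positivity)
    generalize (Fintype.card I : ℝ) = n at *
    generalize ∏ i, w i = p at *
    have e1 : 2 * n * (Λ * (L * L)) / (η * L * p) = Λ * L * (2 * n / (η * p)) := by field_simp
    have e2 : 2 * (n ^ 2 * (Λ * L * 2)) / η = Λ * L * (4 * n ^ 2 / η) := by field_simp; ring
    rw [e1, e2]
    linarith

end H2UF
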