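import Crest.Agent.H2.UF13

set_option autoImplicit false
set_option maxHeartbeats 400000

namespace H2UF

open Finset

lemma placement {I : Type} [Fintype I] [DecidableEq I] {w : I → ℝ} (hw0 : ∀ i, 0 < w i)
    (hw : ∑ i, w i = 1) (μ : I → ℕ) (hμ : ∀ i, 0 < μ i) {ν : I → ℤ} (hν : Function.Injective ν)
    {η : ℝ} (hη : 0 < η) : ∃ (q : I → ℕ) (J : ℕ) (K : Type) (_ : Fintype K) (z1 z2 : K → ℝ)
    (pos : K × (Σ i, Fin (∏ l ∈ univ.erase i, q l)) → ℕ), (∀ i, Odd (q i)) ∧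
      (∀ i j, i ≠ j → IsCoprime (q j : ℤ) (q i)) ∧ (∀ i j, IsCoprime (μ j : ℤ) (q i)) ∧
      (∀ i j, i ≠ j → IsCoprime (ν j - ν i) (q i)) ∧ 0 < J ∧ Even J ∧
      Pack J pos (fun p => μ p.2.1) ∧
      (∀ p, ∃ m : ℤ, (pos p : ℝ) / J = μ p.2.1 * (z1 p.1 + ν p.2.1 * z2 p.1)
        + (p.2.2 : ℕ) / (∏ l ∈ univ.erase p.2.1, q l : ℕ) + m) ∧
      ∀ i, (1 - 4 * η) * w i ≤ 2 * μ i * (∏ l ∈ univ.erase i, q l : ℕ) * Fintype.card K / J := by
  have hp : 0 < ∏ i, w i := prod_pos fun i _ => hw0 i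
  have hμ' : ∀ i, (0 : ℝ) < μ i := fun i => by exact_mod_cast hμ i
  obtain ⟨q, L, hL, hL0, q1, q2, q3, q4, q5, q6, q7, q8⟩ := params μ hμ hν
    (fun i => 2 * μ i * (∏ i, w i) / w i) (fun i => by have := hμ' i; have := hw0 i; positivity) hη
    ((2 * Fintype.card I ^ 2 + Fintype.card I * (2 * Fintype.card I / (η * ∏ i, w i)
      + 4 * Fintype.card I ^ 2 / η)) / (η * ∏ i, w i))
  haveI : NeZero L := ⟨hL.ne'⟩
  obtain ⟨Λ, hΛ0, hΛ2, hΛ⟩ : ∃ Λ, 0 < Λ ∧ Even Λ ∧ ∀ i, μ i ∣ Λ :=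
    ⟨2 * ∏ i, μ i, Nat.mul_pos two_pos (prod_pos fun i _ => hμ i), even_two_mul _,
      fun i => Dvd.dvd.mul_left (dvd_prod_of_mem _ (mem_univ _)) _⟩
  obtain ⟨κ, hκ1, hκ2⟩ : ∃ κ : I → ℕ, (∀ i, (1 + η) * (L * (∏ i, w i) / w i) ≤ κ i) ∧
      ∀ i, 2 * (μ i * κ i) ≤ q i := by
    refine ⟨fun i => q i / (2 * μ i), fun i => ?_, fun i => mul_assoc 2 _ _ ▸ Nat.mul_div_le _ _⟩
    have h1 : (q i : ℝ) < 2 * μ i * ((q i / (2 * μ i) : ℕ) + 1) := by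
      exact_mod_cast Nat.lt_mul_div_succ (q i) (show 0 < 2 * μ i by have := hμ i; omega)
    refine le_of_mul_le_mul_left ?_ (show (0 : ℝ) < 2 * μ i by have := hμ' i; positivity)
    have := (q8 i).1
    have e : 2 * μ i * ((1 + η) * (L * (∏ i, w i) / w i))
      = (1 + η) * (2 * μ i * (∏ i, w i) / w i) * L := by ring
    linarith
  obtain ⟨ω, K, lab, a0, a1, a2, a3⟩ := colour_app (Λ := Λ) hw0 hw μ ν hη q6 q7
    (by rwa [div_le_iff₀' (by positivity)] at hL0) κ hκ1 _ fun _ _ => rfl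
  have hq0 : ∀ i, 0 < q i := fun i => (q1 i).pos
  set n := ∏ i, q i with hn
  have hn0 : 0 < n := prod_pos fun i _ => hq0 i
  have hP : ∀ i, (∏ l ∈ univ.erase i, q l) * q i = n := fun i => prod_erase_mul _ _ (mem_univ i)
  choose y hy using fun e : Fin Λ × ZMod L × ZMod L => crt q (fun i => μ i * L) q2
    (fun i => (q3 i i).mul_left (q5 i)) fun i => (μ i * e.1 / Λ * κ i + lab i e : ℕ)
      - (μ i * e.1 / Λ : ℕ) - μ i * (e.2.1.val + ν i * e.2.2.val)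
  have hc : ∀ p : K × (Σ i, Fin (∏ l ∈ univ.erase i, q l)), ∃ c : ℕ, c < n * L ∧ ∃ m : ℤ,
      (c : ℤ) = (μ p.2.1 * p.1.1.1 / Λ : ℕ) + μ p.2.1 * (p.1.1.2.1.val + L * y p.1
        + ν p.2.1 * p.1.1.2.2.val) + (p.2.2 : ℕ) * q p.2.1 * L + (n * L : ℕ) * m := fun p => by
    generalize ((μ p.2.1 * p.1.1.1 / Λ : ℕ) : ℤ) + μ p.2.1 * (p.1.1.2.1.val + L * y p.1
        + ν p.2.1 * p.1.1.2.2.val) + (p.2.2 : ℕ) * q p.2.1 * L = X
    have h0 : (0 : ℤ) < (n * L : ℕ) := by exact_mod_cast Nat.mul_pos hn0 hL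
    have h1 := Int.emod_nonneg X h0.ne'
    have h2 := Int.emod_lt_of_pos X h0
    have h3 := Int.emod_add_mul_ediv X (n * L : ℕ)
    exact ⟨(X % (n * L : ℕ)).toNat, by omega, -(X / (n * L : ℕ)), by
      rw [Int.toNat_of_nonneg h1]; linarith⟩
  choose c c1 m c2 using hc
  have c3 : ∀ p, (c p : ZMod L) = μ p.2.1 * (p.1.1.2.1 + ν p.2.1 * p.1.1.2.2)
      + (μ p.2.1 * p.1.1.1 / Λ : ℕ) := fun p => by
    have := congrArg (Int.cast : ℤ → ZMod L) (c2 p)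
    simp only [Int.cast_add, Int.cast_mul, Int.cast_natCast, Nat.cast_mul n, ZMod.natCast_self,
      ZMod.natCast_zmod_val] at this
    rw [this]; ring
  have c4 : ∀ p, (q p.2.1 : ℤ) ∣ c p - (μ p.2.1 * p.1.1.1 / Λ * κ p.2.1 + lab p.2.1 p.1 : ℕ) :=
    fun p => by
      obtain ⟨t, ht⟩ := hy p.1 p.2.1
      refine ⟨t + (p.2.2 : ℕ) * L + (∏ l ∈ univ.erase p.2.1, q l : ℕ) * L * m p, ?_⟩
      rw [c2, ← hP p.2.1, Nat.cast_mul, Nat.cast_mul]
      linear_combination ht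
  have c5 : ∀ (e : K) i, μ i * e.1.1 / Λ * κ i + lab i e < μ i * κ i := fun e i => by
    have h1 : μ i * e.1.1 / Λ < μ i := Nat.div_lt_of_lt_mul (by
      rw [mul_comm]; exact Nat.mul_lt_mul_of_pos_right e.1.1.2 (hμ i))
    have h2 := Nat.mul_le_mul_right (κ i) h1
    have h3 := (a1 e e.2 i).2
    rw [Nat.succ_mul] at h2; omega
  have c6 : ∀ i (s : ℕ), μ i ∣ μ i * s % Λ := fun i s =>
    (Nat.dvd_mod_iff (hΛ i)).2 (dvd_mul_right _ _)
  have c7 : ∀ i (s : ℕ), μ i * s % Λ + μ i ≤ Λ := fun i s =>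
    Nat.add_le_of_le_sub (Nat.le_of_dvd hΛ0 (hΛ i)) (by
      obtain ⟨a, ha⟩ := c6 i s
      obtain ⟨b, hb⟩ := hΛ i
      have := Nat.mod_lt (μ i * s) hΛ0
      rw [ha] at this ⊢
      rw [hb] at this ⊢
      have := Nat.mul_le_mul_left (μ i) (Nat.lt_of_mul_lt_mul_left this)
      rw [Nat.mul_succ] at this; omega)
  have c8 : ∀ p, ω (c p) = p.2.1 := fun p => by rw [c3]; exact (a1 p.1 p.1.2 _).1
  have hJ : 0 < Λ * (n * L) := by positivity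
  refine ⟨q, Λ * (n * L), K, inferInstance, fun e => (e.1.1 + Λ * (e.1.2.1.val + L * y e : ℝ))
    / (Λ * (n * L) : ℕ), fun e => Λ * e.1.2.2.val / (Λ * (n * L) : ℕ),
    fun p => Λ * c p + μ p.2.1 * p.1.1.1 % Λ, q1, q2, q3, q4, hJ, hΛ2.mul_right _,
    pack_of (fun p => hμ _) (fun p => ?_) (fun p p' j b1 b2 b3 b4 => ?_)
      fun p p' j j' b1 b2 b3 b4 b5 => ?_, fun p => ⟨m p, ?_⟩, fun i => ?_⟩
  · have := Nat.mul_le_mul_left Λ (c1 p)
    have := c7 p.2.1 p.1.1.1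
    rw [Nat.mul_succ] at *; omega
  · have d1 := c7 p.2.1 p.1.1.1
    have d2 := c7 p'.2.1 p'.1.1.1
    have d3 : c p = c p' := le_antisymm (Nat.lt_succ_iff.1 (Nat.lt_of_mul_lt_mul_left (a := Λ)
      (by rw [Nat.mul_succ]; omega))) (Nat.lt_succ_iff.1 (Nat.lt_of_mul_lt_mul_left (a := Λ)
      (by rw [Nat.mul_succ]; omega)))
    have d4 : p.2.1 = p'.2.1 := by rw [← c8, d3, c8]
    obtain ⟨e, i, ξ⟩ := p
    obtain ⟨e', i', ξ'⟩ := p'
    simp only at d4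
    subst d4
    have d5 := dvd_sub (c4 (e', ⟨i, ξ'⟩)) (c4 (e, ⟨i, ξ⟩))
    have d6 := c5 e i
    have d7 := c5 e' i
    have d8 := hκ2 i
    simp only at b1 b2 b3 b4 d1 d2 d5
    rw [d3, sub_sub_sub_cancel_left] at d5
    rw [d3] at b1 b2
    have d9 := Int.eq_zero_of_abs_lt_dvd d5 (by rw [abs_lt]; constructor <;> omega)
    have f1 := (a1 e e.2 i).2
    have f2 := (a1 e' e'.2 i).2
    have f3 : μ i * e.1.1 / Λ = μ i * e'.1.1 / Λ := le_antisymm (Nat.lt_succ_iff.1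
      (Nat.lt_of_mul_lt_mul_right (a := κ i) (by rw [Nat.succ_mul]; omega))) (Nat.lt_succ_iff.1
      (Nat.lt_of_mul_lt_mul_right (a := κ i) (by rw [Nat.succ_mul]; omega)))
    have f4 : μ i * e.1.1 % Λ = μ i * e'.1.1 % Λ := by
      obtain ⟨a, ha⟩ := c6 i e.1.1
      obtain ⟨a', ha'⟩ := c6 i e'.1.1
      rw [ha, ha', le_antisymm (Nat.lt_succ_iff.1 (Nat.lt_of_mul_lt_mul_left (a := μ i)
        (show μ i * a < μ i * (a' + 1) by rw [Nat.mul_succ]; omega))) (Nat.lt_succ_iff.1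
        (Nat.lt_of_mul_lt_mul_left (a := μ i) (by rw [Nat.mul_succ]; omega)))]
    have f5 : e.1.1 = e'.1.1 := Fin.ext (Nat.eq_of_mul_eq_mul_left (hμ i) (by
      rw [← Nat.div_add_mod (μ i * e.1.1) Λ, f3, f4, Nat.div_add_mod]))
    have f6 : e = e' := Subtype.ext (a2 i e e.2 e' e'.2 f5
      ((c3 (e, ⟨i, ξ⟩)).symm.trans (d3 ▸ c3 (e', ⟨i, ξ'⟩))) (by rw [f3] at d9; omega))
    subst f6
    have f7 : ((∏ l ∈ univ.erase i, q l : ℕ) : ℤ) ∣ (ξ : ℕ) - (ξ' : ℕ) := by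
      refine ⟨m (e, ⟨i, ξ'⟩) - m (e, ⟨i, ξ⟩), mul_right_cancel₀ (b := (q i : ℤ) * L)
        (by have := hq0 i; positivity) ?_⟩
      have g1 := c2 (e, ⟨i, ξ⟩)
      have g2 := c2 (e, ⟨i, ξ'⟩)
      rw [← hP i, Nat.cast_mul, Nat.cast_mul] at g1 g2
      rw [d3] at g1
      linear_combination g2 - g1
    have f8 := Int.eq_zero_of_abs_lt_dvd f7 (by
      have := ξ.2; have := ξ'.2; rw [abs_lt]; constructor <;> omega)
    rw [show ξ = ξ' from Fin.ext (by omega)]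
  · have d1 := c7 p.2.1 p.1.1.1
    have d2 := c7 p'.2.1 p'.1.1.1
    have d3 : c p + c p' + 1 = n * L := le_antisymm (Nat.lt_of_mul_lt_mul_left (a := Λ)
      (by rw [Nat.mul_add]; omega)) (Nat.lt_succ_iff.1 (Nat.lt_of_mul_lt_mul_left (a := Λ)
      (by simp only [Nat.mul_succ, Nat.mul_add]; omega)))
    have d4 : p.2.1 = p'.2.1 := by
      have := congrArg (Nat.cast : ℕ → ZMod L) d3
      simp only [Nat.cast_add, Nat.cast_mul, ZMod.natCast_self, mul_zero, Nat.cast_one] at this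
      rw [← c8, ← c8 p', ← a0]; congr 1; linear_combination -this
    have d5 := c4 p'
    have d6 := c5 p.1 p.2.1
    have d7 := c5 p'.1 p.2.1
    have d8 := hκ2 p.2.1
    rw [← d4] at d5
    have d9 : (q p.2.1 : ℤ) ∣ (c p + c p' + 1 : ℕ) := by
      rw [d3, ← hP p.2.1]; exact_mod_cast (dvd_mul_left _ _).mul_right _
    have := Int.eq_zero_of_abs_lt_dvd (dvd_sub d9 (dvd_add (c4 p) d5)) (by
      rw [abs_lt]; constructor <;> omega)
    omega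
  · have g1 := congrArg (Int.cast : ℤ → ℝ) (c2 p)
    have g2 := congrArg (Nat.cast : ℕ → ℝ) (Nat.div_add_mod (μ p.2.1 * p.1.1.1) Λ)
    have g3 := congrArg (Nat.cast : ℕ → ℝ) (hP p.2.1)
    simp only [Int.cast_add, Int.cast_mul, Int.cast_natCast, Nat.cast_mul, Nat.cast_add] at g1 g2 g3 ⊢
    have : (0 : ℝ) < (∏ l ∈ univ.erase p.2.1, q l : ℕ) := by
      exact_mod_cast prod_pos fun i _ => hq0 i
    have := hq0 p.2.1
    rw [g1, ← g3]
    field_simp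
    linear_combination g2
  · have g3 := congrArg (Nat.cast : ℕ → ℝ) (hP i)
    have : (0 : ℝ) < (∏ l ∈ univ.erase i, q l : ℕ) := by
      exact_mod_cast prod_pos fun i _ => hq0 i
    have h1 := hq0 i
    have h2 := (q8 i).2
    have h3 := hw0 i
    have h4 := hμ' i
    rw [Fintype.card_coe]
    simp only [Nat.cast_mul] at g3 ⊢
    rw [← g3, le_div_iff₀ (by positivity)]
    rw [show (1 + 3 * η) * (2 * μ i * (∏ i, w i) / w i) * L
      = (1 + 3 * η) * (2 * μ i * (∏ i, w i)) * L / w i by ring, le_div_iff₀ h3] at h2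
    generalize ((∏ l ∈ univ.erase i, q l : ℕ) : ℝ) = P at *
    rcases le_total (1 - 4 * η) 0 with h | h
    · exact (mul_nonpos_of_nonpos_of_nonneg (mul_nonpos_of_nonpos_of_nonneg h h3.le)
        (by positivity)).trans (by positivity)
    calc _ = (1 - 4 * η) * (Λ * P * L) * (q i * w i) := by ring
      _ ≤ (1 - 4 * η) * (Λ * P * L) * ((1 + 3 * η) * (2 * μ i * (∏ i, w i)) * L) := by gcongr
      _ = 2 * μ i * P * ((1 - 4 * η) * (1 + 3 * η) * (∏ i, w i) * (Λ * L ^ 2)) := by ring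
      _ ≤ 2 * μ i * P * ((1 - η) * (∏ i, w i) * (Λ * L ^ 2)) := by gcongr; nlinarith
      _ ≤ _ := by gcongr

end H2UF
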