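import Crest.Agent.H2.UF14

set_option autoImplicit false
set_option maxHeartbeats 400000

namespace H2UF

open Real Finset Filter

lemma extend {J : ℕ} (hJ : Even J) {P : Type} [Fintype P] {pos μ : P → ℕ} (H : Pack J pos μ) :
    ∃ (R : Finset ℕ), Pack J (Sum.elim pos Subtype.val : P ⊕ R → ℕ) (Sum.elim μ fun _ => 1) ∧
      ∀ j < J, ∃ q : (P ⊕ R) × Bool, j ∈ Ico
        (st J (Sum.elim pos Subtype.val q.1) (Sum.elim μ (fun _ => 1) q.1) q.2)
        (st J (Sum.elim pos Subtype.val q.1) (Sum.elim μ (fun _ => 1) q.1) q.2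
          + Sum.elim μ (fun _ => 1) q.1) := by
  classical
  obtain ⟨h, rfl⟩ := hJ
  let R := (range h).filter fun j => ∀ p, ¬ (pos p ≤ j ∧ j < pos p + μ p) ∧
    ¬ (pos p ≤ h + h - 1 - j ∧ h + h - 1 - j < pos p + μ p)
  have hR : ∀ r : R, r.1 < h ∧ ∀ p, ¬ (pos p ≤ r.1 ∧ r.1 < pos p + μ p) ∧
      ¬ (pos p ≤ h + h - 1 - r.1 ∧ h + h - 1 - r.1 < pos p + μ p) := fun r =>
    ⟨mem_range.1 (mem_filter.1 r.2).1, (mem_filter.1 r.2).2⟩
  refine ⟨R, pack_of ?_ ?_ ?_ ?_, fun j hj => ?_⟩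
  · rintro (p | r)
    · exact H.mu p
    · exact one_pos
  · rintro (p | r)
    · exact H.le p
    · have := (hR r).1; simp only [Sum.elim_inr]; omega
  · rintro (p | r) (p' | r') j a1 a2 a3 a4 <;> simp only [Sum.elim_inl, Sum.elim_inr] at a1 a2 a3 a4
    · by_contra hc
      exact disjoint_left.1 (H.dis (p, true) (p', true) fun e => hc (congrArg _ (Prod.ext_iff.1 e).1))
        (mem_Ico.2 ⟨a1, a2⟩) (mem_Ico.2 ⟨a3, a4⟩)
    · have := ((hR r').2 p).1; omega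
    · have := ((hR r).2 p').1; omega
    · rw [show r = r' from Subtype.ext (by omega)]
  · rintro (p | r) (p' | r') j j' a1 a2 a3 a4 a5 <;>
      simp only [Sum.elim_inl, Sum.elim_inr] at a1 a2 a3 a4
    · have := H.le p'
      exact disjoint_left.1 (H.dis (p, true) (p', false) (by simp)) (mem_Ico.2 ⟨a1, a2⟩)
        (mem_Ico.2 (by simp only [st, Bool.false_eq_true, if_false]; omega))
    · have := ((hR r').2 p).2; omega
    · have := ((hR r).2 p').2; omega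
    · have := (hR r).1; have := (hR r').1; omega
  by_cases h1 : ∀ p, ¬ (pos p ≤ j ∧ j < pos p + μ p) ∧
    ¬ (pos p ≤ h + h - 1 - j ∧ h + h - 1 - j < pos p + μ p)
  · rcases lt_or_ge j h with h2 | h2
    · exact ⟨(Sum.inr ⟨j, mem_filter.2 ⟨mem_range.2 h2, h1⟩⟩, true), by simp [st]⟩
    · refine ⟨(Sum.inr ⟨h + h - 1 - j, mem_filter.2 ⟨mem_range.2 (by omega), fun p => ?_⟩⟩, false),
        by simp only [st, Sum.elim_inr, Bool.false_eq_true, if_false, mem_Ico]; omega⟩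
      have := h1 p; omega
  · obtain ⟨p, hp⟩ := not_forall.1 h1
    have := H.le p
    by_cases h2 : pos p ≤ j ∧ j < pos p + μ p
    · exact ⟨(Sum.inl p, true), mem_Ico.2 h2⟩
    · exact ⟨(Sum.inl p, false), by
        simp only [st, Sum.elim_inl, Bool.false_eq_true, if_false, mem_Ico]; omega⟩

lemma tile_card {J : ℕ} {P : Type} [Fintype P] {pos μ : P → ℕ} (H : Pack J pos μ)
    (cov : ∀ j < J, ∃ q : P × Bool,
      j ∈ Ico (st J (pos q.1) (μ q.1) q.2) (st J (pos q.1) (μ q.1) q.2 + μ q.1)) :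
    ∑ p, 2 * μ p = J := by
  classical
  have := card_biUnion (s := univ) fun q _ q' _ h => H.dis q q' h
  rw [show (univ.biUnion fun q : P × Bool => Ico (st J (pos q.1) (μ q.1) q.2)
    (st J (pos q.1) (μ q.1) q.2 + μ q.1)) = range J from ?_, card_range] at this
  · rw [this, Fintype.sum_prod_type]; simp
  · ext j
    simp only [mem_range, mem_biUnion, mem_univ, true_and]
    refine ⟨fun ⟨q, h⟩ => (mem_Ico.1 h).2.trans_le ?_, cov j⟩
    have := H.le q.1; simp only [st]; split_ifs <;> omega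

lemma synth {P : Type} [Fintype P] {J : ℕ} (hJ : 0 < J) {pos μ : P → ℕ} (H : Pack J pos μ)
    (cov : ∀ j < J, ∃ q : P × Bool,
      j ∈ Ico (st J (pos q.1) (μ q.1) q.2) (st J (pos q.1) (μ q.1) q.2 + μ q.1))
    {δ η ε : ℝ} (hδ : 0 < δ) (hδ1 : δ ≤ 1 / 4) (hη : 0 < η) (hε : 0 < ε) (t T β : P → ℝ)
    (hT : ∀ p, 0 < T p) (ht : ∀ p, 2 * δ ≤ t p) (ht' : ∀ p, t p + T p * (1 + η) ≤ 1 - 2 * δ) :
    ∃ (r : ℝ) (S : Set ℝ) (s0 s1 s2 : ℝ → ℝ), 0 ≤ r ∧ r ≤ 1 ∧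
      (∀ u ∈ S, 0 < s1 u ∧ s1 u < 1 + η ∧ 1 ≤ s2 u) ∧ ∀ᶠ N : ℕ in atTop, ∃ x : ℕ → ℝ,
      (∀ θ : ℝ, |‖∑ k ∈ range N, x k * ee (k * θ)‖ - √N| ≤ ε * √N) ∧ ∀ (k : ℕ) (M : P → ℂ),
      (∀ p, (∃ u ∈ S, N * (t p + T p * s1 u) = k ∧ M p = (r * √(μ p / J / (T p * s2 u)) : ℝ) *
        ee (β p - k * (pos p / J) + μ p / J * (N * (t p * u + T p * s0 u) - k * u))) ∨
        ((∀ u ∈ S, N * (t p + T p * s1 u) ≠ k) ∧ M p = 0)) →
      |x k| ≤ |∑ p, 2 * (M p).re| + ε := by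
  obtain ⟨Γ, hΓ1, hΓ⟩ := fresnel
  obtain ⟨α, hα⟩ : ∃ α, Γ = ‖Γ‖ * ee α := by
    rcases eq_or_ne Γ 0 with h | h
    · exact ⟨0, by simp [h]⟩
    · have h' : (‖Γ‖ : ℂ) ≠ 0 := by simpa using h
      obtain ⟨α, e⟩ := exists_ee (w := Γ / ‖Γ‖) (by simp [h])
      exact ⟨α, by rw [e]; field_simp⟩
  obtain ⟨e, he, he1⟩ : ∃ e, 0 < e ∧ Fintype.card P * (8 * e) ≤ ε :=
    ⟨ε / (8 * (Fintype.card P + 1)), by positivity, by
      rw [← mul_div_assoc, ← mul_div_assoc, div_le_iff₀ (by positivity)]; nlinarith⟩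
  obtain ⟨A, hA⟩ := Finite.exists_le fun p => 16 / (T p * e ^ 2)
  obtain ⟨γ, L, s0, s1, s2, s3, hγ, hγ1, C, a1, a2, a3, a4, a5⟩ := taper hη
    (show 0 < max A 1 by positivity) (show 0 < min (1 / 4) (δ * e ^ 2 / 32) by positivity)
  have hγ2 := hγ1.trans (min_le_left _ _)
  have hγ3 := hγ1.trans (min_le_right _ _)
  have hJ' : (0 : ℝ) < J := by exact_mod_cast hJ
  have hω : ∀ p, (0 : ℝ) < μ p / J := fun p => div_pos (by exact_mod_cast H.mu p) hJ'
  have hL : 0 ≤ L := (abs_nonneg _).trans (a5 0 ⟨le_rfl, zero_le_one⟩).2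
  have hsq : ∀ X : ℝ, 16 / e ^ 2 ≤ X → 4 / √X ≤ e := fun X h => by
    have h1 : 4 / e ≤ √X := le_sqrt_of_sq_le (by rw [div_pow]; norm_num; exact h)
    rw [div_le_iff₀ (lt_of_lt_of_le (by positivity) h1)]
    rw [div_le_iff₀ he] at h1; linarith
  refine ⟨‖Γ‖, Set.Icc (2 * γ) (1 - 2 * γ), s0, s1, s2, norm_nonneg _, hΓ1, fun u hu => ?_, ?_⟩
  · have h1 := mono_of C.d1 (show 0 ≤ u by linarith [hu.1]) fun z _ => a3 z
    have h2 := mono_of C.d1 (show u ≤ 1 by linarith [hu.2]) fun z _ => a3 z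
    exact ⟨by linarith [hu.1], by linarith [hu.2], a3 u⟩
  have ev := fun c : ℝ => ((tendsto_rpow_atTop (show (0 : ℝ) < ((10 : ℕ) : ℝ)⁻¹ by norm_num)).comp
    tendsto_natCast_atTop_atTop).eventually_ge_atTop c
  filter_upwards [kernel (L := Fintype.card (P × Bool) * (1 / γ + 6 / γ ^ 2 + L) * J ^ 2) hδ
    (by linarith) (by positivity) hε, ev 1, ev (1 / γ), eventually_all.2 fun p =>
    (ev ((3 / T p + 13 * L) / e)).and ((ev ((2 + 12 / γ) / (μ p / J * δ))).and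
    (ev (1 / (T p * γ * e))))] with N ⟨v, v1, v2⟩ n1 n2 n3
  simp only [Function.comp] at n1 n2 n3
  have hN : (N : ℝ) = ((N : ℝ) ^ ((10 : ℕ)⁻¹ : ℝ)) ^ 10 :=
    (rpow_inv_natCast_pow (Nat.cast_nonneg _) (by norm_num)).symm
  set τ := ⌊(1 - δ) * N⌋ with hτ
  choose φ b pc est using fun p => piece hΓ C hγ hγ2 hδ hδ1 (show 0 < max A 1 by positivity) he
    (hω p) (by rw [div_le_one hJ']; exact_mod_cast le_of_add_le_right (H.le p)) (hT p)
    (by nlinarith [ht p, ht' p, hT p]) a3 a4 a5 (t := t p) (by rw [a1]; linarith [ht p])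
    (by nlinarith [ht' p, hT p])
    (hsq _ (by rw [div_le_div_iff₀ (by positivity) (by positivity)]; linarith))
    (hsq _ (by
      have := (hA p).trans (le_max_left A 1)
      have := hT p
      rw [div_le_iff₀ (by positivity)] at *; linarith))
    hN n1 ((div_le_iff₀' hγ).1 n2) ((div_le_iff₀' he).1 (n3 p).1)
    ((div_le_iff₀' (mul_pos (hω p) hδ)).1 (n3 p).2.1)
    ((div_le_iff₀' (by have := hT p; positivity)).1 (n3 p).2.2) (τ := τ)
    (by linarith [Int.lt_floor_add_one ((1 - δ) * N)]) (Int.floor_le _)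
    (β p - α - τ * (pos p / J))
  obtain ⟨Φ, B, g1, g2, g3, g4⟩ := glue_all hJ H cov (by positivity) pc
  let y : ℕ → ℝ := fun k => ∑ p, 2 * ((μ p / J : ℝ) * ee ((τ - k : ℤ) * pos p / J)
    * ∫ u in (0 : ℝ)..1, ee (μ p / J * (τ - k : ℤ) * u + φ p u)).re
  refine ⟨fun k => v k * (√N * y k), fun θ => ?_, fun k M hM => ?_⟩
  · have h1 := v2 τ Φ B g1 g2 g3 θ
    have h2 : ∑ k ∈ range N, ((v k * (√N * y k) : ℝ) : ℂ) * ee (k * θ) = (√N : ℝ) * ∑ k ∈ range N,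
        v k * (∫ x in (0 : ℝ)..1, ee ((τ - k) * x + Φ x)) * ee (k * θ) := by
      rw [mul_sum]
      refine sum_congr rfl fun k _ => ?_
      have := g4 (τ - k)
      rw [Int.cast_sub, Int.cast_natCast] at this
      rw [this]; simp only [y, Int.cast_sub, Int.cast_natCast, Complex.ofReal_mul]; ring
    rw [h2, norm_mul, Complex.norm_real, Real.norm_of_nonneg (sqrt_nonneg _), ← mul_sub_one,
      abs_mul, abs_of_nonneg (sqrt_nonneg _), mul_comm ε]
    gcongr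
  rw [abs_mul, abs_of_nonneg (v1 k).1]
  refine (mul_le_of_le_one_left (abs_nonneg _) (v1 k).2).trans ?_
  have h1 : |√N * y k - ∑ p, 2 * (M p).re| ≤ ε := by
    simp only [y, mul_sum, ← sum_sub_distrib]
    refine (abs_sum_le_sum_abs _ _).trans ((sum_le_card_nsmul _ _ (8 * e) fun p _ => ?_).trans
      (by rwa [nsmul_eq_mul, card_univ]))
    rw [mul_left_comm, ← mul_sub, ← Complex.re_ofReal_mul, ← Complex.sub_re, abs_mul, abs_two,
      show 8 * e = 2 * (4 * e) by ring]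
    refine mul_le_mul_of_nonneg_left ((Complex.abs_re_le_norm _).trans ?_) zero_le_two
    have h2 : ∀ Z : ℂ, (√N : ℝ) * ((μ p / J : ℝ) * ee ((τ - k : ℤ) * pos p / J) *
        ∫ u in (0 : ℝ)..1, ee (μ p / J * (τ - k : ℤ) * u + φ p u)) - ee ((τ - k) * (pos p / J)) * Z
        = ee ((τ - k) * (pos p / J)) * ((√N * (μ p / J) : ℝ) *
          (∫ u in (0 : ℝ)..1, ee (μ p / J * (τ - k) * u + φ p u)) - Z) := fun Z => by
      simp only [Int.cast_sub, Int.cast_natCast, Complex.ofReal_mul, mul_div_assoc]; ring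
    rcases hM p with ⟨u, hu, e1, e2⟩ | ⟨e1, e2⟩
    · refine le_trans (le_of_eq ?_) ((est p k).1 u hu e1)
      have h3 : ∀ (x : ℝ) (z : ℂ), ‖z‖ = ‖ee x * z‖ := fun x z => by simp
      rw [h3 ((τ - k) * (pos p / J)) (_ - Γ * _ * _), ← h2, e2]
      congr 2
      rw [Complex.ofReal_mul, show β p - k * (pos p / J) + μ p / J * (N * (t p * u + T p * s0 u)
        - k * u) = (τ - k) * (pos p / J) + (α + (β p - α - τ * (pos p / J) + μ p / J *
        (N * (t p * u + T p * s0 u) - k * u))) by ring, ee_add, ee_add α]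
      conv_rhs => rw [hα]
      ring
    · refine le_trans (le_of_eq ?_) ((est p k).2 e1)
      rw [e2, ← mul_zero (ee ((τ - k) * (pos p / J))), h2, norm_mul, norm_ee, one_mul, sub_zero]
  linarith [abs_sub_abs_le_abs_sub (√N * y k) (∑ p, 2 * (M p).re)]

end H2UF
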