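import Crest.Agent.H2.UF1

set_option autoImplicit false
set_option maxHeartbeats 400000

namespace H2UF

open Real Finset

lemma gauss {P : ℕ} (hP : Odd P) {b : ℤ} (hb : IsCoprime b P) : ∃ G : Fin P → ℂ,
    (∀ ξ, ‖G ξ‖ = 1) ∧ ∀ k : ℤ, ∑ ξ, G ξ * ee (-(k * (ξ : ℕ) / P)) = √P * ee (-(k ^ 2 * (b / P))) := by
  obtain ⟨n, rfl⟩ : ∃ n, P = n + 1 := ⟨P - 1, by have := hP.pos; omega⟩
  let ψ := ZMod.stdAddChar (N := n + 1)
  have hψ : ∀ m : ℤ, ψ m = ee (m / (n + 1 : ℕ)) := fun m => by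
    rw [ZMod.stdAddChar_coe, ee]; congr 1; push_cast; ring
  have hs := fun c => AddChar.sum_mulShift c (ZMod.isPrimitive_stdAddChar (n + 1))
  have hc : ∀ x, (starRingEnd ℂ) (ψ x) = ψ (-x) := fun x => by
    rw [← ZMod.intCast_zmod_cast x, ← Int.cast_neg, hψ, hψ, conj_ee]; congr 1; push_cast; ring
  have hu : IsUnit (-(2 * b) : ZMod (n + 1)) := by
    refine (IsUnit.mul ?_ ((ZMod.coe_int_isUnit_iff_isCoprime b (n + 1)).2 hb.symm)).neg
    exact_mod_cast (ZMod.isUnit_iff_coprime 2 (n + 1)).2 (Nat.coprime_two_left.2 hP)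
  have hp : (0 : ℝ) < √((n + 1 : ℕ) : ℝ) := by positivity
  have hp' : ((√((n + 1 : ℕ) : ℝ) : ℝ) : ℂ) ≠ 0 := by exact_mod_cast hp.ne'
  have hp2 : ((√((n + 1 : ℕ) : ℝ) : ℝ) : ℂ) * √((n + 1 : ℕ) : ℝ) = (n + 1 : ℕ) := by
    exact_mod_cast mul_self_sqrt (Nat.cast_nonneg _)
  let g : ZMod (n + 1) → ℂ := fun ξ => ∑ j, ψ (-b * j ^ 2 + j * ξ)
  refine ⟨fun ξ => g ξ / √((n + 1 : ℕ) : ℝ), fun ξ => ?_, fun k => ?_⟩
  · have : g ξ * (starRingEnd ℂ) (g ξ) = (n + 1 : ℕ) := by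
      change ZMod (n + 1) at ξ
      simp only [g, map_sum, hc, mul_sum]
      rw [sum_congr rfl (g := fun j' => ∑ h, ψ (-b * h ^ 2 + h * ξ) * ψ (j' * (-(2 * b) * h))),
        sum_comm]
      · simp only [← mul_sum, ψ, hs, hu.mul_right_eq_zero]
        simp
      · intro j' _
        rw [sum_mul, ← Equiv.sum_comp (Equiv.addLeft j')]
        refine sum_congr rfl fun h _ => ?_
        simp only [← AddChar.map_add_eq_mul, Equiv.coe_addLeft]
        congr 1; ring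
    rw [Complex.mul_conj, Complex.normSq_eq_norm_sq] at this
    rw [norm_div, Complex.norm_real, Real.norm_of_nonneg hp.le, div_eq_one_iff_eq hp.ne',
      eq_comm, sqrt_eq_iff_mul_self_eq (Nat.cast_nonneg _) (norm_nonneg _), ← sq]
    exact_mod_cast this.symm
  · have e1 : ∀ ξ : ZMod (n + 1), ee (-(k * (ξ.val : ℕ) / (n + 1 : ℕ))) = ψ (-(k * ξ)) := fun ξ => by
      rw [← ZMod.natCast_zmod_val ξ, ZMod.val_cast_of_lt (ZMod.val_lt ξ)]
      have := hψ (-(k * ξ.val))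
      push_cast at this ⊢
      rw [this]; congr 1; ring
    have e2 : ee (-(k ^ 2 * (b / (n + 1 : ℕ)))) = ψ (-b * k ^ 2) := by
      have := hψ (-b * k ^ 2)
      push_cast at this ⊢
      rw [this]; congr 1; ring
    change ∑ ξ : ZMod (n + 1), g ξ / √((n + 1 : ℕ) : ℝ) * ee (-(k * (ξ.val : ℕ) / (n + 1 : ℕ))) = _
    simp only [e1, e2, div_mul_eq_mul_div, ← sum_div, g, sum_mul]
    rw [div_eq_iff hp', mul_right_comm, hp2, sum_comm,
      sum_congr rfl (g := fun j => ∑ ξ, ψ (-b * j ^ 2) * ψ (ξ * (j - k)))]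
    · simp only [← mul_sum, ψ, hs, sub_eq_zero]
      simp [mul_comm]
    · intro j _
      refine sum_congr rfl fun h _ => ?_
      simp only [← AddChar.map_add_eq_mul]
      congr 1; ring

lemma gauss_all {I : Type} [Fintype I] [DecidableEq I] (μ : I → ℕ) (ν : I → ℤ) (q : I → ℕ)
    (hodd : ∀ i, Odd (q i)) (hq : ∀ i j, i ≠ j → IsCoprime (q j : ℤ) (q i))
    (hμ : ∀ i j, IsCoprime (μ j : ℤ) (q i)) (hν : ∀ i j, i ≠ j → IsCoprime (ν j - ν i) (q i)) :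
    ∃ (a1 a2 : ℝ) (G : ∀ j, Fin (∏ i ∈ univ.erase j, q i) → ℂ), (∀ j ξ, ‖G j ξ‖ = 1) ∧
      ∀ j (k : ℤ), ∑ ξ, G j ξ * ee (-(k * (ξ : ℕ) / (∏ i ∈ univ.erase j, q i : ℕ)))
        = √(∏ i ∈ univ.erase j, q i : ℕ) * ee (-(k ^ 2 * (μ j * (a1 + ν j * a2)))) := by
  have hq0 : ∀ i, (q i : ℝ) ≠ 0 := fun i => by exact_mod_cast (hodd i).pos.ne'
  have key : ∀ j, ∃ b : ℤ, IsCoprime b (∏ i ∈ univ.erase j, q i : ℕ) ∧
      μ j * (∑ i, -(ν i : ℝ) / q i + ν j * ∑ i, (1 : ℝ) / q i)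
        = b / (∏ i ∈ univ.erase j, q i : ℕ) := by
    intro j
    refine ⟨μ j * ∑ i ∈ univ.erase j, (ν j - ν i) * ∏ l ∈ (univ.erase j).erase i, q l, ?_, ?_⟩
    · push_cast
      refine IsCoprime.prod_right fun i hi => (hμ i j).mul_left ?_
      rw [← add_sum_erase _ _ hi]
      obtain ⟨c, hc⟩ : (q i : ℤ) ∣ ∑ l ∈ (univ.erase j).erase i,
          (ν j - ν l) * ∏ l' ∈ (univ.erase j).erase l, (q l' : ℤ) :=
        dvd_sum fun l hl => Dvd.dvd.mul_left (dvd_prod_of_mem _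
          (mem_erase.2 ⟨(mem_erase.1 hl).1.symm, hi⟩)) _
      rw [hc]
      exact ((hν i j (mem_erase.1 hi).1).mul_left (IsCoprime.prod_left fun l hl =>
        hq i l (mem_erase.1 hl).1.symm)).add_mul_left_left c
    · push_cast
      rw [mul_div_assoc, mul_sum, ← sum_add_distrib, ← add_sum_erase _ _ (mem_univ j), sum_div,
        show -(ν j : ℝ) / q j + ν j * (1 / q j) = 0 by ring, zero_add]
      congr 1
      refine sum_congr rfl fun i hi => ?_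
      have : ∏ l ∈ (univ.erase j).erase i, (q l : ℝ) ≠ 0 := prod_ne_zero_iff.2 fun l _ => hq0 l
      rw [← mul_prod_erase _ _ hi]
      have := hq0 i
      field_simp; ring
  choose b hb1 hb2 using key
  choose G hG1 hG2 using fun j => gauss (P := ∏ i ∈ univ.erase j, q i)
    (Finset.prod_induction _ Odd (fun _ _ => Odd.mul) odd_one fun i _ => hodd i) (hb1 j)
  exact ⟨_, _, G, hG1, fun j k => by rw [hb2, hG2]⟩

end H2UF
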