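import Crest.Agent.H2.UF15
import Crest.Agent.H2.UF11
import Crest.Agent.H2.UF9

set_option autoImplicit false
set_option maxHeartbeats 400000

namespace H2UF

open Real Finset Filter

lemma slots (G : Type) [Fintype G] {δ η T : ℝ} (hδ : δ < 1 / 4) (hη : 0 < η)
    (hT : T = (1 - 4 * δ) / ((1 + η) * Fintype.card G)) : ∃ t : G → ℝ, (G → 0 < T) ∧
    (∀ g, 2 * δ ≤ t g) ∧ (∀ g, t g + T * (1 + η) ≤ 1 - 2 * δ) ∧ ∀ g g' a a', 0 < a → a < 1 + η →
      0 < a' → a' < 1 + η → t g + T * a = t g' + T * a' → g = g' := by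
  let o := Fintype.equivFin G
  have hc : G → (0 : ℝ) < Fintype.card G := fun g => by exact_mod_cast (o g).pos
  have h0 : G → 0 < T := fun g => hT ▸ div_pos (by linarith) (mul_pos (by linarith) (hc g))
  refine ⟨fun g => 2 * δ + T * ((1 + η) * (o g : ℕ)), h0, fun g => ?_, fun g => ?_,
    fun g g' a a' a1 a2 a3 a4 h => ?_⟩
  · have := h0 g
    exact le_add_of_nonneg_right (by positivity)
  · have h1 : ((o g : ℕ) : ℝ) + 1 ≤ Fintype.card G := by exact_mod_cast (o g).2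
    have h2 : T * ((1 + η) * Fintype.card G) = 1 - 4 * δ := by
      have := hc g; rw [hT]; field_simp
    nlinarith [mul_le_mul_of_nonneg_left h1 (mul_pos (h0 g) (show 0 < 1 + η by linarith)).le]
  · have h1 : (1 + η) * (o g : ℕ) + a = (1 + η) * (o g' : ℕ) + a' :=
      mul_left_cancel₀ (h0 g).ne' (by linarith)
    have h2 : ((o g : ℕ) : ℝ) < (o g' : ℕ) + 1 := lt_of_mul_lt_mul_left (a := 1 + η)
      (by linarith) (by linarith)
    have h3 : ((o g' : ℕ) : ℝ) < (o g : ℕ) + 1 := lt_of_mul_lt_mul_left (a := 1 + η)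
      (by linarith) (by linarith)
    norm_cast at h2 h3
    exact o.injective (Fin.ext (by omega))

lemma one_of {G : Type} [Fintype G] (f : G → ℝ) (A : G → Prop) {b : ℝ} (hb : 0 ≤ b)
    (h0 : ∀ g, ¬ A g → f g = 0) (h1 : ∀ g g', A g → A g' → g = g') (h2 : ∀ g, A g → |f g| ≤ b) :
    |∑ g, f g| ≤ b := by
  by_cases h : ∃ g, A g
  · obtain ⟨g, hg⟩ := h
    rw [sum_eq_single g (fun g' _ h => h0 g' fun h' => h (h1 _ _ h' hg)) (by simp)]
    exact h2 g hg
  · rw [sum_eq_zero fun g _ => h0 g fun h' => h ⟨g, h'⟩, abs_zero]; exact hb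

lemma seg_bound {I : Type} [Fintype I] (c z : I → ℂ) (a : I → ℝ) {η b s : ℝ} (hc : ∀ i, c i ≠ 0)
    (hz : ∀ i, ‖z i‖ = 1) (ha : ∀ i, 0 ≤ a i) (h : ∀ i, |a i - 2 * ‖c i‖ ^ 2| ≤ 4 * η) (hs : 0 ≤ s)
    (hb : |∑ i, 2 * (c i * z i).re| ≤ b) :
    |∑ i, 2 * ((s * √(a i / 2) / ‖c i‖ : ℝ) * (c i * z i)).re|
      ≤ s * (b + Fintype.card I * (2 * √(2 * η))) := by
  have e : ∑ i, 2 * ((s * √(a i / 2) / ‖c i‖ : ℝ) * (c i * z i)).re = s * (∑ i, 2 * (c i * z i).re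
      + ∑ i, 2 * ((√(a i / 2) - ‖c i‖) * ((c i * z i).re / ‖c i‖))) := by
    rw [← sum_add_distrib, mul_sum]
    refine sum_congr rfl fun i _ => ?_
    have := norm_ne_zero_iff.2 (hc i)
    rw [Complex.re_ofReal_mul]; field_simp; ring
  rw [e, abs_mul, abs_of_nonneg hs]
  refine mul_le_mul_of_nonneg_left ((abs_add_le _ _).trans (add_le_add hb
    ((abs_sum_le_sum_abs _ _).trans ((sum_le_card_nsmul _ _ _ fun i _ => ?_).trans
    (by rw [nsmul_eq_mul, card_univ]))))) hs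
  have h0 := norm_pos_iff.2 (hc i)
  have h1 : |(c i * z i).re / ‖c i‖| ≤ 1 := by
    rw [abs_div, abs_of_pos h0, div_le_one h0]
    exact (Complex.abs_re_le_norm _).trans (by simp [hz])
  have h2 : |√(a i / 2) - ‖c i‖| ≤ √(2 * η) := by
    refine abs_le_sqrt ?_
    have h3 := sq_sqrt (show 0 ≤ a i / 2 by linarith [ha i])
    have h4 := sqrt_nonneg (a i / 2)
    obtain ⟨h5, h6⟩ := abs_le.1 (h i)
    rcases le_total √(a i / 2) ‖c i‖ with h | h <;> nlinarith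
  rw [abs_mul, abs_mul, abs_two]
  exact mul_le_mul_of_nonneg_left ((mul_le_of_le_one_right (abs_nonneg _) h1).trans h2) zero_le_two

lemma flat_real {ε : ℝ} (hε : 0 < ε) (hε1 : ε ≤ 1) : ∀ᶠ N : ℕ in atTop, ∃ x : ℕ → ℝ,
    (∀ k, |x k| ≤ 1 + 6 * ε) ∧ ∀ θ : ℝ, |‖∑ k ∈ range N, x k * ee (k * θ)‖ - √N| ≤ ε * √N := by
  classical
  obtain ⟨I, _, μ, ν, c, m1, m2, m3, m4, m5⟩ := modes hε
  obtain ⟨η, hη, hη1, hη2⟩ : ∃ η : ℝ, 0 < η ∧ η ≤ ε / 2 ∧
      (Fintype.card I + 1) * (2 * √(2 * η)) ≤ ε := by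
    have h0 : (0 : ℝ) ≤ Fintype.card I := Nat.cast_nonneg _
    have h1 : ε / (2 * (Fintype.card I + 1)) ≤ ε := div_le_self hε.le (by linarith)
    have h2 : 0 < ε / (2 * (Fintype.card I + 1)) := by positivity
    refine ⟨(ε / (2 * (Fintype.card I + 1))) ^ 2 / 2, by positivity, by nlinarith, le_of_eq ?_⟩
    rw [mul_div_cancel₀ _ two_ne_zero, sqrt_sq h2.le]; field_simp
  have hw0 : ∀ i, 0 < 2 * ‖c i‖ ^ 2 := fun i => by have := norm_pos_iff.2 (m3 i); positivity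
  obtain ⟨q, J, K, _, z1, z2, pos, q1, q2, q3, q4, hJ, hJ2, H, p1, p2⟩ :=
    placement hw0 m4 μ m1 m2 hη
  obtain ⟨a1, a2, G, hG, hG2⟩ := gauss_all μ ν q q1 q2 q3 q4
  obtain ⟨R, H', cov⟩ := extend hJ2 H
  have hJ' : (0 : ℝ) < J := by exact_mod_cast hJ
  set a : I → ℝ := fun i => 2 * μ i * (∏ l ∈ univ.erase i, q l : ℕ) * Fintype.card K / J with ha
  have hcard : ∑ i, a i + 2 * Fintype.card R / J = 1 := by
    have := congrArg (Nat.cast : ℕ → ℝ) (tile_card H' cov)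
    simp only [Fintype.sum_sum_type, Sum.elim_inl, Sum.elim_inr, Fintype.sum_prod_type,
      Fintype.sum_sigma, sum_const, card_univ, Fintype.card_fin, smul_eq_mul, Nat.cast_add,
      Nat.cast_mul, Nat.cast_sum, Nat.cast_ofNat, Nat.cast_one] at this
    simp only [ha, ← sum_div, ← add_div]
    rw [div_eq_one_iff_eq hJ'.ne', ← this, mul_sum]
    exact congrArg₂ _ (sum_congr rfl fun i _ => by ring) (by ring)
  have hsum : ∑ i, (a i - (1 - 4 * η) * (2 * ‖c i‖ ^ 2)) = ∑ i, a i - (1 - 4 * η) := by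
    rw [sum_sub_distrib, ← mul_sum, m4, mul_one]
  have hR0 : (0 : ℝ) ≤ 2 * Fintype.card R / J := by positivity
  have hR : (2 : ℝ) * Fintype.card R / J ≤ 4 * η := by
    linarith [sum_nonneg fun i (_ : i ∈ univ) => sub_nonneg.2 (p2 i)]
  have hai : ∀ i, |a i - 2 * ‖c i‖ ^ 2| ≤ 4 * η := fun i => by
    have h1 := single_le_sum (fun i _ => sub_nonneg.2 (p2 i)) (mem_univ i)
    have h2 := single_le_sum (fun i _ => (hw0 i).le) (mem_univ i)
    have h3 := p2 i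
    have h4 := hw0 i
    rw [abs_le]; constructor <;> nlinarith
  have hδ : ε / 16 < 1 / 4 := by linarith
  obtain ⟨tK, k0, k1, k2, k3⟩ := slots K hδ hη rfl
  obtain ⟨tR, r0, r1, r2, r3⟩ := slots R hδ hη rfl
  set TK := (1 - 4 * (ε / 16)) / ((1 + η) * Fintype.card K) with hTK
  set TR := (1 - 4 * (ε / 16)) / ((1 + η) * Fintype.card R) with hTR
  choose β hβ using fun p : Σ i, Fin (∏ l ∈ univ.erase i, q l) =>
    exists_ee (w := G p.1 p.2 * (c p.1 / ‖c p.1‖)) (by simp [hG, m3])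
  obtain ⟨r, S, s0, s1, s2, hr0, hr1, hS, ev⟩ := synth hJ H' cov (by positivity) hδ.le hη hε
    (Sum.elim (fun p => tK p.1) tR) (Sum.elim (fun _ => TK) fun _ => TR)
    (Sum.elim (fun p => β p.2) fun _ => 0) (by rintro (p | p); exacts [k0 p.1, r0 p])
    (by rintro (p | p); exacts [k1 _, r1 _]) (by rintro (p | p); exacts [k2 _, r2 _])
  filter_upwards [ev, eventually_gt_atTop 0] with N ⟨x, x1, x2⟩ hN
  have hN' : (N : ℝ) ≠ 0 := by exact_mod_cast hN.ne'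
  refine ⟨x, fun k => ?_, x1⟩
  have ch : ∀ t T : ℝ, ∃ u, (∃ u ∈ S, N * (t + T * s1 u) = k) → u ∈ S ∧ N * (t + T * s1 u) = k :=
    fun t T => by
      by_cases h : ∃ u ∈ S, N * (t + T * s1 u) = k
      · exact h.imp fun u h _ => h
      · exact ⟨0, fun h' => absurd h' h⟩
  choose u hu using ch
  let M : ℝ → ℝ → ℝ → ℕ → ℕ → ℂ := fun t T b p m => if ∃ u ∈ S, N * (t + T * s1 u) = k then
    (r * √(m / J / (T * s2 (u t T))) : ℝ) *
      ee (b - k * (p / J) + m / J * (N * (t * u t T + T * s0 (u t T)) - k * u t T)) else 0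
  have hM : ∀ t T b p m, (∃ u ∈ S, N * (t + T * s1 u) = k ∧ M t T b p m =
      (r * √(m / J / (T * s2 u)) : ℝ) * ee (b - k * (p / J) + m / J * (N * (t * u + T * s0 u)
        - k * u))) ∨ ((∀ u ∈ S, N * (t + T * s1 u) ≠ k) ∧ M t T b p m = 0) := fun t T b p m => by
    simp only [M]
    split_ifs with h
    · exact Or.inl ⟨_, (hu _ _ h).1, (hu _ _ h).2, rfl⟩
    · exact Or.inr ⟨fun u h1 h2 => h ⟨u, h1, h2⟩, rfl⟩
  refine (x2 k _ fun p => hM _ _ _ _ _).trans ?_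
  clear x2 ev
  have hs : ∀ v ∈ S, r * √((1 + η) / ((1 - 4 * (ε / 16)) * s2 v)) ≤ 1 + ε := fun v hv => by
    refine (mul_le_of_le_one_left (sqrt_nonneg _) hr1).trans (sqrt_le_iff.2 ⟨by linarith, ?_⟩)
    have h1 := (hS v hv).2.2
    rw [div_le_iff₀ (by nlinarith)]
    have h2 : 1 + η ≤ (1 + ε) * (1 - 4 * (ε / 16)) := by nlinarith
    have h3 : 0 ≤ (1 + ε) * (1 - 4 * (ε / 16)) := by nlinarith
    nlinarith [mul_le_mul_of_nonneg_left h1 h3, mul_nonneg h3 (show 0 ≤ s2 v by linarith)]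
  have h1 : |∑ v : K, ∑ p : Σ i, Fin (∏ l ∈ univ.erase i, q l),
      2 * (M (tK v) TK (β p) (pos (v, p)) (μ p.1)).re|
      ≤ (1 + ε) * (1 + ε + Fintype.card I * (2 * √(2 * η))) := by
    refine one_of _ (fun v => ∃ u ∈ S, N * (tK v + TK * s1 u) = k) (by positivity)
      (fun v h => by simp [M, h]) (fun v v' ⟨w, h1, h2⟩ ⟨w', h3, h4⟩ => k3 v v' _ _ (hS w h1).1
      (hS w h1).2.1 (hS w' h3).1 (hS w' h3).2.1 (mul_left_cancel₀ hN' (h2.trans h4.symm)))
      fun v h => ?_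
    simp only [M, if_pos h]
    have h2 := hs _ (hu _ _ h).1
    have h3 := (hS _ (hu _ _ h).1).2.2
    generalize N * (tK v * u (tK v) TK + TK * s0 (u (tK v) TK)) - k * u (tK v) TK = X
    generalize s2 (u (tK v) TK) = σ at *
    refine le_trans (le_of_eq ?_) ((seg_bound c _ a m3 (fun i => norm_ee _)
      (fun i => by positivity) hai (s := r * √((1 + η) / ((1 - 4 * (ε / 16)) * σ))) (by positivity)
      (m5 (X / J - k * z1 v - k ^ 2 * a1) (-(k * z2 v) - k ^ 2 * a2))).trans (by gcongr))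
    rw [Fintype.sum_sigma]
    congr 1
    refine sum_congr rfl fun i _ => ?_
    rw [← mul_sum, ← Complex.re_sum]
    congr 2
    have e1 : ∀ ξ : Fin (∏ l ∈ univ.erase i, q l), ee (β ⟨i, ξ⟩ - k * (pos (v, ⟨i, ξ⟩) / J)
        + μ i / J * X) = c i / ‖c i‖ * ee (μ i * (X / J - k * (z1 v + ν i * z2 v))) *
        (G i ξ * ee (-((k : ℤ) * (ξ : ℕ) / (∏ l ∈ univ.erase i, q l : ℕ)))) := fun ξ => by
      obtain ⟨m, hm⟩ := p1 (v, ⟨i, ξ⟩)
      rw [hm, ee_congr (-(k * m)) (y := β ⟨i, ξ⟩ + (μ i * (X / J - k * (z1 v + ν i * z2 v))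
        + -((k : ℤ) * (ξ : ℕ) / (∏ l ∈ univ.erase i, q l : ℕ)))) (by
          simp only [Int.cast_neg, Int.cast_mul, Int.cast_natCast]; ring), ee_add, ee_add, hβ]
      ring
    have e2 : √((1 + η) / ((1 - 4 * (ε / 16)) * σ)) * √(a i / 2)
        = √(μ i / J / (TK * σ)) * √(∏ l ∈ univ.erase i, q l : ℕ) := by
      have hK : (0 : ℝ) < Fintype.card K := by exact_mod_cast Fintype.card_pos_iff.2 ⟨v⟩
      have := k0 v
      have : 0 < 1 - 4 * (ε / 16) := by linarith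
      rw [← sqrt_mul (by positivity), ← sqrt_mul (by positivity), ha, hTK]
      congr 1; field_simp
    simp only [e1, ← mul_sum, hG2]
    rw [mul_assoc r, e2, show μ i * (X / J - k * z1 v - k ^ 2 * a1 + ν i * (-(k * z2 v) - k ^ 2 * a2))
      = μ i * (X / J - k * (z1 v + ν i * z2 v)) + -(((k : ℤ) : ℝ) ^ 2 * (μ i * (a1 + ν i * a2))) by
        rw [Int.cast_natCast]; ring, ee_add]
    simp only [Complex.ofReal_mul, Complex.ofReal_div]
    ring
  have h2 : |∑ v : R, 2 * (M (tR v) TR 0 v 1).re| ≤ (1 + ε) * (2 * √(2 * η)) := by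
    refine one_of _ (fun v => ∃ u ∈ S, N * (tR v + TR * s1 u) = k) (by positivity)
      (fun v h => by simp [M, h]) (fun v v' ⟨w, h1, h2⟩ ⟨w', h3, h4⟩ => r3 v v' _ _ (hS w h1).1
      (hS w h1).2.1 (hS w' h3).1 (hS w' h3).2.1 (mul_left_cancel₀ hN' (h2.trans h4.symm)))
      fun v h => ?_
    simp only [M, if_pos h]
    have h2 := hs _ (hu _ _ h).1
    have h3 := (hS _ (hu _ _ h).1).2.2
    generalize s2 (u (tR v) TR) = σ at *
    rw [abs_mul, abs_two, mul_left_comm]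
    refine mul_le_mul_of_nonneg_left ((Complex.abs_re_le_norm _).trans ?_) zero_le_two
    have hK : (0 : ℝ) < Fintype.card R := by exact_mod_cast Fintype.card_pos_iff.2 ⟨v⟩
    have : 0 < 1 - 4 * (ε / 16) := by linarith
    rw [norm_mul, norm_ee, mul_one, Complex.norm_real, Real.norm_of_nonneg (by positivity),
      show ((1 : ℕ) : ℝ) / J / (TR * σ) = (1 + η) / ((1 - 4 * (ε / 16)) * σ)
        * (Fintype.card R / J) by rw [hTR]; field_simp; simp, sqrt_mul (by positivity), ← mul_assoc]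
    gcongr
    rw [mul_div_assoc] at hR; linarith
  rw [Fintype.sum_sum_type, Fintype.sum_prod_type]
  have h3 := (abs_add_le _ _).trans (add_le_add h1 h2)
  refine (add_le_add h3 le_rfl).trans ?_
  nlinarith

end H2UF
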