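import Crest.Agent.H2.UF1

set_option autoImplicit false
set_option maxHeartbeats 400000

namespace H2UF

open Real Finset

/-- sign attached to a Boolean -/
def sg (b : Bool) : ℝ := if b then 1 else -1

lemma sum_exp_sg {A : Type} [Fintype A] [DecidableEq A] (a : A → ℝ) (ha : ∀ k, |a k| ≤ 1) (t : ℝ) :
    ∑ ε : A → Bool, exp (t * ∑ k, sg (ε k) * a k)
      ≤ 2 ^ Fintype.card A * exp (t ^ 2 * Fintype.card A / 2) := by
  simp only [mul_sum, exp_sum]
  rw [← Fintype.prod_sum (fun k b => exp (t * (sg b * a k)))]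
  calc _ ≤ ∏ _k : A, 2 * exp (t ^ 2 / 2) := by
        refine prod_le_prod (fun k _ => sum_nonneg fun _ _ => (exp_pos _).le) fun k _ => ?_
        have h := cosh_le_exp_half_sq (t * a k)
        rw [cosh_eq] at h
        have h2 : exp ((t * a k) ^ 2 / 2) ≤ exp (t ^ 2 / 2) := by
          have : a k ^ 2 ≤ 1 := by rw [← sq_abs]; nlinarith [ha k, abs_nonneg (a k)]
          exact exp_le_exp.2 (by rw [mul_pow]; nlinarith [sq_nonneg t])
        simp only [Fintype.sum_bool, sg, if_true, one_mul, Bool.false_eq_true, if_false, neg_mul,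
          mul_neg]
        linarith
    _ = _ := by
        rw [prod_const, card_univ, mul_pow, ← exp_nat_mul]; congr 2; ring

lemma sum_weight {z : ℝ} (hz : 0 < z) (hz1 : z ≤ 1 / 3) (m : ℕ) :
    ∑ j ∈ Icc (-m : ℤ) m, (if j = 0 then 1 - 3 * z else z ^ j.natAbs) ≤ 1 - 3 * z ^ (m + 1) := by
  induction m with
  | zero => simp
  | succ m ih =>
    rw [Nat.cast_succ, Finset.Icc_succ_succ, sum_union (by simp), sum_pair (by omega),
      if_neg (by omega), if_neg (by omega), show (-(m + 1 : ℤ)).natAbs = m + 1 by omega,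
      show ((m + 1 : ℤ)).natAbs = m + 1 by omega, pow_succ z (m + 1)]
    have : 0 < z ^ (m + 1) := by positivity
    nlinarith

lemma partial_col {A R : Type} [Fintype A] [Fintype R] (a : R → A → ℝ) (ha : ∀ l k, |a l k| ≤ 1)
    (hn : 0 < Fintype.card A) (hM : Fintype.card A ≤ Fintype.card R) :
    ∃ χ : A → ℝ, (∀ k, χ k = 0 ∨ χ k = 1 ∨ χ k = -1) ∧
      10 * Fintype.card {k // χ k = 0} ≤ 9 * Fintype.card A ∧
      ∀ l, |∑ k, χ k * a l k| ≤ 16 * √√(Fintype.card A * Fintype.card R) := by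
  classical
  set n := Fintype.card A with hn'
  set M := Fintype.card R with hM'
  have hn0 : (0 : ℝ) < n := by exact_mod_cast hn
  have hnM : (n : ℝ) ≤ M := by exact_mod_cast hM
  have hM0 : (0 : ℝ) < M := by linarith
  set Δ := 16 * √√((n : ℝ) * M) with hΔ
  have hΔ0 : 0 < Δ := by positivity
  set ρ := √((M : ℝ) / n) with hρ
  have hρ1 : 1 ≤ ρ := one_le_sqrt.2 ((one_le_div hn0).2 hnM)
  have hρ2 : ρ ^ 2 = M / n := sq_sqrt (by positivity)
  have hΔ2 : Δ ^ 2 = 256 * n * ρ := by
    rw [hΔ, mul_pow, sq_sqrt (by positivity), show (n : ℝ) * M = n ^ 2 * (M / n) by field_simp,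
      sqrt_mul (by positivity), sqrt_sq hn0.le]
    ring
  set z : ℝ := 1 / (60 * ρ ^ 2) with hz
  have hz0 : 0 < z := by positivity
  have hz1 : z ≤ 1 / 60 := by rw [hz]; gcongr; nlinarith
  let Z : (A → Bool) → R → ℝ := fun ε l => ∑ k, sg (ε k) * a l k
  let b : (A → Bool) → R → ℤ := fun ε l => round (Z ε l / Δ)
  let ω : ℤ → ℝ := fun j => if j = 0 then 1 - 3 * z else z ^ j.natAbs
  have hω0 : ∀ j, 0 ≤ ω j := fun j => by simp only [ω]; split_ifs; linarith; positivity
  have hω : ∀ j : ℤ, exp (-(6 * z + |(j : ℝ)| * (60 * ρ ^ 2))) ≤ ω j := by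
    intro j
    simp only [ω]
    split_ifs with h
    · simp only [h, Int.cast_zero, abs_zero, zero_mul, add_zero]
      have := add_one_le_exp (6 * z)
      rw [exp_neg, inv_le_iff_one_le_mul₀ (exp_pos _)]
      nlinarith
    · have h1 : exp (-(60 * ρ ^ 2)) ≤ z := by
        rw [exp_neg, hz, one_div]
        gcongr
        linarith [add_one_le_exp (60 * ρ ^ 2)]
      calc _ ≤ exp (j.natAbs * -(60 * ρ ^ 2)) := by
            rw [Nat.cast_natAbs, Int.cast_abs]; gcongr; linarith
        _ ≤ _ := by rw [exp_nat_mul]; gcongr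
  -- first moment of the buckets
  have hb : ∀ l, ∑ ε, |(b ε l : ℝ)| ≤ 2 ^ n * (2 * exp (-(32 * ρ))) := by
    intro l
    have h1 : ∀ ε, |(b ε l : ℝ)| ≤ exp (-(64 * ρ)) *
        (exp (128 * ρ / Δ * Z ε l) + exp (-(128 * ρ / Δ) * Z ε l)) := by
      intro ε
      by_cases h : |Z ε l / Δ| < 1 / 2
      · have : b ε l = 0 := round_eq_zero_iff.2 ⟨(abs_lt.1 h).1.le, (abs_lt.1 h).2⟩
        rw [this, Int.cast_zero, abs_zero]; positivity
      · have h2 := abs_sub_round (Z ε l / Δ)
        have h3 : |(b ε l : ℝ)| ≤ 2 * |Z ε l / Δ| := by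
          have := abs_sub_abs_le_abs_sub (b ε l : ℝ) (Z ε l / Δ)
          rw [abs_sub_comm] at this
          simp only [b] at this ⊢
          linarith
        have h4 := add_one_le_exp (64 * ρ * (2 * |Z ε l / Δ| - 1))
        have h5 : exp (64 * ρ * (2 * |Z ε l / Δ| - 1))
            = exp (-(64 * ρ)) * exp (|128 * ρ / Δ * Z ε l|) := by
          rw [← exp_add, show 128 * ρ / Δ * Z ε l = 128 * ρ * (Z ε l / Δ) by ring, abs_mul,
            abs_of_pos (show 0 < 128 * ρ by positivity)]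
          congr 1; ring
        have h6 : exp (|128 * ρ / Δ * Z ε l|)
            ≤ exp (128 * ρ / Δ * Z ε l) + exp (-(128 * ρ / Δ) * Z ε l) := by
          rw [neg_mul]
          rcases abs_choice (128 * ρ / Δ * Z ε l) with h | h <;> rw [h] <;>
            linarith [exp_pos (128 * ρ / Δ * Z ε l), exp_pos (-(128 * ρ / Δ * Z ε l))]
        calc _ ≤ exp (64 * ρ * (2 * |Z ε l / Δ| - 1)) := by nlinarith
          _ ≤ _ := by rw [h5]; gcongr
    refine (sum_le_sum fun ε _ => h1 ε).trans ?_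
    rw [← mul_sum, sum_add_distrib]
    refine (mul_le_mul_of_nonneg_left (add_le_add (sum_exp_sg _ (ha l) _) (sum_exp_sg _ (ha l) _))
      (exp_pos _).le).trans (le_of_eq ?_)
    have e : (128 * ρ / Δ) ^ 2 * n / 2 = 32 * ρ := by rw [div_pow, hΔ2]; field_simp; norm_num
    rw [neg_sq, ← hn', e, show -(32 * ρ) = -(64 * ρ) + 32 * ρ by ring, exp_add]
    ring
  have h1 : 2 ^ n * exp (-(11 / 100 * n)) ≤ ∑ ε, ∏ l, ω (b ε l) := by
    have h2 : ∀ ε, exp (-(11 / 100 * n)) * (1 + 11 / 100 * n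
        - ∑ l, (6 * z + |(b ε l : ℝ)| * (60 * ρ ^ 2))) ≤ ∏ l, ω (b ε l) := by
      intro ε
      refine le_trans ?_ (prod_le_prod (fun _ _ => (exp_pos _).le) fun l _ => hω (b ε l))
      rw [← exp_sum, sum_neg_distrib]
      have := add_one_le_exp (11 / 100 * n - ∑ l, (6 * z + |(b ε l : ℝ)| * (60 * ρ ^ 2)))
      refine (mul_le_mul_of_nonneg_left (le_trans (le_of_eq (by ring)) this)
        (exp_pos _).le).trans (le_of_eq ?_)
      rw [← exp_add]; congr 1; ring
    refine le_trans ?_ (sum_le_sum fun ε _ => h2 ε)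
    rw [← mul_sum, mul_comm]
    refine mul_le_mul_of_nonneg_left ?_ (exp_pos _).le
    rw [sum_sub_distrib, sum_comm]
    simp only [sum_add_distrib, ← sum_mul, sum_const, card_univ, Fintype.card_fun,
      Fintype.card_bool, nsmul_eq_mul, ← hn', ← hM']
    have h3 := sum_le_sum fun l (_ : l ∈ univ) => hb l
    rw [sum_const, card_univ, nsmul_eq_mul, ← hM'] at h3
    have h4 : (M : ℝ) = n * ρ ^ 2 := by rw [hρ2]; field_simp
    have h5 : exp (-(32 * ρ)) * ρ ^ 4 ≤ 1 / 12000 := by
      have := pow_div_factorial_le_exp (x := 32 * ρ) (by positivity) 4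
      rw [exp_neg, ← div_eq_inv_mul, div_le_iff₀ (exp_pos _)]
      norm_num [Nat.factorial] at this
      have : 0 < ρ ^ 4 := by positivity
      nlinarith
    have h6 : (M : ℝ) * (6 * z) = n / 10 := by rw [hz, h4]; field_simp; norm_num
    have h7 : (∑ l, ∑ ε, |(b ε l : ℝ)|) * (60 * ρ ^ 2) ≤ 2 ^ n * (n / 100) := by
      calc _ ≤ M * (2 ^ n * (2 * exp (-(32 * ρ)))) * (60 * ρ ^ 2) := by gcongr
        _ = 2 ^ n * (n * 120 * (exp (-(32 * ρ)) * ρ ^ 4)) := by rw [h4]; ring
        _ ≤ 2 ^ n * (n * 120 * (1 / 12000)) := by gcongr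
        _ = _ := by ring
    have h8 : (M : ℝ) * (2 ^ n * (6 * z)) = 2 ^ n * (n / 10) := by rw [← h6]; ring
    have h9 : (0 : ℝ) < 2 ^ n := by positivity
    push_cast
    nlinarith
  obtain ⟨ε0, -, hmax⟩ := exists_max_image (univ : Finset (A → Bool))
    (fun ε => (univ.filter fun ε' => b ε' = b ε).card) univ_nonempty
  set m := (univ.filter fun ε' => b ε' = b ε0).card with hm
  have h2 : ∑ ε, ∏ l, ω (b ε l) ≤ m := by
    obtain ⟨B, hB⟩ : ∃ B : ℕ, ∀ ε l, (b ε l).natAbs ≤ B := by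
      clear_value b
      obtain ⟨B, hB⟩ := Finite.exists_le fun p : (A → Bool) × R => (b p.1 p.2).natAbs
      exact ⟨B, fun ε l => hB (ε, l)⟩
    rw [← sum_fiberwise_of_maps_to (t := Fintype.piFinset fun _ : R => Icc (-B : ℤ) B) (g := b)
      (fun ε _ => Fintype.mem_piFinset.2 fun l => mem_Icc.2 (by have := hB ε l; omega))]
    calc _ ≤ ∑ y ∈ Fintype.piFinset fun _ : R => Icc (-B : ℤ) B, m * ∏ l, ω (y l) := by
          refine sum_le_sum fun y _ => ?_
          rw [sum_congr rfl (g := fun _ => ∏ l, ω (y l)) (fun ε hε => by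
            rw [(mem_filter.1 hε).2]), sum_const, nsmul_eq_mul]
          refine mul_le_mul_of_nonneg_right ?_ (prod_nonneg fun _ _ => hω0 _)
          rcases (univ.filter fun ε => b ε = y).eq_empty_or_nonempty with h | ⟨ε, h⟩
          · simp [h]
          · rw [← (mem_filter.1 h).2]; exact_mod_cast hmax ε (mem_univ _)
      _ ≤ m * 1 := by
          rw [← mul_sum, ← prod_univ_sum]
          gcongr
          refine prod_le_one (fun _ _ => sum_nonneg fun _ _ => hω0 _) fun _ _ => ?_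
          have := sum_weight hz0 (by linarith) B
          have : 0 < z ^ (B + 1) := by positivity
          simp only [ω]; linarith
      _ = m := mul_one _
  obtain ⟨ε1, hε1, hd⟩ : ∃ ε1, b ε1 = b ε0 ∧
      (n : ℝ) ≤ 10 * (univ.filter fun k => ε1 k ≠ ε0 k).card := by
    by_contra hcon
    push Not at hcon
    have h3 : (m : ℝ) * exp (-(n / 5)) ≤ ∑ ε : A → Bool, ∏ k, if ε k ≠ ε0 k then exp (-2) else 1 := by
      refine le_trans ?_ (sum_le_sum_of_subset_of_nonneg (subset_univ (univ.filter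
        fun ε' => b ε' = b ε0)) fun _ _ _ => prod_nonneg fun _ _ => by positivity)
      rw [hm, ← nsmul_eq_mul]
      refine card_nsmul_le_sum _ _ _ fun ε hε => ?_
      rw [prod_ite, prod_const, prod_const_one, mul_one, ← exp_nat_mul]
      have := hcon ε (mem_filter.1 hε).2
      gcongr; linarith
    rw [← Fintype.prod_sum (fun k c => if c ≠ ε0 k then exp (-2) else 1)] at h3
    have h4 : ∏ k : A, ∑ c : Bool, (if c ≠ ε0 k then exp (-2) else 1) ≤ ∏ _k : A, exp (1 / 3) := by
      refine prod_le_prod (fun _ _ => sum_nonneg fun _ _ => by positivity) fun k _ => ?_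
      have h5 : exp (-2) ≤ 1 / 3 := by
        rw [exp_neg, one_div]; gcongr; linarith [add_one_le_exp 2]
      have := add_one_le_exp (1 / 3)
      cases ε0 k <;> simp <;> linarith
    rw [prod_const, card_univ, ← hn', ← exp_nat_mul] at h4
    have h5 := (mul_le_mul_of_nonneg_right (h1.trans h2) (exp_pos (-(n / 5))).le).trans
      (h3.trans h4)
    rw [← exp_log (show (0 : ℝ) < 2 by norm_num), ← exp_nat_mul, ← exp_add, ← exp_add,
      exp_le_exp] at h5
    nlinarith [log_two_gt_d9]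
  refine ⟨fun k => (sg (ε1 k) - sg (ε0 k)) / 2, fun k => ?_, ?_, fun l => ?_⟩
  · beta_reduce
    generalize ε1 k = c1; generalize ε0 k = c0
    cases c1 <;> cases c0 <;> norm_num [sg]
  · beta_reduce
    have h3 : Fintype.card {k // (sg (ε1 k) - sg (ε0 k)) / 2 = 0}
        = (univ.filter fun k => ¬ (ε1 k ≠ ε0 k)).card := by
      rw [Fintype.card_subtype]
      congr 1
      ext k
      simp only [mem_filter, mem_univ, true_and]
      generalize ε1 k = c1; generalize ε0 k = c0
      cases c1 <;> cases c0 <;> norm_num [sg]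
    have h4 := card_filter_add_card_filter_not (s := univ) (fun k => ε1 k ≠ ε0 k)
    rw [card_univ, ← hn'] at h4
    have h5 : n ≤ 10 * (univ.filter fun k => ε1 k ≠ ε0 k).card := by exact_mod_cast hd
    omega
  · have h3 := abs_sub_round (Z ε1 l / Δ)
    have h4 := abs_sub_round (Z ε0 l / Δ)
    have h5 : round (Z ε1 l / Δ) = round (Z ε0 l / Δ) := congrFun hε1 l
    have h6 : ∑ k, (sg (ε1 k) - sg (ε0 k)) / 2 * a l k = (Z ε1 l / Δ - Z ε0 l / Δ) * (Δ / 2) := by
      have : (Z ε1 l / Δ - Z ε0 l / Δ) * (Δ / 2) = (Z ε1 l - Z ε0 l) / 2 := by field_simp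
      rw [this, ← sum_sub_distrib, sum_div]
      exact sum_congr rfl fun k _ => by ring
    rw [h5] at h3
    rw [h6, abs_mul, abs_of_pos (half_pos hΔ0)]
    have h7 : |Z ε1 l / Δ - Z ε0 l / Δ| ≤ 1 := by
      rw [abs_le] at h3 h4 ⊢; constructor <;> linarith
    nlinarith

lemma full_col {R : Type} [Fintype R] (n : ℕ) : ∀ {A : Type} [Fintype A] (a : R → A → ℝ),
    (∀ l k, |a l k| ≤ 1) → Fintype.card A = n → n ≤ Fintype.card R →
    ∃ ε : A → ℝ, (∀ k, ε k = 1 ∨ ε k = -1) ∧
      ∀ l, |∑ k, ε k * a l k| ≤ 640 * √√(n * Fintype.card R) := by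
  classical
  induction n using Nat.strong_induction_on with
  | _ n ih =>
  intro A _ a ha hn hM
  rcases Nat.eq_zero_or_pos n with h0 | h0
  · haveI : IsEmpty A := Fintype.card_eq_zero_iff.1 (hn.trans h0)
    exact ⟨fun _ => 1, fun _ => Or.inl rfl, fun l => by simp; positivity⟩
  obtain ⟨χ, h1, h2, h3⟩ := partial_col a ha (by omega) (by omega)
  rw [hn] at h2 h3
  obtain ⟨ε, h4, h5⟩ := ih _ (show Fintype.card {k // χ k = 0} < n by omega)
    (fun l (k : {k // χ k = 0}) => a l k) (fun l k => ha l k) rfl (by omega)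
  refine ⟨fun k => if h : χ k = 0 then ε ⟨k, h⟩ else χ k, fun k => ?_, fun l => ?_⟩
  · by_cases h : χ k = 0
    · simpa [h] using h4 ⟨k, h⟩
    · simpa [h] using h1 k
  have e : ∑ k, (if h : χ k = 0 then ε ⟨k, h⟩ else χ k) * a l k
      = ∑ k, χ k * a l k + ∑ k : {k // χ k = 0}, ε k * a l k := by
    rw [← Fintype.sum_subtype_add_sum_subtype (fun k => χ k = 0),
      ← Fintype.sum_subtype_add_sum_subtype (fun k => χ k = 0) (fun k => χ k * a l k)]
    rw [sum_congr rfl (g := fun k : {k // χ k = 0} => ε k * a l k) (fun k _ => by simp [k.2]),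
      sum_congr rfl (g := fun k : {k // ¬ χ k = 0} => χ k * a l k) (fun k _ => by simp [k.2]),
      sum_eq_zero (s := univ) (f := fun k : {k // χ k = 0} => χ k * a l k)
        (fun k _ => by simp [k.2])]
    ring
  rw [e]
  refine (abs_add_le _ _).trans ((add_le_add (h3 l) (h5 l)).trans ?_)
  have h6 : √√((Fintype.card {k // χ k = 0} : ℝ) * Fintype.card R)
      ≤ 39 / 40 * √√(n * Fintype.card R) := by
    have h7 : (10 : ℝ) * Fintype.card {k // χ k = 0} ≤ 9 * n := by exact_mod_cast h2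
    rw [← sqrt_sq (show (0 : ℝ) ≤ 39 / 40 by norm_num), ← sqrt_mul (by positivity),
      ← sqrt_sq (show (0 : ℝ) ≤ (39 / 40) ^ 2 by norm_num), ← sqrt_mul (by positivity)]
    have : (0 : ℝ) ≤ n * Fintype.card R := by positivity
    have : (0 : ℝ) ≤ Fintype.card R := by positivity
    exact sqrt_le_sqrt (sqrt_le_sqrt (by nlinarith))
  linarith

end H2UF
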