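import Crest.Agent.H2.UF1

set_option autoImplicit false
set_option maxHeartbeats 400000

namespace H2UF

open Real Finset MeasureTheory intervalIntegral

/-- three derivatives everywhere -/
structure C3 (h h1 h2 h3 : ℝ → ℝ) : Prop where
  d0 : ∀ x, HasDerivAt h (h1 x) x
  d1 : ∀ x, HasDerivAt h1 (h2 x) x
  d2 : ∀ x, HasDerivAt h2 (h3 x) x

lemma cont_of {f f' : ℝ → ℝ} (h : ∀ x, HasDerivAt f (f' x) x) : Continuous f :=
  continuous_iff_continuousAt.2 fun x => (h x).continuousAt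

lemma C3.neg {h h1 h2 h3 : ℝ → ℝ} (H : C3 h h1 h2 h3) :
    C3 (fun x => -h x) (fun x => -h1 x) (fun x => -h2 x) (fun x => -h3 x) :=
  ⟨fun x => (H.d0 x).neg, fun x => (H.d1 x).neg, fun x => (H.d2 x).neg⟩

lemma mvt {f f' : ℝ → ℝ} (h : ∀ x, HasDerivAt f (f' x) x) {C a b x y : ℝ}
    (hC : ∀ z ∈ Set.Icc a b, |f' z| ≤ C) (hx : x ∈ Set.Icc a b) (hy : y ∈ Set.Icc a b) :
    |f x - f y| ≤ C * |x - y| :=
  (convex_Icc a b).norm_image_sub_le_of_norm_hasDerivWithin_le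
    (fun z _ => (h z).hasDerivWithinAt) hC hy hx

lemma mono_of {f f' : ℝ → ℝ} (h : ∀ x, HasDerivAt f (f' x) x) {C x y : ℝ} (hxy : x ≤ y)
    (hC : ∀ z ∈ Set.Icc x y, C ≤ f' z) : C * (y - x) ≤ f y - f x := by
  rcases hxy.eq_or_lt with rfl | hlt
  · simp
  obtain ⟨c, hc, e⟩ := exists_hasDerivAt_eq_slope f f' hlt (cont_of h).continuousOn
    fun z _ => h z
  have := hC c (Set.Ioo_subset_Icc_self hc)
  rwa [e, le_div_iff₀ (sub_pos.2 hlt)] at this

lemma norm_int_neg (h : ℝ → ℝ) (a b : ℝ) :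
    ‖∫ x in a..b, ee (-h x)‖ = ‖∫ x in a..b, ee (h x)‖ := by
  simp only [← conj_ee]
  rw [intervalIntegral_conj, Complex.norm_conj]

lemma test1 {h h1 h2 h3 : ℝ → ℝ} (H : C3 h h1 h2 h3) {a b l : ℝ} (hab : a ≤ b) (hl : 0 < l)
    (p2 : ∀ x ∈ Set.Icc a b, 0 ≤ h2 x) (p1 : ∀ x ∈ Set.Icc a b, l ≤ |h1 x|) :
    ‖∫ x in a..b, ee (h x)‖ ≤ 1 / l := by
  have c0 := cont_of H.d0
  have c1 := cont_of H.d1
  have c2 := cont_of H.d2
  have hne : ∀ x ∈ Set.uIcc a b, h1 x ≠ 0 := fun x hx h0 => by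
    rw [Set.uIcc_of_le hab] at hx
    have := p1 x hx; rw [h0, abs_zero] at this; linarith
  have hq : ContinuousOn (fun x => h2 x / h1 x ^ 2) (Set.uIcc a b) :=
    c2.continuousOn.div (c1.pow 2).continuousOn fun x hx => pow_ne_zero _ (hne x hx)
  have hd : ∀ x ∈ Set.uIcc a b, HasDerivAt (fun x => -(h1 x)⁻¹) (h2 x / h1 x ^ 2) x :=
    fun x hx => ((H.d1 x).inv (hne x hx)).neg.congr_deriv (by ring)
  have hqc : ContinuousOn (fun x => ((h2 x / h1 x ^ 2 : ℝ) : ℂ) * ee (h x)) (Set.uIcc a b) :=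
    (Complex.continuous_ofReal.comp_continuousOn hq).mul (by fun_prop)
  have e1 := integral_eq_sub_of_hasDerivAt hd hq.intervalIntegrable
  have e2 := integral_eq_sub_of_hasDerivAt (a := a) (b := b)
    (f := fun x => ((-(h1 x)⁻¹ : ℝ) : ℂ) * ee (h x))
    (f' := fun x => ((h2 x / h1 x ^ 2 : ℝ) : ℂ) * ee (h x) - 2 * π * Complex.I * ee (h x))
    (fun x hx => by
      refine ((hd x hx).ofReal_comp.mul (hasDerivAt_ee (H.d0 x))).congr_deriv ?_
      have : (h1 x : ℂ) ≠ 0 := by exact_mod_cast hne x hx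
      push_cast; field_simp; ring)
    (hqc.sub (by fun_prop)).intervalIntegrable
  rw [integral_sub hqc.intervalIntegrable (Continuous.intervalIntegrable (by fun_prop) _ _),
    intervalIntegral.integral_const_mul] at e2
  have e3 : ‖∫ x in a..b, ((h2 x / h1 x ^ 2 : ℝ) : ℂ) * ee (h x)‖ ≤ -(h1 b)⁻¹ - -(h1 a)⁻¹ := by
    rw [← e1]
    refine norm_integral_le_of_norm_le hab (Filter.Eventually.of_forall fun x hx => ?_)
      hq.intervalIntegrable
    have := p2 x (Set.Ioc_subset_Icc_self hx)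
    rw [norm_mul, norm_ee, mul_one, Complex.norm_real, Real.norm_of_nonneg (by positivity)]
  have hinv : ∀ x ∈ Set.Icc a b, |(h1 x)⁻¹| ≤ 1 / l := fun x hx => by
    rw [abs_inv, one_div]; exact inv_anti₀ hl (p1 x hx)
  have ha := hinv a ⟨le_rfl, hab⟩
  have hb := hinv b ⟨hab, le_rfl⟩
  have e4 : 2 * π * Complex.I * ∫ x in a..b, ee (h x)
      = (∫ x in a..b, ((h2 x / h1 x ^ 2 : ℝ) : ℂ) * ee (h x))
        - (((-(h1 b)⁻¹ : ℝ) : ℂ) * ee (h b) - ((-(h1 a)⁻¹ : ℝ) : ℂ) * ee (h a)) := by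
    rw [← e2]; ring
  have e5 := (congrArg norm e4).le.trans ((norm_sub_le _ _).trans
    (add_le_add e3 (norm_sub_le _ _)))
  simp only [norm_mul, norm_ee, mul_one, Complex.norm_real, Complex.norm_I, Complex.norm_ofNat,
    Real.norm_eq_abs, abs_neg, abs_of_pos pi_pos] at e5
  have := abs_le.1 ha
  have := abs_le.1 hb
  nlinarith [pi_gt_three, norm_nonneg (∫ x in a..b, ee (h x))]

lemma tail_r {h h1 h2 h3 : ℝ → ℝ} (H : C3 h h1 h2 h3) {a b c l w : ℝ} (hab : a ≤ b) (hl : 0 < l)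
    (hw : 0 < w) (hc : c + w ≤ a) (p2 : ∀ x ∈ Set.Icc c b, l ≤ h2 x) (p1 : 0 ≤ h1 c) :
    ‖∫ x in a..b, ee (h x)‖ ≤ 1 / (l * w) := by
  refine test1 H hab (by positivity) (fun x hx => hl.le.trans (p2 x ⟨by linarith [hx.1], hx.2⟩))
    fun x hx => le_trans ?_ (le_abs_self _)
  have := mono_of H.d1 (show c ≤ x by linarith [hx.1]) fun z hz => p2 z ⟨hz.1, hz.2.trans hx.2⟩
  nlinarith [hx.1]

lemma tail_l {h h1 h2 h3 : ℝ → ℝ} (H : C3 h h1 h2 h3) {a b c l w : ℝ} (hab : a ≤ b) (hl : 0 < l)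
    (hw : 0 < w) (hc : b + w ≤ c) (p2 : ∀ x ∈ Set.Icc a c, l ≤ h2 x) (p1 : h1 c ≤ 0) :
    ‖∫ x in a..b, ee (h x)‖ ≤ 1 / (l * w) := by
  refine test1 H hab (by positivity) (fun x hx => hl.le.trans (p2 x ⟨hx.1, by linarith [hx.2]⟩))
    fun x hx => le_trans ?_ (neg_le_abs _)
  have := mono_of H.d1 (show x ≤ c by linarith [hx.2]) fun z hz => p2 z ⟨hx.1.trans hz.1, hz.2⟩
  nlinarith [hx.2]

lemma int_split {h : ℝ → ℝ} (c0 : Continuous h) (a b c d : ℝ) : ∫ x in a..d, ee (h x)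
    = (∫ x in a..b, ee (h x)) + (∫ x in b..c, ee (h x)) + ∫ x in c..d, ee (h x) := by
  have : ∀ a b, IntervalIntegrable (fun x => ee (h x)) volume a b := fun a b =>
    Continuous.intervalIntegrable (by fun_prop) _ _
  rw [integral_add_adjacent_intervals (this _ _) (this _ _),
    integral_add_adjacent_intervals (this _ _) (this _ _)]

lemma test2 {h h1 h2 h3 : ℝ → ℝ} (H : C3 h h1 h2 h3) {a b l : ℝ} (hab : a ≤ b) (hl : 0 < l)
    (p2 : ∀ x ∈ Set.Icc a b, l ≤ h2 x) : ‖∫ x in a..b, ee (h x)‖ ≤ 4 / √l := by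
  obtain ⟨c, hc, hc1, hc2⟩ : ∃ c ∈ Set.Icc a b, (a < c → h1 c ≤ 0) ∧ (c < b → 0 ≤ h1 c) := by
    rcases le_total 0 (h1 a) with ha | ha
    · exact ⟨a, ⟨le_rfl, hab⟩, fun h => absurd h (lt_irrefl _), fun _ => ha⟩
    rcases le_total (h1 b) 0 with hb | hb
    · exact ⟨b, ⟨hab, le_rfl⟩, fun _ => hb, fun h => absurd h (lt_irrefl _)⟩
    obtain ⟨c, hc, e⟩ := intermediate_value_Icc hab (cont_of H.d1).continuousOn ⟨ha, hb⟩
    exact ⟨c, hc, fun _ => e.le, fun _ => e.ge⟩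
  have hs : 0 < √l := sqrt_pos.2 hl
  have hw : 0 < 1 / √l := by positivity
  have e : 1 / (l * (1 / √l)) = 1 / √l := by
    rw [← mul_self_sqrt hl.le, sqrt_mul_self hs.le]; field_simp
  rw [int_split (cont_of H.d0) a (max a (c - 1 / √l)) (min b (c + 1 / √l)) b]
  have t1 : ‖∫ x in a..max a (c - 1 / √l), ee (h x)‖ ≤ 1 / √l := by
    rcases le_total a (c - 1 / √l) with h | h
    · rw [max_eq_right h]
      exact (tail_l H h hl hw (by linarith) (fun x hx => p2 x ⟨hx.1, hx.2.trans hc.2⟩)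
        (hc1 (by linarith))).trans e.le
    · rw [max_eq_left h]; simp
  have t2 : ‖∫ x in min b (c + 1 / √l)..b, ee (h x)‖ ≤ 1 / √l := by
    rcases le_total (c + 1 / √l) b with h | h
    · rw [min_eq_right h]
      exact (tail_r H h hl hw le_rfl (fun x hx => p2 x ⟨hc.1.trans hx.1, hx.2⟩)
        (hc2 (by linarith))).trans e.le
    · rw [min_eq_left h]; simp
  have t3 := norm_integral_le_of_norm_le_const (a := max a (c - 1 / √l))
    (b := min b (c + 1 / √l)) (f := fun x => ee (h x)) (C := 1) fun x _ => (norm_ee _).le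
  have t4 : |min b (c + 1 / √l) - max a (c - 1 / √l)| ≤ 2 * (1 / √l) := by
    have := min_le_right b (c + 1 / √l)
    have := le_max_right a (c - 1 / √l)
    have := le_min hc.2 (show c ≤ c + 1 / √l by linarith)
    have := max_le hc.1 (show c - 1 / √l ≤ c by linarith)
    rw [abs_le]; constructor <;> linarith
  refine norm_add₃_le.trans ?_
  rw [show 4 / √l = 4 * (1 / √l) by ring]
  linarith

lemma test2' {h h1 h2 h3 : ℝ → ℝ} (H : C3 h h1 h2 h3) {a b l : ℝ} (hab : a ≤ b) (hl : 0 < l)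
    (p2 : ∀ x ∈ Set.Icc a b, h2 x ≤ -l) : ‖∫ x in a..b, ee (h x)‖ ≤ 4 / √l := by
  rw [← norm_int_neg]
  exact test2 H.neg hab hl fun x hx => by linarith [p2 x hx]

lemma gauss_tail {b : ℂ} (hb : 0 ≤ b.re) (hb0 : b ≠ 0) {W R : ℝ} (hW : 0 < W) (hR : W ≤ R) :
    ‖∫ x in W..R, Complex.exp (-b * x ^ 2)‖ ≤ 1 / (‖b‖ * W) := by
  have hpos : ∀ x ∈ Set.uIcc W R, 0 < x := fun x hx => by
    rw [Set.uIcc_of_le hR] at hx; linarith [hx.1]
  have hn : ∀ x : ℝ, ‖Complex.exp (-b * x ^ 2)‖ ≤ 1 := fun x => by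
    rw [Complex.norm_exp, exp_le_one_iff, ← Complex.ofReal_pow, Complex.re_mul_ofReal,
      Complex.neg_re]
    nlinarith [sq_nonneg x]
  have hq : ContinuousOn (fun x : ℝ => (x ^ 2)⁻¹) (Set.uIcc W R) :=
    ContinuousOn.inv₀ (by fun_prop) fun x hx => pow_ne_zero _ (hpos x hx).ne'
  have hd : ∀ x ∈ Set.uIcc W R, HasDerivAt (fun x : ℝ => -x⁻¹) ((x ^ 2)⁻¹) x :=
    fun x hx => (hasDerivAt_inv (hpos x hx).ne').neg.congr_deriv (by ring)
  have hqc : ContinuousOn (fun x : ℝ => (((x ^ 2)⁻¹ : ℝ) : ℂ) * Complex.exp (-b * x ^ 2))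
      (Set.uIcc W R) := (Complex.continuous_ofReal.comp_continuousOn hq).mul (by fun_prop)
  have e1 := integral_eq_sub_of_hasDerivAt hd hq.intervalIntegrable
  have e2 := integral_eq_sub_of_hasDerivAt (a := W) (b := R)
    (f := fun x : ℝ => ((-x⁻¹ : ℝ) : ℂ) * Complex.exp (-b * x ^ 2))
    (f' := fun x : ℝ => (((x ^ 2)⁻¹ : ℝ) : ℂ) * Complex.exp (-b * x ^ 2)
      + 2 * b * Complex.exp (-b * x ^ 2))
    (fun x hx => by
      have h1 : HasDerivAt (fun x : ℝ => Complex.exp (-b * x ^ 2))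
          (Complex.exp (-b * x ^ 2) * (-b * (2 * x))) x := by
        simpa using (((hasDerivAt_id (x : ℂ)).pow 2).const_mul (-b)).cexp.comp_ofReal
      refine ((hd x hx).ofReal_comp.mul h1).congr_deriv ?_
      have : (x : ℂ) ≠ 0 := by exact_mod_cast (hpos x hx).ne'
      push_cast; field_simp)
    (hqc.add (by fun_prop)).intervalIntegrable
  rw [integral_add hqc.intervalIntegrable (Continuous.intervalIntegrable (by fun_prop) _ _),
    intervalIntegral.integral_const_mul] at e2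
  have e3 : ‖∫ x in W..R, (((x ^ 2)⁻¹ : ℝ) : ℂ) * Complex.exp (-b * x ^ 2)‖ ≤ -R⁻¹ - -W⁻¹ := by
    rw [← e1]
    refine norm_integral_le_of_norm_le hR (Filter.Eventually.of_forall fun x hx => ?_)
      hq.intervalIntegrable
    rw [norm_mul, Complex.norm_real, Real.norm_of_nonneg (by positivity)]
    exact mul_le_of_le_one_right (by positivity) (hn x)
  have e4 : 2 * b * ∫ x in W..R, Complex.exp (-b * x ^ 2)
      = (((-R⁻¹ : ℝ) : ℂ) * Complex.exp (-b * R ^ 2) - ((-W⁻¹ : ℝ) : ℂ) * Complex.exp (-b * W ^ 2))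
        - ∫ x in W..R, (((x ^ 2)⁻¹ : ℝ) : ℂ) * Complex.exp (-b * x ^ 2) := by
    rw [← e2]; ring
  have e5 := (congrArg norm e4).le.trans ((norm_sub_le _ _).trans
    (add_le_add (norm_sub_le _ _) e3))
  have hR0 : 0 < R⁻¹ := inv_pos.2 (by linarith)
  have hW0 : 0 < W⁻¹ := inv_pos.2 hW
  simp only [norm_mul, Complex.norm_real, Complex.norm_ofNat, Real.norm_eq_abs, abs_neg,
    abs_of_pos hR0, abs_of_pos hW0] at e5
  have h1 := mul_le_of_le_one_right hR0.le (hn R)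
  have h2 := mul_le_of_le_one_right hW0.le (hn W)
  have hb1 : 0 < ‖b‖ := norm_pos_iff.2 hb0
  rw [one_div, mul_inv, ← div_eq_inv_mul, le_div_iff₀ hb1]
  linarith

lemma fresnel : ∃ γ : ℂ, ‖γ‖ ≤ 1 ∧ ∀ W : ℝ, 0 < W →
    ‖(∫ x in -W..W, ee (x ^ 2 / 2)) - γ‖ ≤ 1 / W := by
  refine ⟨(π / (-(π * Complex.I))) ^ (1 / 2 : ℂ), ?_, fun W hW => ?_⟩
  · rw [show (1 / 2 : ℂ) = ((1 / 2 : ℝ) : ℂ) by simp, Complex.norm_cpow_real]
    simp [pi_pos.ne']
  have hb : ∀ e : ℝ, π ≤ ‖(e : ℂ) - π * Complex.I‖ := fun e => by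
    simpa [abs_of_pos pi_pos] using Complex.abs_im_le_norm ((e : ℂ) - π * Complex.I)
  have h1 : ∀ e : ℝ, 0 < e → ‖(∫ x in -W..W, Complex.exp (-(e - π * Complex.I) * x ^ 2))
      - (π / (e - π * Complex.I)) ^ (1 / 2 : ℂ)‖ ≤ 1 / W := by
    intro e he
    set b : ℂ := e - π * Complex.I with hbe
    have hre : 0 < b.re := by simp [hbe, he]
    have hi := integrable_cexp_neg_mul_sq hre
    rw [← integral_gaussian_complex hre]
    refine le_of_tendsto ((tendsto_const_nhds.sub (intervalIntegral_tendsto_integral hi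
      Filter.tendsto_neg_atTop_atBot Filter.tendsto_id)).norm) ?_
    filter_upwards [Filter.eventually_ge_atTop W] with R hR
    have t := gauss_tail hre.le (fun h => by simp [h] at hre) hW hR
    have e1 : ∫ x in -R..-W, Complex.exp (-b * x ^ 2) = ∫ x in W..R, Complex.exp (-b * x ^ 2) := by
      rw [← integral_comp_neg]; simp
    rw [id, ← integral_add_adjacent_intervals (a := -R) (b := -W) hi.intervalIntegrable
      hi.intervalIntegrable, ← integral_add_adjacent_intervals (a := -W) (b := W) (c := R)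
      hi.intervalIntegrable hi.intervalIntegrable, e1,
      show ∀ x y : ℂ, x - (y + (x + y)) = -2 * y from fun x y => by ring, norm_mul]
    have : 1 / (‖b‖ * W) ≤ 1 / (2 * W) := by gcongr; linarith [hb e, pi_gt_three]
    have e2 : 1 / W = 2 * (1 / (2 * W)) := by field_simp
    norm_num
    rw [← one_div, e2]; simp only [neg_mul] at t; linarith
  have h2 : ContinuousAt (fun e : ℝ => ‖(∫ x in -W..W, Complex.exp (-(e - π * Complex.I) * x ^ 2))
      - (π / (e - π * Complex.I)) ^ (1 / 2 : ℂ)‖) 0 := by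
    refine ((continuous_parametric_intervalIntegral_of_continuous' (by fun_prop) _ _).continuousAt.sub
      (ContinuousAt.cpow (ContinuousAt.div (by fun_prop) (by fun_prop) ?_) (by fun_prop) ?_)).norm
    · simp [pi_pos.ne']
    · right; simp [Complex.div_im, pi_pos.ne']
  have h3 := le_of_tendsto (h2.tendsto.mono_left (nhdsWithin_le_nhds (s := Set.Ioi 0)))
    (eventually_nhdsWithin_of_forall h1)
  have e : ∀ x : ℝ, ee (x ^ 2 / 2) = Complex.exp (π * Complex.I * x ^ 2) := fun x => by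
    unfold ee; congr 1; push_cast; ring
  simpa [e] using h3

lemma stat_phase {γ : ℂ} (hγ : ∀ W : ℝ, 0 < W → ‖(∫ x in -W..W, ee (x ^ 2 / 2)) - γ‖ ≤ 1 / W)
    {h h1 h2 h3 : ℝ → ℝ} (H : C3 h h1 h2 h3) {a b c l l3 w : ℝ} (hl : 0 < l) (hw : 0 < w)
    (ha : a + w ≤ c) (hb : c + w ≤ b) (p1 : h1 c = 0) (p2 : ∀ x ∈ Set.Icc a b, l ≤ h2 x)
    (p3 : ∀ x ∈ Set.Icc a b, |h3 x| ≤ l3) :
    ‖(∫ x in a..b, ee (h x)) - γ * ee (h c) / √(h2 c)‖ ≤ 3 / (l * w) + 13 * l3 * w ^ 4 := by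
  have hc : c ∈ Set.Icc (c - w) (c + w) := ⟨by linarith, by linarith⟩
  have hm := p2 c ⟨by linarith, by linarith⟩
  have hx : ∀ x ∈ Set.Icc (c - w) (c + w), |x - c| ≤ w := fun x hx =>
    abs_le.2 ⟨by linarith [hx.1], by linarith [hx.2]⟩
  have hl3 : 0 ≤ l3 := (abs_nonneg _).trans (p3 c ⟨by linarith, by linarith⟩)
  have r2 : ∀ x ∈ Set.Icc (c - w) (c + w), |h2 x - h2 c| ≤ l3 * w := fun x h =>
    (mvt H.d2 (fun z hz => p3 z ⟨by linarith [hz.1], by linarith [hz.2]⟩) h hc).trans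
      (by gcongr; exact hx x h)
  have r1 : ∀ x ∈ Set.Icc (c - w) (c + w), |h1 x - h2 c * (x - c)| ≤ l3 * w * w := fun x h => by
    have := mvt (f := fun x => h1 x - h2 c * (x - c)) (fun x =>
      ((H.d1 x).sub (((hasDerivAt_id x).sub_const c).const_mul (h2 c))).congr_deriv (by ring))
      r2 h hc
    simp only [p1, sub_self, mul_zero, sub_zero] at this
    exact this.trans (by gcongr; exact hx x h)
  have r0 : ∀ x ∈ Set.Icc (c - w) (c + w), |h x - (h c + h2 c * (x - c) ^ 2 / 2)|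
      ≤ l3 * w * w * w := fun x h' => by
    have := mvt (f := fun x => h x - (h c + h2 c * (x - c) ^ 2 / 2)) (fun x =>
      ((H.d0 x).sub ((((((hasDerivAt_id x).sub_const c).pow 2).const_mul
        (h2 c)).div_const 2).const_add (h c))).congr_deriv (by simp; ring)) r1 h' hc
    simp only [sub_self, ne_eq, OfNat.ofNat_ne_zero, not_false_eq_true, zero_pow, mul_zero,
      zero_div, add_zero, sub_zero] at this
    exact this.trans (by gcongr; exact hx x h')
  have hs : 0 < √(h2 c) := sqrt_pos.2 (by linarith)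
  have hs2 : √(h2 c) * √(h2 c) = h2 c := mul_self_sqrt (by linarith)
  have e1 : ∫ x in c - w..c + w, ee (h c + h2 c * (x - c) ^ 2 / 2)
      = (∫ x in -(√(h2 c) * w)..√(h2 c) * w, ee (x ^ 2 / 2)) * ee (h c) / √(h2 c) := by
    have := integral_comp_mul_add (a := c - w) (b := c + w) (fun x => ee (x ^ 2 / 2)) hs.ne'
      (-(√(h2 c) * c))
    rw [show √(h2 c) * (c - w) + -(√(h2 c) * c) = -(√(h2 c) * w) by ring,
      show √(h2 c) * (c + w) + -(√(h2 c) * c) = √(h2 c) * w by ring, Complex.real_smul] at this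
    simp only [ee_add]
    rw [intervalIntegral.integral_const_mul, mul_comm, mul_div_right_comm, div_eq_inv_mul,
      ← Complex.ofReal_inv, ← this]
    congr 2; ext x; congr 1
    rw [show √(h2 c) * x + -(√(h2 c) * c) = √(h2 c) * (x - c) by ring, mul_pow, sq √_, hs2]
  have t1 := tail_l H (show a ≤ c - w by linarith) hl hw (show c - w + w ≤ c by linarith)
    (fun x hx => p2 x ⟨hx.1, by linarith [hx.2]⟩) p1.le
  have t2 := tail_r H hb hl hw le_rfl (fun x hx => p2 x ⟨by linarith [hx.1], hx.2⟩) p1.ge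
  have c0 := cont_of H.d0
  have t3 := norm_integral_le_of_norm_le_const (a := c - w) (b := c + w)
    (f := fun x => ee (h x) - ee (h c + h2 c * (x - c) ^ 2 / 2)) (C := 2 * π * (l3 * w * w * w))
    fun x hx => (norm_ee_sub _ _).trans (by
      rw [Set.uIoc_of_le (by linarith)] at hx
      gcongr; exact r0 x (Set.Ioc_subset_Icc_self hx))
  rw [integral_sub (Continuous.intervalIntegrable (by fun_prop) _ _)
    (Continuous.intervalIntegrable (by fun_prop) _ _), e1, show c + w - (c - w) = 2 * w by ring,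
    abs_of_pos (by positivity)] at t3
  have t4 : ‖(∫ x in -(√(h2 c) * w)..√(h2 c) * w, ee (x ^ 2 / 2)) * ee (h c) / √(h2 c)
      - γ * ee (h c) / √(h2 c)‖ ≤ 1 / (l * w) := by
    rw [← sub_div, ← sub_mul, norm_div, norm_mul, norm_ee, mul_one, Complex.norm_real,
      Real.norm_of_nonneg hs.le, div_le_iff₀ hs]
    refine (hγ _ (by positivity)).trans ?_
    rw [div_mul_eq_mul_div, div_le_div_iff₀ (by positivity) (by positivity)]
    nlinarith
  rw [int_split c0 a (c - w) (c + w) b, show ∀ x y z g : ℂ, x + y + z - g = x + z + (y - g) from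
    fun x y z g => by ring]
  refine norm_add₃_le.trans ?_
  have t5 := norm_sub_le_norm_sub_add_norm_sub (∫ x in c - w..c + w, ee (h x)) _
    (γ * ee (h c) / √(h2 c)) |>.trans (add_le_add t3 t4)
  have : 0 ≤ l3 * w ^ 4 := by positivity
  rw [show 3 / (l * w) = 3 * (1 / (l * w)) by ring]
  nlinarith [pi_lt_d2]

end H2UF
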