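import Crest.Agent.H2.UF4

set_option autoImplicit false
set_option maxHeartbeats 400000

namespace H2UF

open Real Finset MeasureTheory intervalIntegral

/-- first-order Taylor bound on a set -/
def Tay (f g : ℝ → ℝ) (L : ℝ) (S : Set ℝ) : Prop :=
  ∀ x ∈ S, ∀ y ∈ S, |f x - f y - g y * (x - y)| ≤ L * (x - y) ^ 2

lemma tay_of {f g g' : ℝ → ℝ} (h0 : ∀ x, HasDerivAt f (g x) x) (h1 : ∀ x, HasDerivAt g (g' x) x)
    {L a b : ℝ} (hL : ∀ x ∈ Set.Icc a b, |g' x| ≤ L) : Tay f g L (Set.Icc a b) := by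
  intro x hx y hy
  have hL0 : 0 ≤ L := (abs_nonneg _).trans (hL x hx)
  have := mvt (f := fun z => f z - g y * z) (f' := fun z => g z - g y) (C := L * |x - y|)
    (a := min x y) (b := max x y) (x := x) (y := y)
    (fun z => ((h0 z).sub ((hasDerivAt_id z).const_mul (g y))).congr_deriv (by ring))
    (fun z hz => (mvt h1 hL ⟨(le_min hx.1 hy.1).trans hz.1, hz.2.trans (max_le hx.2 hy.2)⟩
      hy).trans (by
        refine mul_le_mul_of_nonneg_left ?_ hL0
        exact Set.abs_sub_left_of_mem_uIcc (by rw [Set.uIcc_comm]; exact hz)))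
    ⟨min_le_left _ _, le_max_left _ _⟩ ⟨min_le_right _ _, le_max_right _ _⟩
  rw [mul_assoc, abs_mul_abs_self, ← sq] at this
  convert this using 2; ring

lemma tay_cross {f1 g1 f2 g2 : ℝ → ℝ} {L a x y : ℝ} {S1 S2 : Set ℝ} (h1 : Tay f1 g1 L S1)
    (h2 : Tay f2 g2 L S2) (a1 : a ∈ S1) (a2 : a ∈ S2) (ef : f1 a = f2 a) (eg : g1 a = g2 a)
    (hx : x ∈ S1) (hy : y ∈ S2) (hs : 0 ≤ (x - a) * (a - y)) :
    |f1 x - f2 y - g2 y * (x - y)| ≤ L * (x - y) ^ 2 := by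
  have t1 := h1 x hx a a1
  have t2 := h2 a a2 y hy
  have t3 := h2 y hy a a2
  have t4 : |(g2 a - g2 y) * (x - a)| ≤ 2 * L * ((x - a) * (a - y)) := by
    rcases eq_or_ne a y with rfl | hne
    · simp
    have h0 : 0 < |a - y| := abs_pos.2 (sub_ne_zero.2 hne)
    have t5 : |g2 a - g2 y| * |a - y| ≤ 2 * L * |a - y| * |a - y| := by
      rw [← abs_mul, mul_assoc, abs_mul_abs_self]
      rw [abs_le] at t2 t3 ⊢; constructor <;> nlinarith
    rw [← abs_of_nonneg hs, abs_mul, abs_mul]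
    nlinarith [le_of_mul_le_mul_right t5 h0, abs_nonneg (x - a)]
  rw [ef, eg] at t1
  rw [abs_le] at t1 t2 t4 ⊢; constructor <;> nlinarith

/-- gluing two functions at a point -/
noncomputable def gl (a : ℝ) (f g : ℝ → ℝ) (u : ℝ) : ℝ := if u ≤ a then f u else g u

lemma gl_le {a u : ℝ} (f g : ℝ → ℝ) (h : u ≤ a) : gl a f g u = f u := if_pos h

lemma gl_ge {a u : ℝ} {f g : ℝ → ℝ} (e : f a = g a) (h : a ≤ u) : gl a f g u = g u := by
  rcases h.eq_or_lt with rfl | h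
  · rw [gl_le _ _ le_rfl, e]
  · exact if_neg (not_le.2 h)

lemma Tay.glue {f1 g1 f2 g2 : ℝ → ℝ} {L a : ℝ} {S S1 S2 : Set ℝ} (h1 : Tay f1 g1 L S1)
    (h2 : Tay f2 g2 L S2) (a1 : a ∈ S1) (a2 : a ∈ S2) (ef : f1 a = f2 a) (eg : g1 a = g2 a)
    (s1 : ∀ x ∈ S, x ≤ a → x ∈ S1) (s2 : ∀ x ∈ S, a ≤ x → x ∈ S2) :
    Tay (gl a f1 f2) (gl a g1 g2) L S := by
  intro x hx y hy
  rcases le_total x a with h | h <;> rcases le_total y a with h' | h'
  · simpa only [gl_le _ _ h, gl_le _ _ h'] using h1 x (s1 x hx h) y (s1 y hy h')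
  · rw [gl_le _ _ h, gl_ge ef h', gl_ge eg h']
    exact tay_cross h1 h2 a1 a2 ef eg (s1 x hx h) (s2 y hy h') (by nlinarith)
  · rw [gl_ge ef h, gl_le _ _ h', gl_le _ _ h']
    exact tay_cross h2 h1 a2 a1 ef.symm eg.symm (s2 x hx h) (s1 y hy h') (by nlinarith)
  · simpa only [gl_ge ef h, gl_ge ef h', gl_ge eg h'] using h2 x (s2 x hx h) y (s2 y hy h')

lemma Tay.continuous {f g : ℝ → ℝ} {L : ℝ} (h : Tay f g L Set.univ) : Continuous f := by
  refine continuous_iff_continuousAt.2 fun y => tendsto_iff_norm_sub_tendsto_zero.2 ?_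
  refine squeeze_zero (g := fun x => |g y * (x - y)| + L * (x - y) ^ 2) (fun _ => norm_nonneg _)
    (fun x => ?_) (Continuous.tendsto' (by fun_prop) _ _ (by simp))
  have := abs_sub_abs_le_abs_sub (f x - f y) (g y * (x - y))
  have := h x trivial y trivial
  rw [Real.norm_eq_abs]; linarith

lemma tay_const (m L : ℝ) (hL : 0 ≤ L) (S : Set ℝ) : Tay (fun _ => m) (fun _ => 0) L S :=
  fun x _ y _ => by simp; positivity

/-- connector phase -/
noncomputable def q0 (γ D c u : ℝ) : ℝ := D / γ * (u ^ 2 / 2) + c * (γ * (u ^ 2 / 2) - u ^ 3 / 3)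
/-- connector delay -/
noncomputable def q1 (γ D c u : ℝ) : ℝ := D / γ * u + c * (γ * u - u ^ 2)
/-- connector slope -/
noncomputable def q2 (γ D c u : ℝ) : ℝ := D / γ + c * (γ - 2 * u)

lemma q_C3 (γ D c : ℝ) : C3 (q0 γ D c) (q1 γ D c) (q2 γ D c) (fun _ => -2 * c) := by
  have h := fun (n : ℕ) (x : ℝ) => hasDerivAt_pow n x
  refine ⟨fun x => ?_, fun x => ?_, fun x => ?_⟩
  · exact ((((h 2 x).div_const 2).const_mul _).add (((((h 2 x).div_const 2).const_mul γ).sub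
      ((h 3 x).div_const 3)).const_mul c)).congr_deriv (by simp [q1])
  · exact (((hasDerivAt_id x).const_mul _).add ((((hasDerivAt_id x).const_mul γ).sub
      (h 2 x)).const_mul c)).congr_deriv (by simp [q2])
  · exact (((((hasDerivAt_id x).const_mul 2).const_sub γ).const_mul c).const_add _).congr_deriv
      (by simp; ring)

lemma q_bd {γ D c u : ℝ} (hγ : 0 < γ) (hD : D ≤ 0) (hc : 0 ≤ c) (hc' : c * γ ^ 3 ≤ 6)
    (hu : u ∈ Set.Icc 0 γ) : D ≤ q1 γ D c u ∧ q1 γ D c u ≤ 6 / γ ∧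
      q2 γ D c u ≤ D / γ + 6 / γ ^ 2 ∧ D / γ - 6 / γ ^ 2 ≤ q2 γ D c u := by
  obtain ⟨h0, h1⟩ := hu
  have e1 : c * γ ≤ 6 / γ ^ 2 := by rw [le_div_iff₀ (by positivity)]; nlinarith
  have e2 : c * γ ^ 2 ≤ 6 / γ := by rw [le_div_iff₀ (by positivity)]; nlinarith
  have e3 : D / γ ≤ 0 := div_nonpos_of_nonpos_of_nonneg hD hγ.le
  have e4 : D = D / γ * γ := by field_simp
  unfold q1 q2
  refine ⟨?_, ?_, ?_, ?_⟩
  · nlinarith [mul_nonneg hc (mul_nonneg h0 (sub_nonneg.2 h1))]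
  · nlinarith [mul_nonneg hc (mul_nonneg hγ.le (sub_nonneg.2 h1)), mul_nonneg hc (sq_nonneg u)]
  · nlinarith
  · nlinarith

lemma C3.lin {h h1 h2 h3 : ℝ → ℝ} (H : C3 h h1 h2 h3) (p r s : ℝ) :
    C3 (fun u => r * u + (p + s * h u)) (fun u => r + s * h1 u) (fun u => s * h2 u)
      (fun u => s * h3 u) :=
  ⟨fun x => (((hasDerivAt_id x).const_mul r).add (((H.d0 x).const_mul s).const_add p)).congr_deriv
    (by ring), fun x => ((H.d1 x).const_mul s).const_add r, fun x => (H.d2 x).const_mul s⟩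

lemma C3.refl {h h1 h2 h3 : ℝ → ℝ} (H : C3 h h1 h2 h3) :
    C3 (fun u => -h (1 - u)) (fun u => h1 (1 - u)) (fun u => -h2 (1 - u)) (fun u => h3 (1 - u)) :=
  ⟨fun x => ((H.d0 _).comp x ((hasDerivAt_id x).const_sub 1)).neg.congr_deriv (by simp),
    fun x => ((H.d1 _).comp x ((hasDerivAt_id x).const_sub 1)).congr_deriv (by simp),
    fun x => ((H.d2 _).comp x ((hasDerivAt_id x).const_sub 1)).neg.congr_deriv (by simp)⟩

lemma taper {η A γ0 : ℝ} (hη : 0 < η) (hA : 0 < A) (hγ0 : 0 < γ0) :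
    ∃ (γ L : ℝ) (s0 s1 s2 s3 : ℝ → ℝ), 0 < γ ∧ γ ≤ γ0 ∧ C3 s0 s1 s2 s3 ∧ s1 0 = 0 ∧ s1 1 ≤ 1 + η ∧
      (∀ u, 1 ≤ s2 u) ∧ (∀ u, u ≤ 3 * γ ∨ 1 - 3 * γ ≤ u → A ≤ s2 u) ∧
      ∀ u ∈ Set.Icc (0 : ℝ) 1, s2 u ≤ L ∧ |s3 u| ≤ L := by
  set b := 4 * A / η with hb
  have hb0 : 0 < b := by positivity
  have d1 : ∀ x, HasDerivAt (fun u => exp (-b * u)) (-b * exp (-b * x)) x := fun x =>
    ((hasDerivAt_id x).const_mul (-b)).exp.congr_deriv (by simp; ring)
  have d2 : ∀ x, HasDerivAt (fun u => exp (b * (u - 1))) (b * exp (b * (x - 1))) x := fun x =>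
    (((hasDerivAt_id x).sub_const 1).const_mul b).exp.congr_deriv (by simp; ring)
  refine ⟨min γ0 (1 / (6 * b)), 1 + 4 * A + 4 * A * b,
    fun u => u ^ 2 / 2 + 2 * A / b * ((exp (b * (u - 1)) + exp (-b * u)) / b + (1 - exp (-b)) * u),
    fun u => u + 2 * A / b * (exp (b * (u - 1)) - exp (-b * u) + (1 - exp (-b))),
    fun u => 1 + 2 * A * (exp (b * (u - 1)) + exp (-b * u)),
    fun u => 2 * A * b * (exp (b * (u - 1)) - exp (-b * u)), by positivity, min_le_left _ _,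
    ⟨fun x => ?_, fun x => ?_, fun x => ?_⟩, by simp, ?_, fun u => ?_, fun u hu => ?_,
    fun u hu => ?_⟩
  · exact (((hasDerivAt_pow 2 x).div_const 2).add (((((d2 x).add (d1 x)).div_const b).add
      ((hasDerivAt_id x).const_mul _)).const_mul _)).congr_deriv (by
        simp only [Nat.cast_ofNat, Nat.add_one_sub_one, pow_one]; field_simp; ring)
  · exact ((hasDerivAt_id x).add ((((d2 x).sub (d1 x)).add_const _).const_mul _)).congr_deriv
      (by field_simp; ring)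
  · exact ((((d2 x).add (d1 x)).const_mul _).const_add _).congr_deriv (by ring)
  · have : 2 * A / b = η / 2 := by rw [hb]; field_simp; ring
    simp only [this, sub_self, mul_zero, exp_zero, mul_one]
    nlinarith [exp_pos (-b)]
  · have : 0 ≤ 2 * A * (exp (b * (u - 1)) + exp (-b * u)) := by positivity
    linarith
  · have h1 : b * min γ0 (1 / (6 * b)) ≤ 1 / 6 :=
      (mul_le_mul_of_nonneg_left (min_le_right _ _) hb0.le).trans (le_of_eq (by field_simp))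
    have h2 := add_one_le_exp (b * (u - 1))
    have h3 := add_one_le_exp (-b * u)
    have h4 := exp_pos (b * (u - 1))
    have h5 := exp_pos (-b * u)
    have : 1 / 2 ≤ exp (b * (u - 1)) + exp (-b * u) := by
      rcases hu with hu | hu <;> nlinarith
    nlinarith
  · have h2 : exp (b * (u - 1)) ≤ 1 := exp_le_one_iff.2 (by nlinarith [hu.2])
    have h3 : exp (-b * u) ≤ 1 := exp_le_one_iff.2 (by nlinarith [hu.1])
    have h4 := exp_pos (b * (u - 1))
    have h5 := exp_pos (-b * u)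
    have h6 : 0 < A * b := by positivity
    refine ⟨by nlinarith, abs_le.2 ⟨by nlinarith, by nlinarith⟩⟩

lemma sq_scale {N ω X : ℝ} (hN : 0 < N) (hω : 0 < ω) (hX : 0 < X) :
    √N * ω / √(ω * N * X) = √(ω / X) := by
  have := sqrt_pos.2 hN
  have := sqrt_pos.2 hω
  have := sqrt_pos.2 hX
  rw [sqrt_mul (by positivity), sqrt_mul hω.le, sqrt_div hω.le]
  field_simp
  rw [sq_sqrt hω.le]

lemma sq_scale' {N ω X e y : ℝ} (hN : 0 < N) (hω : 0 < ω) (hω1 : ω ≤ 1) (hX : 0 < X)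
    (he : 4 / √X ≤ e) (hy : y ≤ 4 / √(ω * N * X)) : √N * ω * y ≤ e := by
  refine (mul_le_mul_of_nonneg_left hy (by positivity)).trans (le_trans ?_ he)
  rw [mul_div_left_comm, sq_scale hN hω hX, sqrt_div hω.le, mul_div_assoc']
  gcongr
  nlinarith [sqrt_le_one.2 hω1]

end H2UF
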