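import Crest.Agent.H2.UF5

set_option autoImplicit false
set_option maxHeartbeats 400000

namespace H2UF

open Real Finset MeasureTheory intervalIntegral

lemma glue5 {f1 g1 f2 g2 f3 g3 : ℝ → ℝ} {m γ L : ℝ} (hγ : 0 < γ) (hγ1 : γ ≤ 1 / 4) (hL : 0 ≤ L)
    (t1 : Tay f1 g1 L (Set.Icc 0 γ)) (t2 : Tay f2 g2 L (Set.Icc γ (1 - γ)))
    (t3 : Tay f3 g3 L (Set.Icc (1 - γ) 1)) (a1 : 0 = f1 0) (a2 : 0 = g1 0) (a3 : f1 γ = f2 γ)
    (a4 : g1 γ = g2 γ) (a5 : f2 (1 - γ) = f3 (1 - γ)) (a6 : g2 (1 - γ) = g3 (1 - γ))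
    (a7 : f3 1 = m) (a8 : g3 1 = 0) :
    ∃ φ b : ℝ → ℝ, Tay φ b L Set.univ ∧ (∀ u ≤ 0, φ u = 0 ∧ b u = 0) ∧
      (∀ u ∈ Set.Icc 0 γ, φ u = f1 u ∧ b u = g1 u) ∧
      (∀ u ∈ Set.Icc γ (1 - γ), φ u = f2 u ∧ b u = g2 u) ∧
      (∀ u ∈ Set.Icc (1 - γ) 1, φ u = f3 u ∧ b u = g3 u) ∧ ∀ u, 1 ≤ u → φ u = m ∧ b u = 0 := by
  have key : ∀ {f1 f2 f3 : ℝ → ℝ} {m : ℝ}, 0 = f1 0 → f1 γ = f2 γ → f2 (1 - γ) = f3 (1 - γ) →
      f3 1 = m → ∀ φ, φ = gl 0 (fun _ => 0) (gl γ f1 (gl (1 - γ) f2 (gl 1 f3 fun _ => m))) →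
      (∀ u ≤ 0, φ u = 0) ∧ (∀ u ∈ Set.Icc 0 γ, φ u = f1 u) ∧
      (∀ u ∈ Set.Icc γ (1 - γ), φ u = f2 u) ∧ (∀ u ∈ Set.Icc (1 - γ) 1, φ u = f3 u) ∧
      (∀ u, 1 ≤ u → φ u = m) ∧ f2 (1 - γ) = gl 1 f3 (fun _ => m) (1 - γ) ∧
      f1 γ = gl (1 - γ) f2 (gl 1 f3 fun _ => m) γ ∧
      0 = gl γ f1 (gl (1 - γ) f2 (gl 1 f3 fun _ => m)) 0 := by
    intro f1 f2 f3 m a1 a3 a5 a7 φ hφ
    have b1 : f2 (1 - γ) = gl 1 f3 (fun _ => m) (1 - γ) := by rw [gl_le _ _ (by linarith), a5]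
    have b2 : f1 γ = gl (1 - γ) f2 (gl 1 f3 fun _ => m) γ := by rw [gl_le _ _ (by linarith), a3]
    have b3 : 0 = gl γ f1 (gl (1 - γ) f2 (gl 1 f3 fun _ => m)) 0 := by rw [gl_le _ _ hγ.le]; exact a1
    subst hφ
    refine ⟨fun u h => gl_le _ _ h, fun u h => ?_, fun u h => ?_, fun u h => ?_, fun u h => ?_,
      b1, b2, b3⟩
    · rw [gl_ge b3 h.1, gl_le _ _ h.2]
    · rw [gl_ge b3 (by linarith [h.1]), gl_ge b2 h.1, gl_le _ _ h.2]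
    · rw [gl_ge b3 (by linarith [h.1]), gl_ge b2 (by linarith [h.1]), gl_ge b1 h.1, gl_le _ _ h.2]
    · rw [gl_ge b3 (by linarith), gl_ge b2 (by linarith), gl_ge b1 (by linarith), gl_ge a7 h]
  obtain ⟨p1, p2, p3, p4, p5, p6, p7, p8⟩ := key a1 a3 a5 a7 _ rfl
  obtain ⟨r1, r2, r3, r4, r5, r6, r7, r8⟩ := key a2 a4 a6 a8 _ rfl
  refine ⟨_, _, ?_, fun u h => ⟨p1 u h, r1 u h⟩, fun u h => ⟨p2 u h, r2 u h⟩,
    fun u h => ⟨p3 u h, r3 u h⟩, fun u h => ⟨p4 u h, r4 u h⟩, fun u h => ⟨p5 u h, r5 u h⟩⟩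
  have u1 := t3.glue (S := Set.Ici (1 - γ)) (tay_const m L hL Set.univ) ⟨by linarith, le_rfl⟩
    trivial a7 a8 (fun x h h' => ⟨h, h'⟩) fun _ _ _ => trivial
  have u2 := t2.glue (S := Set.Ici γ) u1 ⟨by linarith, le_rfl⟩ (Set.mem_Ici.2 le_rfl) p6 r6
    (fun x h h' => ⟨h, h'⟩) fun _ _ h => h
  have u3 := t1.glue (S := Set.Ici 0) u2 ⟨by linarith, le_rfl⟩ (Set.mem_Ici.2 le_rfl) p7 r7
    (fun x h h' => ⟨h, h'⟩) fun _ _ h => h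
  exact (tay_const 0 L hL Set.univ).glue u3 trivial (Set.mem_Ici.2 le_rfl) p8 r8
    (fun _ _ _ => trivial) fun _ _ h => h

/-- the properties of a local phase used in the gluing -/
structure Piece (δ L ω N τ : ℝ) (φ b : ℝ → ℝ) : Prop where
  tay : Tay φ b (L * N) Set.univ
  left : ∀ u ≤ 0, φ u = 0 ∧ b u = 0
  right : ∃ m : ℤ, ∀ u, 1 ≤ u → φ u = m ∧ b u = 0
  rng : ∀ u, ω * (δ * N) ≤ ω * τ + b u ∧ ω * τ + b u ≤ ω * ((1 - δ / 2) * N)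

lemma main_est {Γ : ℂ} (hΓ : ∀ W : ℝ, 0 < W → ‖(∫ x in -W..W, ee (x ^ 2 / 2)) - Γ‖ ≤ 1 / W)
    {γ L A e ω t T : ℝ} {s0 s1 s2 s3 : ℝ → ℝ} (H : C3 s0 s1 s2 s3) (hγ : 0 < γ)
    (hγ1 : γ ≤ 1 / 4) (hA : 0 < A) (he : 0 < e) (hω : 0 < ω)
    (hω1 : ω ≤ 1) (hT : 0 < T) (hT1 : T ≤ 1) (hs : ∀ u, 1 ≤ s2 u)
    (hsA : ∀ u, u ≤ 3 * γ ∨ 1 - 3 * γ ≤ u → A ≤ s2 u)
    (hsL : ∀ u ∈ Set.Icc (0 : ℝ) 1, s2 u ≤ L ∧ |s3 u| ≤ L) (e2 : 4 / √(T * A) ≤ e)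
    {ρ N : ℝ} (hN : N = ρ ^ 10) (hρ : 1 ≤ ρ) (r1 : 1 ≤ γ * ρ) (r2 : 3 / T + 13 * L ≤ e * ρ)
    (r4 : 1 ≤ T * γ * e * ρ) (p k : ℝ) :
    (∀ u ∈ Set.Icc (2 * γ) (1 - 2 * γ), N * (t + T * s1 u) = k →
      ‖(√N * ω : ℝ) * (∫ x in γ..1 - γ, ee ((ω * N * t - ω * k) * x + (p + ω * N * T * s0 x)))
        - Γ * √(ω / (T * s2 u)) * ee (p + ω * (N * (t * u + T * s0 u) - k * u))‖ ≤ 2 * e) ∧
    ((∀ u ∈ Set.Icc (2 * γ) (1 - 2 * γ), N * (t + T * s1 u) ≠ k) →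
      ‖(√N * ω : ℝ) * (∫ x in γ..1 - γ, ee ((ω * N * t - ω * k) * x + (p + ω * N * T * s0 x)))‖
        ≤ 2 * e) := by
  have G := H.lin p (ω * N * t - ω * k) (ω * N * T)
  have hN0 : 0 < N := by rw [hN]; positivity
  have hl : 0 < ω * N * T := by positivity
  have hsq : √N = ρ ^ 5 := by rw [hN, show ρ ^ 10 = (ρ ^ 5) ^ 2 by ring, sqrt_sq (by positivity)]
  have p2 : ∀ x, ω * N * T ≤ ω * N * T * s2 x := fun x => le_mul_of_one_le_right hl.le (hs x)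
  have hρ4 : ρ ≤ ρ ^ 4 := le_self_pow₀ hρ (by norm_num)
  have hn : ∀ z : ℂ, ‖(√N * ω : ℝ) * z‖ = √N * ω * ‖z‖ := fun z => by
    rw [norm_mul, Complex.norm_real, Real.norm_of_nonneg (by positivity)]
  refine ⟨fun u hu hk => ?_, fun hk => ?_⟩
  · have hw : 1 / ρ ^ 4 ≤ γ := by rw [div_le_iff₀ (by positivity)]; nlinarith
    have := stat_phase hΓ G (a := γ) (b := 1 - γ) (c := u) (l3 := ω * N * T * L) hl
      (show 0 < 1 / ρ ^ 4 by positivity) (by linarith [hu.1]) (by linarith [hu.2])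
      (by rw [← hk]; ring) (fun x _ => p2 x) fun x hx => by
        rw [abs_mul, abs_of_pos hl]
        exact mul_le_mul_of_nonneg_left (hsL x ⟨by linarith [hx.1], by linarith [hx.2]⟩).2 hl.le
    have h2 : 0 < T * s2 u := mul_pos hT (by linarith [hs u])
    have h3 := sq_scale hN0 hω h2
    have h4 : Γ * √(ω / (T * s2 u)) * ee (p + ω * (N * (t * u + T * s0 u) - k * u))
        = (√N * ω : ℝ) * (Γ * ee ((ω * N * t - ω * k) * u + (p + ω * N * T * s0 u))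
          / √(ω * N * T * s2 u)) := by
      rw [← h3, mul_assoc (ω * N), show p + ω * (N * (t * u + T * s0 u) - k * u)
        = (ω * N * t - ω * k) * u + (p + ω * N * T * s0 u) by ring]
      rw [Complex.ofReal_div]; ring
    rw [h4, ← mul_sub, hn]
    refine (mul_le_mul_of_nonneg_left this (by positivity)).trans ?_
    have hL : 0 ≤ L := (abs_nonneg _).trans (hsL 0 ⟨le_rfl, zero_le_one⟩).2
    have h5 : √N * ω * (3 / (ω * N * T * (1 / ρ ^ 4)) + 13 * (ω * N * T * L) * (1 / ρ ^ 4) ^ 4)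
        = (3 / T + 13 * L * (ω * ω * T)) / ρ := by rw [hsq, hN]; field_simp
    have h6 : ω * ω * T ≤ 1 := mul_le_one₀ (mul_le_one₀ hω1 hω.le hω1) hT.le hT1
    rw [h5, div_le_iff₀ (by positivity)]
    nlinarith
  have c0 := cont_of G.d0
  have hi : ∀ a b, IntervalIntegrable (fun x => ee ((ω * N * t - ω * k) * x
      + (p + ω * N * T * s0 x))) volume a b := fun a b =>
    Continuous.intervalIntegrable (by fun_prop) _ _
  have h1 : √N * ω * (1 / (ω * N * T * γ)) ≤ e := by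
    have h5 : √N * ω * (1 / (ω * N * T * γ)) = 1 / (T * γ * ρ ^ 5) := by rw [hsq, hN]; field_simp
    have h6 : ρ ≤ ρ ^ 5 := le_self_pow₀ hρ (by norm_num)
    have h7 : 0 < T * γ * e := by positivity
    rw [h5, div_le_iff₀ (by positivity)]
    nlinarith
  have h2 : ∀ a b, a ≤ b → (∀ x ∈ Set.Icc a b, x ≤ 3 * γ ∨ 1 - 3 * γ ≤ x) →
      √N * ω * ‖∫ x in a..b, ee ((ω * N * t - ω * k) * x + (p + ω * N * T * s0 x))‖ ≤ e :=
    fun a b hab h => sq_scale' hN0 hω hω1 (mul_pos hT hA) e2 (test2 G hab (by positivity)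
      fun x hx => by
        rw [← mul_assoc]; exact mul_le_mul_of_nonneg_left (hsA x (h x hx)) hl.le)
  rw [hn]
  rcases le_total k (N * (t + T * s1 (2 * γ))) with h | h
  · rw [← integral_add_adjacent_intervals (hi γ (3 * γ)) (hi _ _)]
    have t1 := h2 γ (3 * γ) (by linarith) fun x hx => Or.inl hx.2
    have t2 := tail_r G (show 3 * γ ≤ 1 - γ by linarith) hl hγ (show 2 * γ + γ ≤ 3 * γ by linarith)
      (fun x _ => p2 x) (by nlinarith)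
    have t3 := mul_le_mul_of_nonneg_left t2 (show 0 ≤ √N * ω by positivity)
    refine (mul_le_mul_of_nonneg_left (norm_add_le _ _) (by positivity)).trans ?_
    rw [mul_add]; linarith
  rcases le_total (N * (t + T * s1 (1 - 2 * γ))) k with h' | h'
  · rw [← integral_add_adjacent_intervals (hi γ (1 - 3 * γ)) (hi _ _)]
    have t1 := h2 (1 - 3 * γ) (1 - γ) (by linarith) fun x hx => Or.inr hx.1
    have t2 := tail_l G (show γ ≤ 1 - 3 * γ by linarith) hl hγ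
      (show 1 - 3 * γ + γ ≤ 1 - 2 * γ by linarith) (fun x _ => p2 x) (by nlinarith)
    have t3 := mul_le_mul_of_nonneg_left t2 (show 0 ≤ √N * ω by positivity)
    refine (mul_le_mul_of_nonneg_left (norm_add_le _ _) (by positivity)).trans ?_
    rw [mul_add]; linarith
  have c1 := cont_of H.d1
  obtain ⟨u, hu, e⟩ := intermediate_value_Icc (f := fun u => N * (t + T * s1 u))
    (show 2 * γ ≤ 1 - 2 * γ by linarith) (by fun_prop) ⟨h, h'⟩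
  exact absurd e (hk u hu)

lemma conn_bd {γ δ L ω N τ D c u : ℝ} (hγ : 0 < γ) (hδ : 0 < δ) (hω : 0 < ω) (hω1 : ω ≤ 1)
    (hN : 1 ≤ N) (hL : 0 ≤ L) (r3 : 2 + 12 / γ ≤ ω * δ * N) (m1 : ω * N * (2 * δ) ≤ D + ω * τ)
    (m2 : D + ω * τ ≤ ω * N * (1 - 2 * δ)) (hτ1 : ω * τ ≤ ω * ((1 - δ) * N))
    (hτ2 : ω * ((1 - δ) * N - 1) ≤ ω * τ) (hc : 0 ≤ c) (hc' : c * γ ^ 3 ≤ 6)
    (hu : u ∈ Set.Icc 0 γ) : (ω * (δ * N) ≤ ω * τ + q1 γ D c u ∧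
      ω * τ + q1 γ D c u ≤ ω * ((1 - δ / 2) * N)) ∧ q2 γ D c u ≤ -(ω * N * (δ / (2 * γ))) ∧
      |q2 γ D c u| ≤ (1 / γ + 6 / γ ^ 2 + L) * N := by
  have h12 : 12 / γ = 2 * (6 / γ) := by ring
  have h6 : 0 < 6 / γ := by positivity
  have hQ : 0 < ω * N * δ := by positivity
  have hP : ω * N ≤ N := mul_le_of_le_one_left (by linarith) hω1
  have hD1 : D + 6 / γ ≤ -(ω * N * δ / 2) := by linarith
  have hD2 : -N ≤ D := by linarith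
  obtain ⟨b1, b2, b3, b4⟩ := q_bd hγ (show D ≤ 0 by linarith) hc hc' hu
  have b5 : q2 γ D c u ≤ -(ω * N * (δ / (2 * γ))) := by
    refine b3.trans ?_
    rw [show D / γ + 6 / γ ^ 2 = (D + 6 / γ) / γ by field_simp,
      show -(ω * N * (δ / (2 * γ))) = -(ω * N * δ / 2) / γ by field_simp]
    gcongr
  refine ⟨⟨by linarith, by linarith⟩, b5, ?_⟩
  have : 0 < ω * N * (δ / (2 * γ)) := by positivity
  have h7 : -N / γ ≤ D / γ := by gcongr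
  have h8 : 6 / γ ^ 2 ≤ 6 / γ ^ 2 * N := le_mul_of_one_le_right (by positivity) hN
  have h9 : 0 ≤ L * N := by positivity
  rw [abs_of_nonpos (by linarith), add_mul, add_mul, show 1 / γ * N = -(-N / γ) by ring]
  linarith

lemma piece {Γ : ℂ} (hΓ : ∀ W : ℝ, 0 < W → ‖(∫ x in -W..W, ee (x ^ 2 / 2)) - Γ‖ ≤ 1 / W)
    {δ γ L A e ω t T : ℝ} {s0 s1 s2 s3 : ℝ → ℝ} (H : C3 s0 s1 s2 s3) (hγ : 0 < γ)
    (hγ1 : γ ≤ 1 / 4) (hδ : 0 < δ) (hδ1 : δ ≤ 1 / 4) (hA : 0 < A) (he : 0 < e) (hω : 0 < ω)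
    (hω1 : ω ≤ 1) (hT : 0 < T) (hT1 : T ≤ 1) (hs : ∀ u, 1 ≤ s2 u)
    (hsA : ∀ u, u ≤ 3 * γ ∨ 1 - 3 * γ ≤ u → A ≤ s2 u)
    (hsL : ∀ u ∈ Set.Icc (0 : ℝ) 1, s2 u ≤ L ∧ |s3 u| ≤ L) (ht : 2 * δ ≤ t + T * s1 0)
    (ht' : t + T * s1 1 ≤ 1 - 2 * δ) (e1 : 4 / √(δ / (2 * γ)) ≤ e) (e2 : 4 / √(T * A) ≤ e)
    {ρ N τ : ℝ} (hN : N = ρ ^ 10) (hρ : 1 ≤ ρ) (r1 : 1 ≤ γ * ρ) (r2 : 3 / T + 13 * L ≤ e * ρ)
    (r3 : 2 + 12 / γ ≤ ω * δ * ρ) (r4 : 1 ≤ T * γ * e * ρ) (hτ : (1 - δ) * N - 1 ≤ τ)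
    (hτ' : τ ≤ (1 - δ) * N) (β : ℝ) :
    ∃ φ b : ℝ → ℝ, Piece δ (1 / γ + 6 / γ ^ 2 + L) ω N τ φ b ∧ ∀ k : ℝ,
      (∀ u ∈ Set.Icc (2 * γ) (1 - 2 * γ), N * (t + T * s1 u) = k →
        ‖(√N * ω : ℝ) * (∫ x in (0 : ℝ)..1, ee (ω * (τ - k) * x + φ x))
          - Γ * √(ω / (T * s2 u)) * ee (β + ω * (N * (t * u + T * s0 u) - k * u))‖ ≤ 4 * e) ∧
      ((∀ u ∈ Set.Icc (2 * γ) (1 - 2 * γ), N * (t + T * s1 u) ≠ k) →
        ‖(√N * ω : ℝ) * (∫ x in (0 : ℝ)..1, ee (ω * (τ - k) * x + φ x))‖ ≤ 4 * e) := by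
  have hρN : ρ ≤ N := hN ▸ le_self_pow₀ hρ (by norm_num)
  have hN4 : 4 ≤ N := by nlinarith
  have hN0 : 0 < N := by linarith
  have hl : 0 < ω * N * T := by positivity
  have hγ3 : 0 < γ ^ 3 := by positivity
  have hωN : 0 < ω * N := by positivity
  have r3' : 2 + 12 / γ ≤ ω * δ * N := r3.trans (by gcongr)
  have hL : 0 ≤ L := (abs_nonneg _).trans (hsL 0 ⟨le_rfl, zero_le_one⟩).2
  have hM : ∀ u ∈ Set.Icc (0 : ℝ) 1, ω * N * (2 * δ) ≤ ω * N * t + ω * N * T * s1 u ∧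
      ω * N * t + ω * N * T * s1 u ≤ ω * N * (1 - 2 * δ) := fun u hu => by
    have h1 := mono_of H.d1 hu.1 fun z _ => hs z
    have h2 := mono_of H.d1 hu.2 fun z _ => hs z
    have h3 := mul_le_mul_of_nonneg_left (show s1 0 ≤ s1 u by linarith [hu.1]) hT.le
    have h4 := mul_le_mul_of_nonneg_left (show s1 u ≤ s1 1 by linarith [hu.2]) hT.le
    rw [mul_assoc (ω * N), ← mul_add]
    constructor <;> refine mul_le_mul_of_nonneg_left ?_ hωN.le <;> linarith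
  have hτ1 : ω * τ ≤ ω * ((1 - δ) * N) := by gcongr
  have hτ2 : ω * ((1 - δ) * N - 1) ≤ ω * τ := by gcongr
  have hq : ∀ v ∈ Set.Icc (0 : ℝ) 1, ∀ D, D = ω * N * t - ω * τ + ω * N * T * s1 v → ∀ c, 0 ≤ c →
      c * γ ^ 3 ≤ 6 → ∀ u ∈ Set.Icc 0 γ, (ω * (δ * N) ≤ ω * τ + q1 γ D c u ∧
      ω * τ + q1 γ D c u ≤ ω * ((1 - δ / 2) * N)) ∧ q2 γ D c u ≤ -(ω * N * (δ / (2 * γ))) ∧
      |q2 γ D c u| ≤ (1 / γ + 6 / γ ^ 2 + L) * N := fun v hv D hD c hc hc' u hu =>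
    conn_bd hγ hδ hω hω1 (by linarith) hL r3' (by linarith [(hM v hv).1])
      (by linarith [(hM v hv).2]) hτ1 hτ2 hc hc' hu
  set D1 := ω * N * t - ω * τ + ω * N * T * s1 γ with hD1
  set D2 := ω * N * t - ω * τ + ω * N * T * s1 (1 - γ) with hD2
  set X := (ω * N * t - ω * τ) * γ + (β + ω * N * T * s0 γ) - D1 * γ / 2 with hX
  set p := β - ⌊X⌋ with hp
  set Y := (ω * N * t - ω * τ) * (1 - γ) + (p + ω * N * T * s0 (1 - γ)) + D2 * γ / 2 with hY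
  set c1 := 6 * (X - ⌊X⌋) / γ ^ 3 with hc1
  set c2 := 6 * (⌈Y⌉ - Y) / γ ^ 3 with hc2
  have k1 := hq γ ⟨hγ.le, by linarith⟩ D1 rfl c1
    (div_nonneg (by linarith [Int.floor_le X]) hγ3.le)
    (by rw [hc1, div_mul_cancel₀ _ hγ3.ne']; linarith [Int.lt_floor_add_one X])
  have k2 := hq (1 - γ) ⟨by linarith, by linarith⟩ D2 rfl c2
    (div_nonneg (by linarith [Int.le_ceil Y]) hγ3.le)
    (by rw [hc2, div_mul_cancel₀ _ hγ3.ne']; linarith [Int.ceil_lt_add_one Y])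
  have Q1 := q_C3 γ D1 c1
  have Q2 := (q_C3 γ D2 c2).refl
  have G := H.lin p (ω * N * t - ω * τ) (ω * N * T)
  have hLN : 0 ≤ (1 / γ + 6 / γ ^ 2 + L) * N := by positivity
  obtain ⟨φ, b, g0, g1, g2, g3, g4, g5⟩ := glue5 (m := ⌈Y⌉) hγ hγ1 hLN
    (tay_of Q1.d0 Q1.d1 fun x hx => (k1 x hx).2.2)
    (tay_of G.d0 G.d1 fun x hx => by
      have h1 := (hsL x ⟨by linarith [hx.1], by linarith [hx.2]⟩).1
      have h2 : ω * T ≤ 1 := mul_le_one₀ hω1 hT.le hT1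
      have h3 : 0 ≤ (1 / γ + 6 / γ ^ 2) * N := by positivity
      rw [abs_of_pos (mul_pos hl (by linarith [hs x])), add_mul]
      have h4 : ω * N * T * s2 x ≤ ω * N * T * L := by gcongr
      nlinarith [mul_nonneg hL hN0.le])
    (tay_of (fun x => (Q2.d0 x).const_add (⌈Y⌉ : ℝ)) Q2.d1 fun x hx => by
      rw [abs_neg]; exact (k2 _ ⟨by linarith [hx.2], by linarith [hx.1]⟩).2.2)
    (by simp [q0]) (by simp [q1])
    (by simp only [q0, hc1, hp]; field_simp; rw [hX]; ring)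
    (by simp only [q1]; field_simp; rw [hD1]; ring)
    (by simp only [q0, hc2, sub_sub_cancel]; field_simp; rw [hY]; ring)
    (by simp only [q1, sub_sub_cancel]; field_simp; rw [hD2]; ring)
    (by simp [q0]) (by simp [q1])
  refine ⟨φ, b, ⟨g0, g1, ⟨_, g5⟩, fun u => ?_⟩, fun k => ?_⟩
  · have z : ω * (δ * N) ≤ ω * τ + 0 ∧ ω * τ + 0 ≤ ω * ((1 - δ / 2) * N) := by
      simpa [q1] using (k1 0 ⟨le_rfl, hγ.le⟩).1
    rcases le_total u 0 with h0 | h0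
    · rwa [(g1 u h0).2]
    rcases le_total u γ with h1 | h1
    · rw [(g2 u ⟨h0, h1⟩).2]; exact (k1 u ⟨h0, h1⟩).1
    rcases le_total u (1 - γ) with h2 | h2
    · rw [(g3 u ⟨h1, h2⟩).2]
      obtain ⟨m1, m2⟩ := hM u ⟨h0, by linarith⟩
      constructor <;> linarith [mul_pos hωN hδ]
    rcases le_total u 1 with h3 | h3
    · rw [(g4 u ⟨h2, h3⟩).2]; exact (k2 _ ⟨by linarith, by linarith⟩).1
    · rwa [(g5 u h3).2]
  have c0 := g0.continuous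
  have hX0 : 0 < δ / (2 * γ) := by positivity
  have hn : ∀ z : ℂ, ‖(√N * ω : ℝ) * z‖ = √N * ω * ‖z‖ := fun z => by
    rw [norm_mul, Complex.norm_real, Real.norm_of_nonneg (by positivity)]
  have t1 : ‖(√N * ω : ℝ) * ∫ x in (0 : ℝ)..γ, ee (ω * (τ - k) * x + φ x)‖ ≤ e := by
    rw [hn, integral_congr (g := fun x => ee (ω * (τ - k) * x + (0 + 1 * q0 γ D1 c1 x)))
      fun x hx => by rw [Set.uIcc_of_le hγ.le] at hx; simp [(g2 x hx).1]]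
    exact sq_scale' hN0 hω hω1 hX0 e1 (test2' (Q1.lin 0 _ 1) hγ.le (by positivity)
      fun x hx => by rw [one_mul]; exact (k1 x hx).2.1)
  have t2 : ‖(√N * ω : ℝ) * ∫ x in 1 - γ..1, ee (ω * (τ - k) * x + φ x)‖ ≤ e := by
    rw [hn, integral_congr (g := fun x => ee (ω * (τ - k) * x + (⌈Y⌉ + 1 * -q0 γ D2 c2 (1 - x))))
      fun x hx => by rw [Set.uIcc_of_le (by linarith)] at hx; simp [(g4 x hx).1]]
    exact sq_scale' hN0 hω hω1 hX0 e1 (test2 (Q2.lin _ _ 1) (by linarith) (by positivity)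
      fun x hx => by linarith [(k2 (1 - x) ⟨by linarith [hx.2], by linarith [hx.1]⟩).2.1])
  obtain ⟨m1, m2⟩ := main_est (t := t) hΓ H hγ hγ1 hA he hω hω1 hT hT1 hs hsA hsL e2 hN hρ r1 r2
    r4 p k
  rw [int_split (by fun_prop) 0 γ (1 - γ) 1, integral_congr (a := γ) (b := 1 - γ)
    (g := fun x => ee ((ω * N * t - ω * k) * x + (p + ω * N * T * s0 x))) fun x hx => by
      rw [Set.uIcc_of_le (by linarith)] at hx
      simp only [(g3 x hx).1]; congr 1; ring, mul_add, mul_add]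
  refine ⟨fun u hu hk => ?_, fun hk => ?_⟩
  · rw [ee_congr (y := p + ω * (N * (t * u + T * s0 u) - k * u)) ⌊X⌋ (by rw [hp]; ring),
      show ∀ x y z g : ℂ, x + y + z - g = x + z + (y - g) from fun x y z g => by ring]
    exact norm_add₃_le.trans (by linarith [m1 u hu hk])
  · exact norm_add₃_le.trans (by linarith [m2 hk])

end H2UF
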