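import Crest.Agent.H2.UF6

set_option autoImplicit false
set_option maxHeartbeats 400000

namespace H2UF

open Real Finset MeasureTheory intervalIntegral

lemma tail_bd {f : ℝ → ℂ} {w R C : ℝ} (hw : 0 < w) (hR : w ≤ R) (hC : 0 ≤ C)
    (hf : ∀ y ∈ Set.Icc w R, ‖f y‖ * y ^ 2 ≤ C) : ‖∫ y in w..R, f y‖ ≤ C / w := by
  have hpos : ∀ x ∈ Set.uIcc w R, 0 < x := fun x hx => by
    rw [Set.uIcc_of_le hR] at hx; linarith [hx.1]
  have hq : ContinuousOn (fun x : ℝ => C * (x ^ 2)⁻¹) (Set.uIcc w R) :=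
    continuousOn_const.mul
      (ContinuousOn.inv₀ (by fun_prop) fun x hx => pow_ne_zero _ (hpos x hx).ne')
  have e1 := integral_eq_sub_of_hasDerivAt (f := fun x : ℝ => C * -x⁻¹) (fun x hx =>
    ((hasDerivAt_inv (hpos x hx).ne').neg.const_mul C).congr_deriv (by ring)) hq.intervalIntegrable
  refine (norm_integral_le_of_norm_le hR (Filter.Eventually.of_forall fun x hx => ?_)
    hq.intervalIntegrable).trans ?_
  · have : 0 < x := hw.trans hx.1
    rw [← div_eq_mul_inv, le_div_iff₀ (by positivity)]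
    exact hf x (Set.Ioc_subset_Icc_self hx)
  · have : 0 ≤ C * R⁻¹ := mul_nonneg hC (inv_pos.2 (by linarith)).le
    rw [e1, div_eq_mul_inv]; linarith

lemma integral_ee' (k : ℤ) : ∫ x in (-(1 / 2) : ℝ)..1 / 2, ee (k * x) = if k = 0 then 1 else 0 := by
  have h : Function.Periodic (fun x : ℝ => ee (k * x)) 1 := fun x => ee_congr k (by ring)
  have := h.intervalIntegral_add_eq (-(1 / 2)) 0
  rw [← integral_ee k]
  convert this using 2 <;> norm_num

lemma kern_eq {h N : ℕ} (hh : 0 < h) (hN : h ≤ N) (y : ℝ) :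
    ∑ k ∈ range N, (((∑ a ∈ range h, if k ∈ Ico a (a + (N - h + 1)) then 1 else 0) / h : ℝ) : ℂ)
      * ee (k * y) = DD h y * DD (N - h + 1) y / h := by
  rw [DD, DD, sum_mul_sum, sum_congr (s₁ := range h) rfl (g := fun a => ∑ k ∈ range N,
    if k ∈ Ico a (a + (N - h + 1)) then ee (k * y) else 0), sum_comm, sum_div]
  · refine sum_congr rfl fun k _ => ?_
    push_cast
    rw [div_mul_eq_mul_div, sum_mul]
    congr 1
    exact sum_congr rfl fun a _ => by split_ifs <;> simp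
  · intro a ha
    rw [sum_ite_mem, inter_eq_right.2 (fun k hk => by
      have := mem_range.1 ha; have := mem_Ico.1 hk; exact mem_range.2 (by omega)),
      sum_Ico_eq_sum_range, Nat.add_sub_cancel_left]
    exact sum_congr rfl fun b _ => by rw [← ee_add]; congr 1; push_cast; ring

lemma kernel {δ L e : ℝ} (hδ : 0 < δ) (hδ1 : δ ≤ 1) (hL : 0 ≤ L) (he : 0 < e) :
    ∀ᶠ N : ℕ in Filter.atTop, ∃ v : ℕ → ℝ, (∀ k, 0 ≤ v k ∧ v k ≤ 1) ∧ ∀ (τ : ℤ) (Φ B : ℝ → ℝ),
      Tay Φ B (L * N) Set.univ → (∀ x, x ≤ 0 ∨ 1 ≤ x → (∃ m : ℤ, Φ x = m) ∧ B x = 0) →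
      (∀ x, δ * N ≤ τ + B x ∧ τ + B x ≤ (1 - δ / 2) * N) → ∀ θ : ℝ,
      |‖∑ k ∈ range N, v k * (∫ x in (0 : ℝ)..1, ee ((τ - k) * x + Φ x)) * ee (k * θ)‖ - 1|
        ≤ e := by
  obtain ⟨K, hK, hK0⟩ : ∃ K, δ * e * K = 8 ∧ 0 < K :=
    ⟨8 / (δ * e), by field_simp, by positivity⟩
  have ev := fun c : ℝ => tendsto_natCast_atTop_atTop.eventually_ge_atTop c
  filter_upwards [ev (4 / δ), ev (2 * K), ev (8 * π * K * (3 * L * K ^ 2 + K) / e)]
    with N n1 n2 n3
  rw [div_le_iff₀ (by positivity)] at n1 n3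
  have hN : (0 : ℝ) < N := by linarith
  set h := ⌊δ * N / 2⌋₊ with hh
  have h1 : (h : ℝ) ≤ δ * N / 2 := Nat.floor_le (by positivity)
  have h2 : δ * N / 4 ≤ h := by linarith [Nat.lt_floor_add_one (δ * N / 2)]
  have h0 : (0 : ℝ) < h := by linarith
  have h0' : 0 < h := by exact_mod_cast h0
  have hN' : h ≤ N := by exact_mod_cast (show (h : ℝ) ≤ N by nlinarith)
  set v : ℕ → ℝ := fun k => (∑ a ∈ range h, if k ∈ Ico a (a + (N - h + 1)) then 1 else 0) / h
    with hv
  refine ⟨v, fun k => ⟨div_nonneg (sum_nonneg fun _ _ => by positivity) h0.le, ?_⟩,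
    fun τ Φ B tay out rng θ0 => ?_⟩
  · rw [div_le_one h0]
    exact (sum_le_card_nsmul _ _ 1 fun _ _ => by split_ifs <;> norm_num).trans (by simp)
  obtain ⟨θ, t0, t1, hθ⟩ : ∃ θ, 0 ≤ θ ∧ θ ≤ 1 ∧ ∀ k : ℕ, ee (k * θ0) = ee (k * θ) :=
    ⟨Int.fract θ0, Int.fract_nonneg _, (Int.fract_lt_one _).le, fun k =>
      ee_congr (k * ⌊θ0⌋) (by rw [Int.fract]; push_cast; ring)⟩
  simp only [hθ]
  have cΦ := tay.continuous
  set V : ℝ → ℂ := fun y => ∑ k ∈ range N, v k * ee (k * y) with hV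
  have cV : Continuous V := by fun_prop
  have hV1 : ∀ y, V y = DD h y * DD (N - h + 1) y / h := kern_eq h0' hN'
  set U : ℝ → ℂ := fun x => ee (τ * x + (Φ (x + 1) + Φ x + Φ (x - 1))) with hU
  have cU : Continuous U := by fun_prop
  have e1 : ∑ k ∈ range N, v k * (∫ x in (0 : ℝ)..1, ee ((τ - k) * x + Φ x)) * ee (k * θ)
      = ∫ x in (0 : ℝ)..1, U x * V (θ - x) := by
    simp only [hV, mul_sum]
    rw [integral_finsetSum fun _ _ => Continuous.intervalIntegrable (by fun_prop) _ _]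
    refine sum_congr rfl fun k _ => ?_
    rw [← intervalIntegral.integral_const_mul, ← intervalIntegral.integral_mul_const]
    refine integral_congr fun x hx => ?_
    rw [Set.uIcc_of_le zero_le_one] at hx
    obtain ⟨m1, hm1⟩ := (out (x + 1) (Or.inr (by linarith [hx.1]))).1
    obtain ⟨m2, hm2⟩ := (out (x - 1) (Or.inl (by linarith [hx.2]))).1
    simp only [hU, mul_left_comm _ (v k : ℂ), mul_assoc, ← ee_add, hm1, hm2]
    congr 1
    exact ee_congr (-(m1 + m2)) (by push_cast; ring)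
  have hi : ∀ a b, IntervalIntegrable (fun x => U x * V (θ - x)) volume a b := fun a b =>
    Continuous.intervalIntegrable (by fun_prop) _ _
  have e2 : ∫ x in (0 : ℝ)..1, U x * V (θ - x) = ∫ y in (-(1 / 2) : ℝ)..1 / 2, U (θ - y) * V y := by
    have a1 := integral_comp_sub_left (a := -(1 / 2)) (b := 1 / 2) (fun x => U x * V (θ - x)) θ
    have a2 := integral_comp_add_right (a := 0) (b := θ - 1 / 2) (fun x => U x * V (θ - x)) 1
    rw [integral_congr (g := fun x => U x * V (θ - x)), integral_symm] at a2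
    · simp only [sub_sub_cancel, zero_add] at a1 a2
      rw [a1, ← integral_add_adjacent_intervals (hi (θ - 1 / 2) 0) (hi _ _),
        ← integral_add_adjacent_intervals (hi 0 1) (hi 1 (θ - -(1 / 2))),
        show θ - -(1 / 2) = θ - 1 / 2 + 1 by ring, ← a2]
      ring
    intro x hx
    have hx' := Set.abs_sub_left_of_mem_uIcc hx
    have : |θ - 1 / 2 - 0| ≤ 1 := abs_le.2 ⟨by linarith, by linarith⟩
    obtain ⟨x1, x2⟩ := abs_le.1 (hx'.trans this)
    obtain ⟨m1, hm1⟩ := (out (x + 1 + 1) (Or.inr (by linarith))).1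
    obtain ⟨m2, hm2⟩ := (out (x - 1) (Or.inl (by linarith))).1
    simp only [hU, hV1, hm1, hm2, add_sub_cancel_right]
    rw [show θ - (x + 1) = θ - x + (-1 : ℤ) by push_cast; ring, DD_add_int, DD_add_int,
      ee_congr (τ + m1 - m2) (y := τ * x + (Φ (x + 1) + Φ x + m2)) (by push_cast; ring)]
  obtain ⟨k0, k1, k2⟩ : ∃ k0 : ℕ, (k0 : ℝ) ≤ τ + B θ ∧ τ + B θ < k0 + 1 :=
    ⟨_, Nat.floor_le (le_trans (by positivity) (rng θ).1), Nat.lt_floor_add_one _⟩
  have k3 : h ≤ k0 := by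
    exact_mod_cast Nat.lt_succ_iff.1 (by
      exact_mod_cast (show (h : ℝ) < k0 + 1 by linarith [(rng θ).1]))
  have k4 : k0 + h ≤ N := by exact_mod_cast (show (k0 : ℝ) + h ≤ N by linarith [(rng θ).2])
  have e3 : ∫ y in (-(1 / 2) : ℝ)..1 / 2, U θ * ee (-(k0 * y)) * V y = U θ := by
    have : ∀ y, U θ * ee (-(k0 * y)) * V y
        = ∑ k ∈ range N, U θ * v k * ee (((k - k0 : ℤ) : ℝ) * y) := fun y => by
      simp only [hV, mul_sum]
      refine sum_congr rfl fun k _ => ?_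
      rw [show ((k - k0 : ℤ) : ℝ) * y = -(k0 * y) + k * y by push_cast; ring, ee_add]; ring
    simp only [this]
    rw [integral_finsetSum fun _ _ => Continuous.intervalIntegrable (by fun_prop) _ _]
    simp only [intervalIntegral.integral_const_mul, integral_ee']
    rw [sum_eq_single k0 (fun k _ hk => by rw [if_neg (by omega), mul_zero])
      (fun hk => absurd (mem_range.2 (by omega)) hk), if_pos (sub_self _)]
    have : v k0 = 1 := by
      simp only [hv]
      rw [sum_congr rfl (g := fun _ => 1) fun a ha => if_pos (by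
        have := mem_range.1 ha; exact mem_Ico.2 (by omega))]
      simp [h0.ne']
    simp [this]
  set f : ℝ → ℂ := fun y => (U (θ - y) - U θ * ee (-(k0 * y))) * V y with hf
  have cf : Continuous f := by fun_prop
  have e4 : (∫ y in (-(1 / 2) : ℝ)..1 / 2, U (θ - y) * V y) - U θ
      = ∫ y in (-(1 / 2) : ℝ)..1 / 2, f y := by
    simp only [hf, sub_mul]
    rw [integral_sub (Continuous.intervalIntegrable (by fun_prop) _ _)
      (Continuous.intervalIntegrable (by fun_prop) _ _), e3]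
  have hw : 0 < K / N := by positivity
  have hw1 : K / N ≤ 1 / 2 := by rw [div_le_iff₀ hN]; linarith
  have f1 : ∀ y, |y| ≤ 1 / 2 → ‖f y‖ * y ^ 2 ≤ 1 / (2 * h) := fun y hy => by
    have a1 : ‖U (θ - y) - U θ * ee (-(k0 * y))‖ ≤ 2 :=
      (norm_sub_le _ _).trans (by simp [hU]; norm_num)
    have a2 := mul_le_mul (norm_DD_le' h hy) (norm_DD_le' (N - h + 1) hy) (by positivity)
      (by norm_num)
    have a3 : ‖V y‖ * y ^ 2 ≤ 1 / (4 * h) := by
      rw [hV1, norm_div, norm_mul, Complex.norm_natCast, ← sq_abs, div_mul_eq_mul_div,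
        div_le_div_iff₀ h0 (by positivity)]
      nlinarith
    rw [hf, norm_mul, mul_assoc]
    exact (mul_le_mul a1 a3 (by positivity) (by norm_num)).trans (le_of_eq (by field_simp; ring))
  have f2 : ∀ y, |y| ≤ K / N → ‖f y‖ ≤ 2 * π * (3 * L * K ^ 2 + K) := fun y hy => by
    have a1 := tay (θ - y + 1) trivial (θ + 1) trivial
    have a2 := tay (θ - y) trivial θ trivial
    have a3 := tay (θ - y - 1) trivial (θ - 1) trivial
    rw [(out _ (Or.inr (by linarith))).2, show θ - y + 1 - (θ + 1) = -y by ring, neg_sq] at a1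
    rw [(out _ (Or.inl (by linarith))).2, show θ - y - 1 - (θ - 1) = -y by ring, neg_sq] at a3
    rw [show θ - y - θ = -y by ring, neg_sq] at a2
    have a4 : |(k0 - (τ + B θ)) * y| ≤ K / N := by
      rw [abs_mul]
      exact (mul_le_of_le_one_left (abs_nonneg _) (abs_le.2 ⟨by linarith, by linarith⟩)).trans hy
    have a5 : L * N * y ^ 2 ≤ L * K ^ 2 / N := by
      calc _ ≤ L * N * (K / N) ^ 2 := by rw [← sq_abs]; gcongr
        _ = _ := by field_simp
    have a6 : ‖V y‖ ≤ N := by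
      rw [hV1, norm_div, norm_mul, Complex.norm_natCast, div_le_iff₀ h0, mul_comm]
      exact mul_le_mul ((norm_DD_le _ _).trans (by exact_mod_cast (by omega))) (norm_DD_le _ _)
        (norm_nonneg _) hN.le
    have a7 : ‖U (θ - y) - U θ * ee (-(k0 * y))‖ ≤ 2 * π * ((3 * L * K ^ 2 + K) / N) := by
      simp only [hU, ← ee_add]
      refine (norm_ee_sub _ _).trans (mul_le_mul_of_nonneg_left ?_ (by positivity))
      rw [show (3 * L * K ^ 2 + K) / N = 3 * (L * K ^ 2 / N) + K / N by ring]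
      rw [abs_le] at a1 a2 a3 a4 ⊢
      constructor <;> linarith [a1.1, a1.2, a2.1, a2.2, a3.1, a3.2, a4.1, a4.2]
    rw [hf, norm_mul]
    exact (mul_le_mul a7 a6 (norm_nonneg _) (by positivity)).trans (le_of_eq (by field_simp))
  have g1 := tail_bd hw hw1 (by positivity) fun y hy =>
    f1 y (abs_le.2 ⟨by linarith [hy.1], hy.2⟩)
  have g2 := tail_bd (f := fun y => f (-y)) (C := 1 / (2 * h)) hw hw1 (by positivity) fun y hy =>
    neg_sq y ▸ f1 (-y) (abs_le.2 ⟨by linarith [hy.2], by linarith [hy.1]⟩)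
  rw [integral_comp_neg] at g2
  have g3 := norm_integral_le_of_norm_le_const (a := -(K / N)) (b := K / N) fun y hy => f2 y (by
    rw [Set.uIoc_of_le (by linarith)] at hy; exact abs_le.2 ⟨hy.1.le, hy.2⟩)
  rw [sub_neg_eq_add, abs_of_pos (by positivity)] at g3
  have g4 : 1 / (2 * h) / (K / N) ≤ e / 4 := by
    rw [div_div, div_le_div_iff₀ (by positivity) (by norm_num),
      show e * (2 * h * (K / N)) = 2 * (e * K * h) / N by ring, le_div_iff₀ hN]
    have : e * K * (δ * N / 4) ≤ e * K * h := by gcongr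
    nlinarith
  have g5 : 2 * π * (3 * L * K ^ 2 + K) * (K / N + K / N) ≤ e / 2 := by
    rw [← add_div, mul_div_assoc', div_le_iff₀ hN]; linarith
  rw [e1, e2]
  have g6 := abs_norm_sub_norm_le (∫ y in (-(1 / 2) : ℝ)..1 / 2, U (θ - y) * V y) (U θ)
  rw [show ‖U θ‖ = 1 from norm_ee _] at g6
  refine g6.trans ?_
  rw [e4, ← integral_add_adjacent_intervals (cf.intervalIntegrable _ (-(K / N)))
    (cf.intervalIntegrable _ _), ← integral_add_adjacent_intervals
    (cf.intervalIntegrable (-(K / N)) (K / N)) (cf.intervalIntegrable (K / N) _), ← add_assoc]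
  exact norm_add₃_le.trans (by linarith)

end H2UF
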