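import Crest.Agent.H9.ZD1

/-! The face adjacency graph of a planar map has no `K₅` minor (task `T4k`). -/

namespace Crest.Agent.H2.ZK

open Equiv Equiv.Perm Crest.Agent.H9.ZD

variable {D : Type}

open Classical in
/-- counting cycles by their lengths `1`, `2`, `≥ 3` -/
theorem cyc_le_w [Fintype D] (f : Perm D) :
    (cyc f : ℝ) ≤ ∑ x, (if f x = x then (1 : ℝ) else if f (f x) = x then 1 / 2 else 1 / 3) := by
  refine cyc_le_sum f _ fun x => ?_
  have hnn : ∀ y, (1 / 3 : ℝ) ≤ if f y = y then (1 : ℝ) else if f (f y) = y then 1 / 2 else 1 / 3 := by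
    intro y; split_ifs <;> norm_num
  have s0 : f.SameCycle x x := SameCycle.refl f x
  have s1 : f.SameCycle x (f x) := S_apply f x
  have s2 : f.SameCycle x (f (f x)) := s1.trans (S_apply f _)
  by_cases h1 : f x = x
  · refine le_trans ?_ (Finset.sum_le_sum_of_subset_of_nonneg (s := {x}) ?_
      fun y _ _ => le_trans (by norm_num) (hnn y))
    · simp [h1]
    · intro y hy; rw [Finset.mem_singleton.1 hy]; simpa using s0
  by_cases h2 : f (f x) = x
  · refine le_trans ?_ (Finset.sum_le_sum_of_subset_of_nonneg (s := {x, f x}) ?_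
      fun y _ _ => le_trans (by norm_num) (hnn y))
    · rw [Finset.sum_pair (Ne.symm h1), if_neg h1, if_pos h2, if_neg (by rw [h2]; exact Ne.symm h1),
        if_pos (by rw [h2])]
      norm_num
    · intro y hy
      rcases Finset.mem_insert.1 hy with rfl | hy
      · simpa using s0
      · rw [Finset.mem_singleton.1 hy]; simpa using s1
  · have h3 : f (f x) ≠ f x := fun e => h1 (f.injective e)
    refine le_trans ?_ (Finset.sum_le_sum_of_subset_of_nonneg (s := {x, f x, f (f x)}) ?_
      fun y _ _ => le_trans (by norm_num) (hnn y))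
    · rw [Finset.sum_insert (by simp [Ne.symm h1, Ne.symm h2]), Finset.sum_pair (Ne.symm h3)]
      linarith [hnn x, hnn (f x), hnn (f (f x))]
    · intro y hy
      simp only [Finset.mem_insert, Finset.mem_singleton] at hy
      rcases hy with rfl | rfl | rfl
      · simpa using s0
      · simpa using s1
      · simpa using s2

theorem cyc_le_half [Finite D] {f : Perm D} (h : ∀ x, f x ≠ x) : 2 * cyc f ≤ Nat.card D := by
  classical
  have := Fintype.ofFinite D
  have h1 := cyc_le_w f
  have h2 : ∑ x, (if f x = x then (1 : ℝ) else if f (f x) = x then 1 / 2 else 1 / 3) ≤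
      ∑ _x : D, (1 / 2 : ℝ) := Finset.sum_le_sum fun x _ => by
    rw [if_neg (h x)]; split_ifs <;> norm_num
  rw [Finset.sum_const, Finset.card_univ, ← Nat.card_eq_fintype_card, nsmul_eq_mul] at h2
  have : (2 * cyc f : ℝ) ≤ Nat.card D := by
    have := h1.trans (le_of_eq_of_le (by congr) h2)
    linarith
  exact_mod_cast this

theorem cyc_le_third [Finite D] {f : Perm D} (h : ∀ x, f (f x) ≠ x) : 3 * cyc f ≤ Nat.card D := by
  classical
  have := Fintype.ofFinite D
  have h1 := cyc_le_w f
  have h2 : ∑ x, (if f x = x then (1 : ℝ) else if f (f x) = x then 1 / 2 else 1 / 3) ≤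
      ∑ _x : D, (1 / 3 : ℝ) := Finset.sum_le_sum fun x _ => by
    rw [if_neg (fun e => h x (by rw [e, e])), if_neg (h x)]
  rw [Finset.sum_const, Finset.card_univ, ← Nat.card_eq_fintype_card, nsmul_eq_mul] at h2
  have : (3 * cyc f : ℝ) ≤ Nat.card D := by
    have := h1.trans (le_of_eq_of_le (by congr) h2)
    linarith
  exact_mod_cast this

/-- the first return map to `P`, extended by the identity -/
theorem exists_ind [Finite D] (P : D → Prop) (a : Perm D) : ∃ a' : Perm D,
    (∀ b, Planar a b → Planar a' b) ∧ (∀ x, ¬ P x → a' x = x) ∧ S a' ≤ S a ∧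
    (∀ y z, P y → P z → a.SameCycle y z → a'.SameCycle y z) ∧
    ∀ x, P x → P (a x) → a' x = a x := by
  classical
  have := Fintype.ofFinite D
  induction hn : (Finset.univ.filter fun x => ¬ P x ∧ a x ≠ x).card using Nat.strong_induction_on
    generalizing a with
  | _ n ih =>
  by_cases hex : ∃ x, ¬ P x ∧ a x ≠ x
  · obtain ⟨x, hx, hax⟩ := hex
    have hfix : (swap x (a x) * a) x = x := by simp
    have hlt : (Finset.univ.filter fun y => ¬ P y ∧ (swap x (a x) * a) y ≠ y).card < n := by
      rw [← hn]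
      refine Finset.card_lt_card ⟨fun y hy => ?_, fun hs => ?_⟩
      · simp only [Finset.mem_filter, Finset.mem_univ, true_and] at hy ⊢
        refine ⟨hy.1, fun e => hy.2 ?_⟩
        rw [Perm.mul_apply, e]
        refine swap_apply_of_ne_of_ne (fun k => hax (by rw [← k, e])) fun k => hax ?_
        have : y = x := a.injective (e.trans k)
        rw [← this, e]
      · have := hs (Finset.mem_filter.2 ⟨Finset.mem_univ x, hx, hax⟩)
        exact (Finset.mem_filter.1 this).2.2 hfix
    obtain ⟨a', h1, h2, h3, h4, h5⟩ := ih _ hlt (swap x (a x) * a) rfl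
    have hs : a.SameCycle x (a x) := S_apply a x
    refine ⟨a', fun b hb => h1 b (hb.split hs), h2,
      h3.trans ((S_swap_le a x (a x)).trans (link_le hs)), fun y z hy hz hyz => h4 y z hy hz ?_,
      fun y hy hay => ?_⟩
    · have hne : ∀ w, P w → ¬ S (swap x (a x) * a) w x := by
        intro w hw k
        have : w = x := (SameCycle.eq_of_right (f := swap x (a x) * a) k hfix)
        exact hx (this ▸ hw)
      rcases S_le_swap a x (a x) hyz with k | ⟨k, -⟩ | ⟨-, k⟩
      · exact k
      · exact absurd k (hne y hy)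
      · exact absurd k (hne z hz)
    · have e : (swap x (a x) * a) y = a y := by
        rw [Perm.mul_apply]
        exact swap_apply_of_ne_of_ne (fun k => hx (k ▸ hay)) fun k => hx (a.injective k ▸ hy)
      rw [h5 y hy (e ▸ hay), e]
  · push Not at hex
    exact ⟨a, fun _ h => h, hex, le_rfl, fun _ _ _ _ h => h, fun _ _ _ => rfl⟩

/-- five faces cannot be pairwise adjacent -/
theorem five_faces [Finite D] {φ α : Perm D} (hα : ∀ d, α (α d) = d) (hp : Planar φ α)
    (c : D → Option (Fin 5)) (hc : ∀ d, c (φ d) = c d)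
    (hcon : ∀ x y i, c x = some i → c y = some i → φ.SameCycle x y)
    (hadj : ∀ i j, i ≠ j → ∃ d, c d = some i ∧ c (α d) = some j) : False := by
  classical
  choose e he1 he2 using hadj
  let T := {p : Fin 5 × Fin 5 // p.1 ≠ p.2}
  let f : T → D := fun p => if p.1.1 < p.1.2 then e p.1.1 p.1.2 p.2 else α (e p.1.2 p.1.1 p.2.symm)
  let sw : T → T := fun p => ⟨(p.1.2, p.1.1), p.2.symm⟩
  have f1 : ∀ p, c (f p) = some p.1.1 := by
    intro p; simp only [f]; split_ifs
    · exact he1 _ _ _
    · exact he2 _ _ _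
  have f2 : ∀ p, α (f p) = f (sw p) := by
    intro p; simp only [f, sw]
    rcases lt_or_gt_of_ne p.2 with h | h
    · rw [if_pos h, if_neg (not_lt.2 h.le)]
    · rw [if_neg (not_lt.2 h.le), if_pos h, hα]
  have finj : Function.Injective f := by
    intro p p' h
    have k1 := f1 p
    have k2 := f1 (sw p)
    rw [h, f1] at k1
    rw [← f2, h, f2, f1] at k2
    exact Subtype.ext (Prod.ext (Option.some.inj k1).symm (Option.some.inj k2).symm)
  let P : D → Prop := fun x => x ∈ Set.range f
  obtain ⟨α', a1, a2, -, -, a5⟩ := exists_ind P α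
  obtain ⟨φ', b1, b2, b3, b4, -⟩ := exists_ind P φ
  have hα' : ∀ p, α' (f p) = f (sw p) := fun p => by
    rw [a5 _ ⟨p, rfl⟩ ⟨sw p, (f2 p).symm⟩, f2]
  have inv : ∀ {u : Perm D}, (∀ x, ¬ P x → u x = x) → ∀ x, P (u x) ↔ P x := by
    intro u hu x
    constructor
    · intro h; by_contra k; exact k (hu x k ▸ h)
    · intro h; by_contra k
      have := u.injective (hu _ k)
      exact k (this.symm ▸ h)
  have hcS : S φ ≤ Setoid.ker c := S_le fun d => (hc d).symm
  have hcφ' : ∀ x, c (φ' x) = c x := fun x => (hcS (b3 (S_apply φ' x))).symm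
  have hpl := (b1 α' (a1 φ hp.symm).symm).restrict P (inv b2) (inv a2) b2 a2
  have hcard : Nat.card {x // P x} = 20 := by
    rw [← Nat.card_congr (Equiv.ofInjective f finj), Nat.card_eq_fintype_card]
    decide
  have hne : Nonempty {x // P x} := ⟨⟨f ⟨(0, 1), by decide⟩, _, rfl⟩⟩
  have k0 := comp_pos (φ'.subtypePerm (inv b2)) (α'.subtypePerm (inv a2))
  have k1 : cyc (φ'.subtypePerm (inv b2)) ≤ 5 := by
    have hi : ∀ i : Fin 5, i ≠ i + 1 := by decide
    have := Nat.card_le_card_of_surjective
      (fun i : Fin 5 => (Quotient.mk _ ⟨f ⟨(i, i + 1), hi i⟩, _, rfl⟩ :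
        Quotient (SameCycle.setoid (φ'.subtypePerm (inv b2))))) (by
      intro q
      induction q using Quotient.inductionOn with | h x => ?_
      obtain ⟨_, p, rfl⟩ := x
      refine ⟨p.1.1, Quotient.sound ?_⟩
      exact sameCycle_subtypePerm.2 (b4 _ _ ⟨_, rfl⟩ ⟨_, rfl⟩ (hcon _ _ _ (f1 _) (f1 _))))
    simpa [cyc] using this
  have k2 := cyc_le_half (f := α'.subtypePerm (inv a2)) (by
    rintro ⟨_, p, rfl⟩ h
    have h := congrArg Subtype.val h
    simp only [subtypePerm_apply] at h
    rw [hα'] at h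
    exact p.2 (congrArg (fun t : T => t.1.2) (finj h)))
  have k3 := cyc_le_third (f := φ'.subtypePerm (inv b2) * α'.subtypePerm (inv a2)) (by
    rintro ⟨_, p, rfl⟩ h
    have h := congrArg Subtype.val h
    simp only [Perm.mul_apply, subtypePerm_apply] at h
    rw [hα'] at h
    obtain ⟨p', hp'⟩ := (inv b2 (f (sw p))).2 ⟨_, rfl⟩
    rw [← hp', hα'] at h
    have m1 : p'.1.1 = p.1.2 := by
      have := f1 p'
      rw [hp', hcφ', f1] at this
      exact (Option.some.inj this).symm
    have m2 : p'.1.2 = p.1.1 := by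
      have := f1 p
      rw [← h, hcφ', f1] at this
      exact Option.some.inj this
    have m3 : p' = sw p := Subtype.ext (Prod.ext m1 m2)
    rw [m3] at hp'
    obtain ⟨m, hm1, hm2⟩ : ∃ m : Fin 5, p.1.2 ≠ m ∧ p.1.1 ≠ m := by
      generalize p.1.1 = i; generalize p.1.2 = j; revert i j; decide
    have := b4 (f (sw p)) (f ⟨(p.1.2, m), hm1⟩) ⟨_, rfl⟩ ⟨_, rfl⟩ (hcon _ _ _ (f1 _) (f1 _))
    have := finj (SameCycle.eq_of_left this hp'.symm)
    exact hm2 (congrArg (fun t : T => t.1.2) this))
  unfold Planar at hpl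
  omega

theorem clusters [Finite D] (c : D → Option (Fin 5)) : ∀ (n : ℕ) (φ α : Perm D), cyc φ = n →
    (∀ d, α (α d) = d) → Planar φ α → (∀ d, c (φ d) = c d) →
    (∀ r : Setoid D, S φ ≤ r → (∀ x, c (α x) = c x → r x (α x)) →
      ∀ x y i, c x = some i → c y = some i → r x y) →
    (∀ i j, i ≠ j → ∃ d, c d = some i ∧ c (α d) = some j) → False := by
  classical
  intro n
  induction n using Nat.strong_induction_on with
  | _ n ih =>
  intro φ α hn hα hp hc hcon hadj
  by_cases hex : ∃ x, c (α x) = c x ∧ ¬ φ.SameCycle x (α x)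
  · obtain ⟨x, hx, hs⟩ := hex
    have hs' : ¬ φ.SameCycle (φ x) (φ (α x)) := by simpa using hs
    have hne : φ x ≠ φ (α x) := fun e => hs' (e ▸ SameCycle.refl φ _)
    have e1 : φ * swap x (α x) = swap (φ x) (φ (α x)) * φ := mul_swap_eq_swap_mul _ _ _
    have hm : (φ * swap x (α x)).SameCycle (φ x) (φ (α x)) := by
      rw [e1]; exact (sameCycle_swap_iff φ hne).2 hs'
    have hle : S φ ≤ S (φ * swap x (α x)) := by
      have := link_le (r := S (φ * swap x (α x))) hm
      refine le_trans ?_ this
      rw [e1]; exact S_le_swap φ _ _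
    have hoth : ∀ y, y ≠ x → y ≠ α x → (swap x (α x) * α) y = α y := fun y h1 h2 => by
      rw [Perm.mul_apply]
      exact swap_apply_of_ne_of_ne (fun e => h2 (by rw [← e, hα])) fun e => h1 (α.injective e)
    have hxx : S (φ * swap x (α x)) x (α x) :=
      (S _).trans (hle (S_apply φ x)) ((S _).trans hm ((S _).symm (hle (S_apply φ _))))
    refine ih (cyc (φ * swap x (α x))) ?_ (φ * swap x (α x)) (swap x (α x) * α) rfl ?_
      (hp.cut (S_apply α x)) ?_ ?_ ?_
    · have := cyc_merge hs'
      rw [e1]; omega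
    · intro d
      by_cases h1 : d = x
      · subst h1; simp
      by_cases h2 : d = α x
      · subst h2; simp [hα]
      rw [hoth d h1 h2, hoth _ (fun e => h2 (by rw [← e, hα])) (fun e => h1 (α.injective e)), hα]
    · intro d
      rw [Perm.mul_apply, hc]
      by_cases h1 : d = x
      · rw [h1, swap_apply_left, hx]
      by_cases h2 : d = α x
      · rw [h2, swap_apply_right, hx]
      rw [swap_apply_of_ne_of_ne h1 h2]
    · intro r h1 h2
      refine hcon r (hle.trans h1) fun y hy => ?_
      by_cases k1 : y = x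
      · rw [k1]; exact h1 hxx
      by_cases k2 : y = α x
      · rw [k2, hα]; exact r.symm (h1 hxx)
      have := h2 y (by rw [hoth y k1 k2, hy])
      rwa [hoth y k1 k2] at this
    · intro i j hij
      obtain ⟨d, h1, h2⟩ := hadj i j hij
      have hne : c (α d) ≠ c d := by rw [h1, h2]; exact fun e => hij (Option.some.inj e).symm
      refine ⟨d, h1, ?_⟩
      rw [hoth d (fun e => hne (by rw [e, hx])) (fun e => hne (by rw [e, hα, hx])), h2]
  · push Not at hex
    exact five_faces hα hp c hc (hcon (S φ) le_rfl hex) hadj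

theorem t4k : T4k := by
  classical
  rintro D _ φ α hα hp ⟨A, hdis, hcon, hadj⟩
  let c : D → Option (Fin 5) := fun d =>
    if h : ∃ i, (Quotient.mk _ d : Quotient (SameCycle.setoid φ)) ∈ A i then some h.choose else none
  have hc : ∀ d i, c d = some i ↔ (Quotient.mk _ d : Quotient (SameCycle.setoid φ)) ∈ A i := by
    intro d i
    simp only [c]
    split_ifs with h
    · constructor
      · intro e; rw [← Option.some.inj e]; exact h.choose_spec
      · intro e
        by_contra k
        exact Set.disjoint_left.1 (hdis _ _ fun e' => k (congrArg _ e')) h.choose_spec e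
    · exact ⟨fun e => by simp at e, fun e => absurd ⟨i, e⟩ h⟩
  refine clusters c _ φ α rfl hα hp (fun d => ?_) (fun r h1 h2 x y i hx hy => ?_) fun i j hij => ?_
  · have : (Quotient.mk _ (φ d) : Quotient (SameCycle.setoid φ)) = Quotient.mk _ d :=
      Quotient.sound ((S φ).symm (S_apply φ d))
    simp only [c, this]
  · have := hcon i _ ((hc x i).1 hx) _ ((hc y i).1 hy)
    have key : ∀ v, Relation.ReflTransGen (fun p q => p ∈ A i ∧ q ∈ A i ∧
        ∃ d, p = Quotient.mk _ d ∧ q = Quotient.mk _ (α d)) (Quotient.mk _ x) v →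
        ∀ z, Quotient.mk _ z = v → r x z := by
      intro v hv
      induction hv with
      | refl => intro z hz; exact r.symm (h1 (Quotient.exact hz))
      | tail _ hstep ih =>
        obtain ⟨k1, k2, d, rfl, rfl⟩ := hstep
        intro z hz
        refine r.trans (ih d rfl) (r.trans (h2 d ?_) (r.symm (h1 (Quotient.exact hz))))
        rw [(hc _ i).2 k1, (hc _ i).2 k2]
    exact key _ this y rfl
  · obtain ⟨u, hu, v, hv, d, rfl, rfl⟩ := hadj i j hij
    exact ⟨d, (hc _ _).2 hu, (hc _ _).2 hv⟩

end Crest.Agent.H2.ZK
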