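import Crest.Agent.H2.ZK1

/-! Cutting the faces of a planar map into segments; Euler's formula for reduced diagrams. -/

namespace Crest.Agent.H2.ZK

open Equiv Equiv.Perm Crest.Agent.H9.ZD Crest.Agent.H6.SC

variable {D : Type}

theorem exists_starts [Finite D] (φ : Perm D) (st : D) (M : ℕ) (hM : 0 < M) : ∃ C : Set D,
    st ∈ C ∧ (∀ s ∈ C, ∀ k, 0 < k → k < M → (φ ^ k) s ∈ C → (φ ^ k) s = s) ∧
    (∀ x, ∃ k : ℕ, (φ ^ k) x ∈ C) ∧ ∀ s ∈ C, ∃ k, 0 < k ∧ k ≤ 2 * M ∧ (φ ^ k) s ∈ C := by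
  let Sep : Set D → Prop := fun C =>
    st ∈ C ∧ ∀ s ∈ C, ∀ k, 0 < k → k < M → (φ ^ k) s ∈ C → (φ ^ k) s = s
  obtain ⟨C, hC, hmax⟩ := (Set.toFinite {C | Sep C}).exists_maximal ⟨{st}, rfl, by
    rintro s rfl k - - h; exact h⟩
  have add : ∀ x, (∀ s ∈ C, ∀ k, 0 < k → k < M → (φ ^ k) s ≠ x) →
      (∀ k, 0 < k → k < M → (φ ^ k) x ∉ C) → x ∈ C := by
    intro x h1 h2
    have : Sep (insert x C) := by
      refine ⟨Or.inr hC.1, ?_⟩
      rintro s (rfl | hs) k k0 kM (h | h)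
      · exact h
      · exact absurd h (h2 k k0 kM)
      · exact absurd h (h1 s hs k k0 kM)
      · exact hC.2 s hs k k0 kM h
    exact hmax this (Set.subset_insert x C) (Set.mem_insert x C)
  refine ⟨C, hC.1, hC.2, fun x => ?_, fun s hs => ?_⟩
  · by_contra h
    push Not at h
    refine h 0 (add x (fun s hs k _ _ e => ?_) fun k _ _ => h k)
    have : φ.SameCycle x s := SameCycle.symm ⟨k, by simpa using e⟩
    obtain ⟨j, -, hj⟩ := SameCycle.exists_pow_eq' this
    exact h j (hj ▸ hs)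
  · by_contra h
    push Not at h
    refine h M hM (by omega) (add _ (fun s' hs' k k0 kM e => ?_) fun k k0 kM => ?_)
    · have : s' = (φ ^ (M - k)) s := by
        apply (φ ^ k).injective
        rw [e, ← Perm.mul_apply, ← pow_add, Nat.add_sub_cancel' kM.le]
      exact h (M - k) (by omega) (by omega) (this ▸ hs')
    · rw [← Perm.mul_apply, ← pow_add]
      exact h _ (by omega) (by omega)

theorem cyc_le_card [Finite D] (f : Perm D) : cyc f ≤ Nat.card D :=
  Nat.card_le_card_of_surjective _ Quotient.mk_surjective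

theorem exists_close [Finite D] (C : Set D) (φ : Perm D) : ∃ φ' : Perm D,
    (∀ b, Planar φ b → Planar φ' b) ∧ cyc φ ≤ cyc φ' ∧ (∀ d, φ d ∉ C → φ' d = φ d) ∧
    (∀ d, φ d ∈ C → φ' d ∈ C) ∧ ∀ s ∈ C, ∀ s' ∈ C, φ'.SameCycle s s' → s = s' := by
  classical
  induction hn : Nat.card D - cyc φ using Nat.strong_induction_on generalizing φ with
  | _ n ih =>
  by_cases hex : ∃ s ∈ C, ∃ s' ∈ C, φ.SameCycle s s' ∧ s ≠ s'
  · obtain ⟨s, hs, s', hs', h, hne⟩ := hex
    have k1 := cyc_split hne h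
    have k2 := cyc_le_card (swap s s' * φ)
    obtain ⟨φ', h1, h2, h3, h4, h5⟩ := ih (Nat.card D - cyc (swap s s' * φ)) (by omega)
      (swap s s' * φ) rfl
    refine ⟨φ', fun b hb => h1 b (hb.split h), by omega, fun d hd => ?_, fun d hd => h4 d ?_, h5⟩
    · have e : (swap s s' * φ) d = φ d := by
        rw [Perm.mul_apply]
        exact swap_apply_of_ne_of_ne (fun k => hd (k ▸ hs)) fun k => hd (k ▸ hs')
      rw [h3 d (e ▸ hd), e]
    · rw [Perm.mul_apply, swap_apply_def]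
      split_ifs
      · exact hs'
      · exact hs
      · exact hd
  · push Not at hex
    exact ⟨φ, fun _ h => h, le_rfl, fun _ _ => rfl, fun _ h => h, hex⟩

/-- a segmentation of the faces -/
structure Seg (φ α : Perm D) (st : D) (M : ℕ) where
  ι : Type
  fin : Finite ι
  i₀ : ι
  b : ι → D
  n : ι → ℕ
  q : D → ι
  p : D → ℕ
  s1 : ∀ d, d ≠ st → p d < n (q d) ∧ (φ ^ p d) (b (q d)) = d
  s2 : ∀ i j, j < n i → (φ ^ j) (b i) ≠ st ∧ q ((φ ^ j) (b i)) = i ∧ p ((φ ^ j) (b i)) = j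
  s3 : b i₀ = φ st
  s4 : ∀ i, n i ≤ 2 * M
  s5 : ∀ i, i ≠ i₀ → M ≤ n i ∨ (0 < n i ∧ (φ ^ n i) (b i) = b i)
  s6 : NoK5 fun i j => ∃ d, i = q d ∧ j = q (α d)
  s7 : cyc φ ≤ Nat.card ι

theorem exists_seg [Finite D] {φ α : Perm D} (hα : ∀ d, α (α d) = d) (hp : Planar φ α) (st : D)
    (M : ℕ) (hM : 0 < M) : Nonempty (Seg φ α st M) := by
  classical
  obtain ⟨C, c1, c2, c3, c4⟩ := exists_starts φ st M hM
  obtain ⟨φ', h1, h2, h3, h4, h5⟩ := exists_close C φ
  have hex : ∀ s, ∃ k, 0 < k ∧ (φ ^ k) s ∈ C := by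
    intro s
    obtain ⟨k, hk⟩ := c3 (φ s)
    exact ⟨k + 1, Nat.succ_pos k, by rwa [pow_succ, Perm.mul_apply]⟩
  let ret : D → ℕ := fun s => Nat.find (hex s)
  have r1 : ∀ s, 0 < ret s ∧ (φ ^ ret s) s ∈ C := fun s => Nat.find_spec (hex s)
  have r2 : ∀ s k, 0 < k → k < ret s → (φ ^ k) s ∉ C := fun s k k0 hk h =>
    Nat.find_min (hex s) hk ⟨k0, h⟩
  have r3 : ∀ s j, j < ret s → (φ' ^ j) s = (φ ^ j) s := by
    intro s j
    induction j with
    | zero => intro; rfl
    | succ j ih =>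
      intro hj
      rw [pow_succ', Perm.mul_apply, ih (by omega), pow_succ', Perm.mul_apply]
      refine h3 _ ?_
      rw [← Perm.mul_apply, ← pow_succ']
      exact r2 s _ (Nat.succ_pos j) hj
  have r4 : ∀ s ∈ C, (φ' ^ ret s) s = s := by
    intro s hs
    refine (h5 s hs _ ?_ ⟨ret s, by simp⟩).symm
    obtain ⟨j, hj⟩ : ∃ j, ret s = j + 1 := ⟨ret s - 1, by have := (r1 s).1; omega⟩
    rw [hj, pow_succ', Perm.mul_apply, r3 s j (by omega)]
    refine h4 _ ?_
    rw [← Perm.mul_apply, ← pow_succ', ← hj]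
    exact (r1 s).2
  have r5 : ∀ (k : ℕ) d, (φ ^ k) d ∈ C → ∃ s ∈ C, φ'.SameCycle s d := by
    intro k
    induction k with
    | zero => intro d hd; exact ⟨d, hd, SameCycle.refl _ _⟩
    | succ k ih =>
      intro d hd
      by_cases h : φ d ∈ C
      · exact ⟨φ' d, h4 d h, SameCycle.symm (S_apply φ' d)⟩
      · obtain ⟨s, hs, hs'⟩ := ih (φ d) (by rwa [pow_succ, Perm.mul_apply] at hd)
        refine ⟨s, hs, hs'.trans ?_⟩
        rw [← h3 d h]; exact SameCycle.symm (S_apply φ' d)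
  let q : D → Quotient (SameCycle.setoid φ') := Quotient.mk _
  have hB : ∀ i : Quotient (SameCycle.setoid φ'), ∃ s ∈ C, q s = i := by
    intro i
    induction i using Quotient.inductionOn with | h d => ?_
    obtain ⟨k, hk⟩ := c3 d
    obtain ⟨s, hs, hs'⟩ := r5 k d hk
    exact ⟨s, hs, Quotient.sound hs'⟩
  choose B hB1 hB2 using hB
  have hpos : ∀ d, ∃ j < ret (B (q d)), (φ ^ j) (B (q d)) = d := by
    intro d
    obtain ⟨j, hj, e⟩ := sameCycle_of_period (r1 _).1 (r4 _ (hB1 (q d)))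
      (Quotient.exact (hB2 (q d)) : φ'.SameCycle (B (q d)) d)
    exact ⟨j, hj, by rw [← r3 _ j hj, e]⟩
  choose pos hpos1 hpos2 using hpos
  have u1 : ∀ s ∈ C, ∀ j j', j < ret s → j' < ret s → (φ ^ j) s = (φ ^ j') s → j = j' := by
    have key : ∀ s ∈ C, ∀ j j', j < j' → j' < ret s → (φ ^ j) s ≠ (φ ^ j') s := by
      intro s hs j j' hjj hj e
      have : s = (φ ^ (j' - j)) s := by
        apply (φ ^ j).injective
        rw [e, ← Perm.mul_apply, ← pow_add, Nat.add_sub_cancel' hjj.le]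
      exact r2 s (j' - j) (by omega) (by omega) (this ▸ hs)
    intro s hs j j' hj hj' e
    rcases lt_trichotomy j j' with h | h | h
    · exact absurd e (key s hs j j' h hj')
    · exact h
    · exact absurd e.symm (key s hs j' j h hj)
  have u2 : ∀ i j, j < ret (B i) → q ((φ ^ j) (B i)) = i ∧ pos ((φ ^ j) (B i)) = j := by
    intro i j hj
    have e : q ((φ ^ j) (B i)) = i := by
      refine Eq.trans ?_ (hB2 i)
      rw [← r3 _ j hj]
      exact Quotient.sound (SameCycle.symm ⟨j, by simp⟩)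
    refine ⟨e, ?_⟩
    have k1 := hpos1 ((φ ^ j) (B i))
    have k2 := hpos2 ((φ ^ j) (B i))
    rw [e] at k1 k2
    exact u1 _ (hB1 i) _ _ k1 hj k2
  have hst : B (q st) = st := h5 _ (hB1 _) _ c1 (Quotient.exact (hB2 (q st)))
  let off : Quotient (SameCycle.setoid φ') → ℕ := fun i => if i = q st then 1 else 0
  refine ⟨⟨Quotient (SameCycle.setoid φ'), inferInstance, q st, fun i => (φ ^ off i) (B i),
    fun i => ret (B i) - off i, q, fun d => pos d - off (q d), fun d hd => ?_, fun i j hj => ?_,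
    ?_, fun i => ?_, fun i hi => ?_, t4k D φ' α hα (h1 α hp), h2⟩⟩
  · have k0 : off (q d) ≤ pos d := by
      simp only [off]
      split_ifs with h
      · by_contra k
        have k2 := hpos2 d
        rw [show pos d = 0 by omega, h, hst] at k2
        exact hd k2.symm
      · exact Nat.zero_le _
    have := hpos1 d
    refine ⟨by omega, ?_⟩
    rw [← Perm.mul_apply, ← pow_add, Nat.sub_add_cancel k0, hpos2]
  · rw [← Perm.mul_apply, ← pow_add]
    obtain ⟨k1, k2⟩ := u2 i (j + off i) (by omega)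
    refine ⟨fun e => ?_, k1, by rw [k1, k2]; omega⟩
    rw [e] at k1 k2
    have k3 := (u2 (q st) 0 (r1 _).1).2
    rw [pow_zero, Perm.one_apply, hst] at k3
    have : off i = 1 := if_pos k1.symm
    omega
  · simp only [off, if_true, pow_one, hst]
  · obtain ⟨k, k0, kM, hk⟩ := c4 _ (hB1 i)
    have : ret (B i) ≤ k := Nat.find_min' (hex _) ⟨k0, hk⟩
    omega
  · have : off i = 0 := if_neg hi
    simp only [this, pow_zero, Perm.one_apply, Nat.sub_zero]
    by_cases h : M ≤ ret (B i)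
    · exact Or.inl h
    · exact Or.inr ⟨(r1 _).1, c2 _ (hB1 i) _ (r1 _).1 (by omega) (r1 _).2⟩

open Classical in
/-- Euler's formula for a reduced diagram -/
theorem euler {I V : Type} {E : Finset (V × I × V)} {r : V} (R : RD E r) [Fintype R.D] :
    2 ≤ cyc R.φ ∧
      (Finset.univ.filter fun d => R.φ (R.α (R.φ d)) ≠ R.α d).card ≤ 6 * cyc R.φ := by
  have hne : Nonempty R.D := ⟨R.st⟩
  have k0 : (1 : ℝ) ≤ comp R.φ R.α := by exact_mod_cast comp_pos R.φ R.α
  have k1 : (Nat.card R.D : ℝ) + 2 * comp R.φ R.α ≤ cyc R.φ + cyc R.α + cyc (R.φ * R.α) := by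
    exact_mod_cast R.planar
  have k2 := cyc_le_w R.α
  have k3 := cyc_le_w (R.φ * R.α)
  rw [← Equiv.sum_comp R.α] at k3
  have fix : ∀ d, R.φ d = R.α d → d = R.st := by
    intro d h
    by_contra hd
    refine R.nb d hd (fun e => hd ?_) (by rw [h, R.glue d hd])
    rw [← R.α_α d, ← h, e, R.α_st]
  have k4 : ∑ x, (if R.α x = x then (1 : ℝ) else if R.α (R.α x) = x then 1 / 2 else 1 / 3) ≤
      ∑ x : R.D, (1 / 2 + if x = R.st then 1 / 2 else 0 : ℝ) := Finset.sum_le_sum fun x _ => by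
    by_cases hx : x = R.st
    · rw [if_pos hx]; split_ifs <;> norm_num
    · rw [if_neg (R.α_ne x hx), if_neg hx]; split_ifs <;> norm_num
  have k5 : ∑ x, (if (R.φ * R.α) (R.α x) = R.α x then (1 : ℝ) else
      if (R.φ * R.α) ((R.φ * R.α) (R.α x)) = R.α x then 1 / 2 else 1 / 3) ≤
      ∑ x : R.D, ((1 / 2 + if x = R.st then (if R.φ R.st = R.st then 1 / 2 else 0) else 0) -
        (if R.φ (R.α (R.φ x)) ≠ R.α x then 1 / 6 else 0) : ℝ) := Finset.sum_le_sum fun x _ => by
    simp only [Perm.mul_apply, R.α_α]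
    by_cases h1 : R.φ x = R.α x
    · have hx := fix x h1
      subst hx
      rw [R.α_st] at h1
      simp only [h1, R.α_st]
      norm_num
    · rw [if_neg h1]
      split_ifs <;> first | contradiction | norm_num
  rw [Finset.sum_add_distrib, Finset.sum_ite_eq', if_pos (Finset.mem_univ _), Finset.sum_const,
    Finset.card_univ, ← Nat.card_eq_fintype_card, nsmul_eq_mul] at k4
  rw [Finset.sum_sub_distrib, Finset.sum_add_distrib, Finset.sum_ite_eq',
    if_pos (Finset.mem_univ _), Finset.sum_const, Finset.card_univ, ← Nat.card_eq_fintype_card,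
    nsmul_eq_mul, ← Finset.sum_filter, Finset.sum_const, nsmul_eq_mul] at k5
  have k6 := k2.trans (le_of_eq_of_le (by congr) k4)
  have k7 := k3.trans (le_of_eq_of_le (by congr) k5)
  have k8 : (0 : ℝ) ≤ (Finset.univ.filter fun d => R.φ (R.α (R.φ d)) ≠ R.α d).card :=
    Nat.cast_nonneg _
  constructor
  · by_cases h : R.φ R.st = R.st
    · obtain ⟨d, hd⟩ := R.ne
      refine Finite.one_lt_card_iff_nontrivial.2 ⟨Quotient.mk _ d, Quotient.mk _ R.st, fun e => ?_⟩
      exact hd (SameCycle.eq_of_right (Quotient.exact e) h)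
    · rw [if_neg h] at k7
      have : (1 : ℝ) < cyc R.φ := by linarith
      exact_mod_cast this
  · have : ((Finset.univ.filter fun d => R.φ (R.α (R.φ d)) ≠ R.α d).card : ℝ) ≤ 6 * cyc R.φ := by
      split_ifs at k7 <;> linarith
    exact_mod_cast this

end Crest.Agent.H2.ZK
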