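import Crest.Agent.H2.ZK2

/-! A reduced diagram contains a bounded piece (task `T4`). -/

namespace Crest.Agent.H2.ZK

open Equiv Equiv.Perm Crest.Agent.H9.ZD Crest.Agent.H6.SC Finset

variable {I V : Type} {E : Finset (V × I × V)} {r : V}

/-- the word read along a face -/
def wd (R : RD E r) : ℕ → R.D → List (I × Bool)
  | 0, _ => []
  | n + 1, s => R.lab s :: wd R n (R.φ s)

theorem wd_length (R : RD E r) : ∀ n s, (wd R n s).length = n
  | 0, _ => rfl
  | n + 1, s => by simp [wd, wd_length R n]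

theorem wd_walk (R : RD E r) : ∀ n s, (∀ j < n, (R.φ ^ j) s ≠ R.st) →
    Walk (St E) (R.tl s) (wd R n s) (R.tl ((R.φ ^ n) s))
  | 0, _, _ => rfl
  | n + 1, s, h => ⟨R.tl (R.φ s), R.step s (h 0 (Nat.succ_pos n)), by
      rw [pow_succ, Perm.mul_apply]
      exact wd_walk R n _ fun j hj => by
        rw [← Perm.mul_apply, ← pow_succ]; exact h _ (by omega)⟩

theorem wd_red (R : RD E r) : ∀ n s, (∀ j < n, (R.φ ^ j) s ≠ R.st) →
    FreeGroup.IsReduced (wd R n s)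
  | 0, _, _ => List.IsChain.nil
  | 1, _, _ => List.IsChain.singleton _
  | n + 2, s, h => by
    have ih := wd_red R (n + 1) (R.φ s) fun j hj => by
      rw [← Perm.mul_apply, ← pow_succ]; exact h _ (by omega)
    refine List.IsChain.cons_cons (fun e => ?_) ih
    by_contra k
    refine R.nb s (h 0 (by omega)) (by simpa using h 1 (by omega)) (Prod.ext e.symm ?_)
    simp only [inv]
    revert k
    cases (R.lab s).2 <;> cases (R.lab (R.φ s)).2 <;> simp

theorem face_girth (R : RD E r) {g : ℕ} (hg : Gir E g) {s : R.D} {n : ℕ} (hn : 0 < n)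
    (h1 : ∀ j < n, (R.φ ^ j) s ≠ R.st) (h2 : (R.φ ^ n) s = s) : g ≤ n := by
  have := hg (R.tl s) (wd R n s) (wd_red R n s h1)
    (fun e => by have := wd_length R n s; rw [e] at this; simp at this; omega)
    (by have := wd_walk R n s h1; rwa [h2] at this)
  rwa [wd_length] at this

open Classical in
/-- number of points with a property -/
noncomputable def cnt {D : Type} [Fintype D] (P : D → Prop) : ℕ := (univ.filter P).card

theorem cnt_eq {D : Type} [Fintype D] (P : D → Prop) [DecidablePred P] :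
    cnt P = (univ.filter P).card := by unfold cnt; congr

theorem cnt_congr {D : Type} [Fintype D] {P Q : D → Prop} (h : ∀ d, P d ↔ Q d) :
    cnt P = cnt Q := by rw [funext fun d => propext (h d)]

theorem cnt_le {D β : Type} [Fintype D] {P : D → Prop} (t : Finset β) (f : D → β)
    (h1 : ∀ d, P d → f d ∈ t) (h2 : ∀ d d', P d → P d' → f d = f d' → d = d') :
    cnt P ≤ t.card := by
  classical
  rw [cnt_eq]
  exact card_le_card_of_injOn f (fun d hd => h1 d (by simpa using hd))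
    fun d hd d' hd' => h2 d d' (by simpa using hd) (by simpa using hd')

theorem le_cnt {D β : Type} [Fintype D] {P : D → Prop} (t : Finset β) (f : β → D)
    (h1 : ∀ d ∈ t, P (f d)) (h2 : ∀ d ∈ t, ∀ d' ∈ t, f d = f d' → d = d') :
    t.card ≤ cnt P := by
  classical
  rw [cnt_eq]
  exact card_le_card_of_injOn f (fun d hd => by simpa using h1 d hd)
    fun d hd d' hd' => h2 d hd d' hd'

theorem card_fib {ι D : Type} [Fintype D] (q : D → ι) (P : D → Prop) (U : Finset ι) :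
    ∑ i ∈ U, ((cnt fun d => P d ∧ q d = i : ℕ) : ℝ) = cnt fun d => P d ∧ q d ∈ U := by
  classical
  rw [← Nat.cast_sum]
  congr 1
  have := Finset.sum_card_fiberwise_eq_card_filter (univ.filter P) U q
  simpa only [Finset.filter_filter, cnt_eq] using this

/-- irregular corners of a segmented diagram -/
def Bad (R : RD E r) {M : ℕ} (σ : Seg R.φ R.α R.st M) (d : R.D) : Prop :=
  d ≠ R.st ∧ σ.p d + 1 < σ.n (σ.q d) ∧
    ¬ (R.φ (R.α (R.φ d)) = R.α d ∧ σ.p (R.α (R.φ d)) + 1 < σ.n (σ.q (R.α (R.φ d))))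

theorem α_ne_st (R : RD E r) {d : R.D} (h : d ≠ R.st) : R.α d ≠ R.st := fun e =>
  h (by rw [← R.α_α d, e, R.α_st])

theorem Seg.next {D : Type} {φ α : Perm D} {st : D} {M : ℕ} (σ : Seg φ α st M) {d : D}
    (h : d ≠ st) (h' : σ.p d + 1 < σ.n (σ.q d)) :
    φ d ≠ st ∧ σ.q (φ d) = σ.q d ∧ σ.p (φ d) = σ.p d + 1 := by
  have := σ.s2 _ _ h'
  rwa [pow_succ', Perm.mul_apply, (σ.s1 d h).2] at this

theorem Seg.ext' {D : Type} {φ α : Perm D} {st : D} {M : ℕ} (σ : Seg φ α st M) {d d' : D}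
    (h : d ≠ st) (h' : d' ≠ st) (hq : σ.q d = σ.q d') (hp : σ.p d = σ.p d') : d = d' := by
  rw [← (σ.s1 d h).2, ← (σ.s1 d' h').2, hq, hp]

theorem card_bad (R : RD E r) [Fintype R.D] {M : ℕ} (σ : Seg R.φ R.α R.st M) :
    cnt (Bad R σ) ≤ 7 * Nat.card σ.ι := by
  classical
  have := σ.fin
  have := Fintype.ofFinite σ.ι
  have h1 := (euler R).2
  have h2 := σ.s7
  have h3 : (cnt fun d => d ≠ R.st ∧ σ.p d + 1 < σ.n (σ.q d) ∧
      ¬ σ.p (R.α (R.φ d)) + 1 < σ.n (σ.q (R.α (R.φ d)))) ≤ (univ : Finset σ.ι).card := by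
    refine cnt_le _ (fun d => σ.q (R.α (R.φ d))) (fun _ _ => mem_univ _) ?_
    intro d d' hd hd' e
    have k := α_ne_st R (σ.next hd.1 hd.2.1).1
    have k' := α_ne_st R (σ.next hd'.1 hd'.2.1).1
    have m := (σ.s1 _ k).1
    have m' := (σ.s1 _ k').1
    have n := hd.2.2
    have n' := hd'.2.2
    rw [e] at m n
    exact R.φ.injective (R.α.injective (σ.ext' k k' e (by omega)))
  rw [card_univ, ← Nat.card_eq_fintype_card, cnt_eq] at h3
  have h4 : univ.filter (Bad R σ) ⊆ (univ.filter fun d => R.φ (R.α (R.φ d)) ≠ R.α d) ∪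
      univ.filter fun d => d ≠ R.st ∧ σ.p d + 1 < σ.n (σ.q d) ∧
      ¬ σ.p (R.α (R.φ d)) + 1 < σ.n (σ.q (R.α (R.φ d))) := by
    intro d hd
    simp only [Bad, mem_filter, mem_univ, true_and, mem_union] at hd ⊢
    tauto
  have h5 := (card_le_card h4).trans (card_union_le _ _)
  rw [cnt_eq]
  omega

theorem exists_U (h4a : T4a) (L : ℕ) (η : ℝ) (hL : 1 ≤ L) (hη : 0 < η) : ∃ K : ℕ,
    ∀ (g : ℕ) (I V : Type) (E : Finset (V × I × V)) (r : V), 0 < g → Gir E g →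
    ∀ (R : RD E r) [Fintype R.D] (σ : Seg R.φ R.α R.st (L * g)), ∃ U : Finset σ.ι,
      U.card ≤ K ∧ g ≤ ∑ i ∈ U, σ.n i ∧
      (cnt fun d => (d ≠ R.st ∧ σ.q (R.α d) ∉ U) ∧ σ.q d ∈ U : ℝ) ≤
        η * ∑ i ∈ U, (σ.n i : ℝ) ∧
      (cnt fun d => Bad R σ d ∧ σ.q d ∈ U) ≤ 112 * K * L := by
  classical
  have hL' : (1 : ℝ) ≤ L := by exact_mod_cast hL
  obtain ⟨K, hK⟩ := h4a (2 * L) η (by positivity) hη
  refine ⟨K, fun g I V E r hg hG R _ σ => ?_⟩
  have := σ.fin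
  have := Fintype.ofFinite σ.ι
  have hg' : (0 : ℝ) < g := by exact_mod_cast hg
  have hn : ∀ i, (σ.n i : ℝ) / g ≤ 2 * L := by
    intro i
    rw [div_le_iff₀ hg']
    have := σ.s4 i
    rw [← mul_assoc] at this
    exact_mod_cast this
  have hng : ∀ i, i ≠ σ.i₀ → g ≤ σ.n i := by
    intro i hi
    rcases σ.s5 i hi with h | ⟨h1, h2⟩
    · exact le_trans (Nat.le_mul_of_pos_left g hL) h
    · exact face_girth R hG h1 (fun j hj => (σ.s2 i j hj).1) h2
  let wt : σ.ι → ℝ := fun i => if i = σ.i₀ then 0 else σ.n i / g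
  have w0 : ∀ i, 0 ≤ wt i := fun i => by simp only [wt]; split_ifs <;> positivity
  have w1 : ∀ i, wt i ≤ σ.n i / g := fun i => by
    simp only [wt]; split_ifs
    · positivity
    · exact le_rfl
  have w2 : ∀ i, i ≠ σ.i₀ → 1 ≤ wt i := fun i hi => by
    simp only [wt, if_neg hi]
    rw [one_le_div hg']; exact_mod_cast hng i hi
  have w3 : (Nat.card σ.ι : ℝ) ≤ ∑ i, wt i + 1 := by
    have : ∑ _i : σ.ι, (1 : ℝ) ≤ ∑ i, (wt i + if i = σ.i₀ then 1 else 0) :=
      sum_le_sum fun i _ => by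
        by_cases hi : i = σ.i₀
        · rw [if_pos hi]; linarith [w0 i]
        · rw [if_neg hi]; linarith [w2 i hi]
    rwa [sum_add_distrib, sum_ite_eq', if_pos (mem_univ _), sum_const, card_univ, nsmul_eq_mul,
      mul_one, ← Nat.card_eq_fintype_card] at this
  have w4 : (2 : ℝ) ≤ Nat.card σ.ι := by exact_mod_cast (euler R).1.trans σ.s7
  have w5 : (cnt (Bad R σ) : ℝ) ≤ 7 * Nat.card σ.ι := by
    exact_mod_cast card_bad R σ
  obtain ⟨U, u1, u2, u3⟩ := hK σ.ι (fun i j => ∃ d, i = σ.q d ∧ j = σ.q (R.α d)) wt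
    (fun i => η / 56 * (cnt fun d => Bad R σ d ∧ σ.q d = i : ℕ))
    (fun i j => (cnt fun d => (d ≠ R.st ∧ σ.q d = i) ∧ σ.q (R.α d) = j : ℕ) / g)
    σ.i₀ (by
      rintro _ _ ⟨d, rfl, rfl⟩
      exact ⟨R.α d, rfl, by rw [R.α_α]⟩) σ.s6 (fun i => ⟨w0 i, (w1 i).trans (hn i)⟩) w2
    (fun i => by positivity) (fun i j => by positivity) (by
      intro i j _ h
      rw [cnt_eq, filter_eq_empty_iff.2 fun d _ k => h ⟨d, k.1.2.symm, k.2.symm⟩]
      simp) (by
      intro j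
      refine le_trans ?_ (hn j)
      rw [← sum_div]
      refine div_le_div_of_nonneg_right ?_ hg'.le
      have e : ∀ i, (cnt fun d => (d ≠ R.st ∧ σ.q d = i) ∧ σ.q (R.α d) = j) =
          cnt fun d => (d ≠ R.st ∧ σ.q (R.α d) = j) ∧ σ.q d = i := fun i =>
        cnt_congr fun d => by tauto
      simp only [e]
      rw [card_fib σ.q fun d => d ≠ R.st ∧ σ.q (R.α d) = j]
      have : (cnt fun d => (d ≠ R.st ∧ σ.q (R.α d) = j) ∧ σ.q d ∈ univ) ≤
          (range (σ.n j)).card := by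
        refine cnt_le _ (fun d => σ.p (R.α d)) (fun d hd => ?_) ?_
        · have := (σ.s1 _ (α_ne_st R hd.1.1)).1
          rw [hd.1.2] at this
          simpa using this
        · intro d d' hd hd' e
          exact R.α.injective (σ.ext' (α_ne_st R hd.1.1) (α_ne_st R hd'.1.1)
            (hd.1.2.trans hd'.1.2.symm) e)
      rw [card_range] at this
      exact_mod_cast this) (by linarith) (by
      rw [← mul_sum, card_fib σ.q (Bad R σ)]
      simp only [mem_univ, and_true]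
      have : (cnt (Bad R σ) : ℝ) ≤ 14 * ∑ i, wt i := by linarith
      calc η / 56 * (cnt (Bad R σ) : ℝ) ≤ η / 56 * (14 * ∑ i, wt i) := by gcongr
        _ = η / 4 * ∑ i, wt i := by ring)
  have e : ∀ i, ∑ j ∈ Uᶜ,
      ((cnt fun d => (d ≠ R.st ∧ σ.q d = i) ∧ σ.q (R.α d) = j : ℕ) / g : ℝ) =
      (cnt fun d => (d ≠ R.st ∧ σ.q (R.α d) ∉ U) ∧ σ.q d = i : ℕ) / g := by
    intro i
    rw [← sum_div, card_fib (fun d => σ.q (R.α d)) fun d => d ≠ R.st ∧ σ.q d = i]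
    congr 2
    exact cnt_congr fun d => by rw [mem_compl]; tauto
  simp only [e] at u3
  rw [sum_add_distrib, ← mul_sum, ← sum_div, card_fib σ.q (Bad R σ),
    card_fib σ.q fun d => d ≠ R.st ∧ σ.q (R.α d) ∉ U] at u3
  have v1 : ∑ i ∈ U, wt i ≤ (∑ i ∈ U, (σ.n i : ℝ)) / g := by
    rw [sum_div]; exact sum_le_sum fun i _ => w1 i
  have v2 : ∑ i ∈ U, wt i ≤ K * (2 * L) := by
    have := sum_le_card_nsmul U wt (2 * L) fun i _ => (w1 i).trans (hn i)
    rw [nsmul_eq_mul] at this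
    refine this.trans ?_
    gcongr
  refine ⟨U, u1, ?_, ?_, ?_⟩
  · obtain ⟨i, hi, hi'⟩ := exists_lt_of_sum_lt (s := U) (f := fun _ => (0 : ℝ)) (g := wt)
      (by simpa using u2)
    have : i ≠ σ.i₀ := fun e => by simp [wt, e] at hi'
    exact (hng i this).trans (single_le_sum (f := σ.n) (fun _ _ => Nat.zero_le _) hi)
  · have k : (0 : ℝ) ≤ η / 56 * (cnt fun d => Bad R σ d ∧ σ.q d ∈ U : ℕ) := by
      positivity
    have := ((le_add_of_nonneg_left k).trans u3).trans (mul_le_mul_of_nonneg_left v1 hη.le)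
    rwa [← mul_div_assoc, div_le_div_iff_of_pos_right hg'] at this
  · have k : (0 : ℝ) ≤ (cnt fun d => (d ≠ R.st ∧ σ.q (R.α d) ∉ U) ∧ σ.q d ∈ U : ℕ) /
        (g : ℝ) := by positivity
    have k2 : η / 56 * (cnt fun d => Bad R σ d ∧ σ.q d ∈ U : ℕ) ≤
        η * (K * (2 * L)) :=
      (le_trans (by linarith) u3).trans (mul_le_mul_of_nonneg_left v2 hη.le)
    have k3 : ((cnt fun d => Bad R σ d ∧ σ.q d ∈ U : ℕ) : ℝ) ≤ 112 * K * L := by
      refine le_of_mul_le_mul_left ?_ hη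
      linarith
    exact_mod_cast k3

theorem piece_of_U (R : RD E r) [Fintype R.D] {g L K B : ℕ} {η : ℝ} (hη : 0 < η) (hg : 0 < g)
    (σ : Seg R.φ R.α R.st (L * g)) (U : Finset σ.ι) (u1 : U.card ≤ K) (u2 : g ≤ ∑ i ∈ U, σ.n i)
    (u3 : (cnt fun d => (d ≠ R.st ∧ σ.q (R.α d) ∉ U) ∧ σ.q d ∈ U : ℝ) ≤ η * ∑ i ∈ U, (σ.n i : ℝ))
    (u4 : (cnt fun d => Bad R σ d ∧ σ.q d ∈ U) ≤ B) : Nonempty (Piece E r g L K B η) := by
  classical
  have hU : U.Nonempty := by
    rw [nonempty_iff_ne_empty]; rintro rfl; simp at u2; omega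
  have hK : Nonempty (Fin K) := ⟨⟨0, lt_of_lt_of_le hU.card_pos u1⟩⟩
  have hι : Nonempty σ.ι := ⟨σ.i₀⟩
  obtain ⟨e⟩ : Nonempty (U ↪ Fin K) :=
    Function.Embedding.nonempty_of_card_le (by simpa using u1)
  let G : σ.ι → Fin K := fun i => if h : i ∈ U then e ⟨i, h⟩ else Classical.arbitrary _
  have hG : Set.InjOn G U := by
    intro i hi j hj h
    simp only [G, dif_pos (mem_coe.1 hi), dif_pos (mem_coe.1 hj)] at h
    exact congrArg Subtype.val (e.injective h)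
  obtain ⟨F, hF⟩ : ∃ F : Fin K → σ.ι, ∀ i ∈ U, F (G i) = i :=
    ⟨Function.invFunOn G U, fun i hi => hG.leftInvOn_invFunOn hi⟩
  let len : Fin K → ℕ := fun k => if F k ∈ U ∧ G (F k) = k then σ.n (F k) else 0
  let dd : Fin K × ℕ → R.D := fun t => (R.φ ^ t.2) (σ.b (F t.1))
  let a : Fin K × ℕ → Fin K × ℕ := fun t =>
    if σ.q (R.α (dd t)) ∈ U then (G (σ.q (R.α (dd t))), σ.p (R.α (dd t))) else t
  have l0 : ∀ k, 0 < len k → F k ∈ U ∧ G (F k) = k ∧ len k = σ.n (F k) := by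
    intro k hk
    simp only [len] at hk ⊢
    split_ifs at hk ⊢ with h
    · exact ⟨h.1, h.2, rfl⟩
    · omega
  have l1 : ∀ i ∈ U, len (G i) = σ.n i := by
    intro i hi
    simp only [len, hF i hi, hi, true_and, if_true]
  have d0 : ∀ t, dd (nx t) = R.φ (dd t) := fun t => by
    simp only [dd, nx, pow_succ', Perm.mul_apply]
  have d1 : ∀ t : Fin K × ℕ, t.2 < len t.1 → dd t ≠ R.st ∧ σ.q (dd t) = F t.1 ∧ σ.p (dd t) = t.2 :=
    fun t ht => σ.s2 _ _ (by rw [← (l0 t.1 (by omega)).2.2]; exact ht)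
  have d2 : ∀ t t' : Fin K × ℕ, t.2 < len t.1 → t'.2 < len t'.1 → dd t = dd t' → t = t' := by
    intro t t' ht ht' h
    obtain ⟨-, k1, k2⟩ := d1 t ht
    obtain ⟨-, k1', k2'⟩ := d1 t' ht'
    rw [h] at k1 k2
    refine Prod.ext ?_ (k2.symm.trans k2')
    rw [← (l0 t.1 (by omega)).2.1, ← (l0 t'.1 (by omega)).2.1, ← k1, ← k1']
  have d3 : ∀ d, d ≠ R.st → σ.q d ∈ U →
      σ.p d < len (G (σ.q d)) ∧ dd (G (σ.q d), σ.p d) = d := by
    intro d hd hq
    simp only [dd, l1 _ hq, hF _ hq]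
    exact σ.s1 d hd
  have a1 : ∀ t : Fin K × ℕ, t.2 < len t.1 → σ.q (R.α (dd t)) ∈ U →
      (a t).2 < len (a t).1 ∧ dd (a t) = R.α (dd t) ∧ a t ≠ t := by
    intro t ht h
    have k : a t = (G (σ.q (R.α (dd t))), σ.p (R.α (dd t))) := if_pos h
    obtain ⟨k1, k2⟩ := d3 _ (α_ne_st R (d1 t ht).1) h
    refine ⟨by rw [k]; exact k1, by rw [k]; exact k2, fun e => ?_⟩
    rw [← k, e] at k2
    exact R.α_ne _ (d1 t ht).1 k2.symm
  have a2 : ∀ t : Fin K × ℕ, σ.q (R.α (dd t)) ∉ U → a t = t := fun t h => if_neg h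
  have hsum : ∑ i ∈ U, σ.n i ≤ ∑ k, len k := by
    rw [← sum_congr rfl l1, ← sum_image (s := U) (g := G) (f := len) hG]
    exact sum_le_sum_of_subset (subset_univ _)
  refine ⟨⟨len, fun t => R.tl (dd t), fun t => R.lab (dd t),
    fun k => (R.φ ^ σ.n (F k)) (σ.b (F k)) = σ.b (F k), fun k => F k = σ.i₀ ∧ 0 < len k, a,
    fun k => ?_, fun t ht => ?_, fun t ht => ?_, fun k h1 h2 => ?_, fun k h => ?_,
    fun k k' h h' => ?_, fun k h1 h2 => ?_, u2.trans hsum, fun t ht => ?_, fun t ht => ?_,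
    fun t ht h => ?_, ?_, ?_⟩⟩
  · simp only [len]
    split_ifs
    · rw [mul_assoc]; exact σ.s4 _
    · exact Nat.zero_le _
  · rw [d0]; exact R.step _ (d1 t ht).1
  · rw [d0]
    refine R.nb _ (d1 t (by omega)).1 ?_
    rw [← d0]; exact (d1 (nx t) ht).1
  · have m : dd (k, len k) = dd (k, 0) := by
      simp only [dd, (l0 k h2).2.2, h1, pow_zero, Perm.one_apply]
    refine ⟨by rw [m], ?_⟩
    have k' : dd (k, 0) = R.φ (dd (k, len k - 1)) := by
      rw [← d0, ← m]; congr 1; simp only [nx]; congr 1; omega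
    rw [k']
    refine R.nb _ (d1 (k, len k - 1) (by simp only; omega)).1 ?_
    rw [← k']; exact (d1 (k, 0) h2).1
  · refine ⟨?_, h.2⟩
    have m : dd (k, 0) = R.φ R.st := by
      simp only [dd, h.1, pow_zero, Perm.one_apply, σ.s3]
    have := (d1 (k, 0) h.2).1
    rw [m] at this ⊢
    exact R.root this
  · rw [← (l0 k h.2).2.1, ← (l0 k' h'.2).2.1, h.1, h'.1]
  · rcases Nat.eq_zero_or_pos (len k) with h | h
    · exact Or.inl h
    · refine Or.inr ?_
      rw [(l0 k h).2.2]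
      rcases σ.s5 (F k) (fun e => h2 ⟨e, h⟩) with k | k
      · exact k
      · exact absurd k.2 h1
  · by_cases h : σ.q (R.α (dd t)) ∈ U
    · exact (a1 t ht h).1
    · rw [a2 t h]; exact ht
  · by_cases h : σ.q (R.α (dd t)) ∈ U
    · obtain ⟨k1, k2, -⟩ := a1 t ht h
      have k3 : σ.q (R.α (dd (a t))) ∈ U := by
        rw [k2, R.α_α, (d1 t ht).2.1]; exact (l0 t.1 (by omega)).1
      obtain ⟨k4, k5, -⟩ := a1 (a t) k1 k3
      exact d2 _ _ k4 ht (by rw [k5, k2, R.α_α])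
    · rw [a2 t h, a2 t h]
  · have k : σ.q (R.α (dd t)) ∈ U := by by_contra k; exact h (a2 t k)
    rw [(a1 t ht k).2.1, d0]
    exact ⟨R.glue _ (d1 t ht).1, R.nonorig _ (d1 t ht).1⟩
  · refine le_trans ?_ (u3.trans (mul_le_mul_of_nonneg_left (by exact_mod_cast hsum) hη.le))
    refine Nat.cast_le.2 (le_cnt _ dd (fun t ht => ?_) fun t ht t' ht' => ?_)
    · rw [mem_filter, mem_sides] at ht
      refine ⟨⟨(d1 t ht.1).1, fun k => (a1 t ht.1 k).2.2 ht.2⟩, ?_⟩
      rw [(d1 t ht.1).2.1]; exact (l0 t.1 (by omega)).1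
    · rw [mem_filter, mem_sides] at ht ht'
      exact d2 t t' ht.1 ht'.1
  · refine le_trans (le_cnt _ dd (fun t ht => ?_) fun t ht t' ht' => ?_) u4
    · rw [mem_filter, mem_sides] at ht
      obtain ⟨ht, ht1, ht2⟩ := ht
      obtain ⟨k1, k2, k3⟩ := d1 t ht
      refine ⟨⟨k1, by rw [k2, k3, ← (l0 t.1 (by omega)).2.2]; exact ht1, fun h => ht2 ?_⟩,
        by rw [k2]; exact (l0 t.1 (by omega)).1⟩
      rw [← d0] at h
      obtain ⟨m1, m2, m3⟩ := σ.next (α_ne_st R (d1 (nx t) ht1).1) h.2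
      rw [h.1] at m2 m3
      by_cases hq : σ.q (R.α (dd t)) ∈ U
      · have hq' : σ.q (R.α (dd (nx t))) ∈ U := m2 ▸ hq
        refine Or.inr ⟨(a1 t ht hq).2.2, (a1 (nx t) ht1 hq').2.2, ?_⟩
        have e1 : a t = (G (σ.q (R.α (dd t))), σ.p (R.α (dd t))) := if_pos hq
        have e2 : a (nx t) = (G (σ.q (R.α (dd (nx t)))), σ.p (R.α (dd (nx t)))) := if_pos hq'
        rw [e1, e2, m2, m3]; rfl
      · exact Or.inl ⟨a2 t hq, a2 _ (m2 ▸ hq)⟩
    · rw [mem_filter, mem_sides] at ht ht'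
      exact d2 t t' ht.1 ht'.1

theorem t4 (h4a : T4a) : T4 := by
  intro L η hL hη
  obtain ⟨K, hK⟩ := exists_U h4a L η hL hη
  refine ⟨K, 112 * K * L, fun g I V E r hg _ hG R => ?_⟩
  have := R.fin
  have := Fintype.ofFinite R.D
  have hg0 : 0 < g := by omega
  obtain ⟨σ⟩ := exists_seg R.α_α R.planar R.st (L * g) (Nat.mul_pos hL hg0)
  obtain ⟨U, u1, u2, u3, u4⟩ := hK g I V E r hg0 hG R σ
  exact piece_of_U R hη hg0 σ U u1 u2 u3 u4

end Crest.Agent.H2.ZK
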